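import Vale.Agent.P028.H472.C.NBasic
import Vale.Agent.P028.KCore
import Vale.Agent.P028.BT1

/-!
# Windows: arithmetic of the denominators
-/

namespace Vale.P028

open Finset MeasureTheory

/-! ### generalities -/

theorem n3_pow {s e : ℝ} (hs : 0 < s) (hs1 : s ≤ 1 / 1000) (he : 1 / 3 ≤ e) :
    s ^ e ≤ 1 / 10 := by
  have h1 : s ^ e ≤ s ^ (1 / 3 : ℝ) :=
    Real.rpow_le_rpow_of_exponent_ge hs (hs1.trans (by norm_num)) he
  have h2 : s ^ (1 / 3 : ℝ) ≤ (1 / 1000 : ℝ) ^ (1 / 3 : ℝ) :=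
    Real.rpow_le_rpow hs.le hs1 (by norm_num)
  have h3 : (1 / 1000 : ℝ) ^ (1 / 3 : ℝ) = 1 / 10 := by
    rw [show (1 / 1000 : ℝ) = (1 / 10 : ℝ) ^ (3 : ℝ) by norm_num, ← Real.rpow_mul (by norm_num)]
    norm_num
  rw [h3] at h2
  exact h1.trans h2

theorem n3_V {s V : ℝ} (h : NHyp (1 / 1000) s V) : 1 ≤ s * V := by
  obtain ⟨hs, hs1, hV, hL⟩ := h
  have h1 : 1 ≤ Real.log (1 / s) := by
    rw [Real.le_log_iff_exp_le (by positivity)]
    have h2 : Real.exp 1 < 3 := lt_trans Real.exp_one_lt_d9 (by norm_num)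
    have h3 : (1000 : ℝ) ≤ 1 / s := by
      rw [le_div_iff₀ hs]
      linarith only [hs1]
    linarith only [h2, h3]
  have h2 : Real.log (1 / s) ≤ Real.log V := by nlinarith only [h1, hL]
  have h3 : 1 / s ≤ V := (Real.log_le_log_iff (by positivity) hV).mp h2
  rw [div_le_iff₀ hs] at h3
  linarith only [h3]

theorem n3_V1 {s V : ℝ} (h : NHyp (1 / 1000) s V) : 1 ≤ V := by
  have h1 := n3_V h
  obtain ⟨hs, hs1, hV, hL⟩ := h
  nlinarith only [h1, hs, hs1, hV]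

theorem n3_round {x : ℝ} {z : ℤ} (h : |x - z| < 1 / 2) : round x = z := by
  rw [round_eq, Int.floor_eq_iff]
  rw [abs_lt] at h
  constructor <;> linarith only [h.1, h.2]

theorem n3_distInt_nonneg (x : ℝ) : 0 ≤ distInt x := abs_nonneg _

/-- cross differences of two approximations -/
theorem n3_cross {γ x y : ℝ} {B B' : ℕ} (h : distInt ((B : ℝ) * γ) ≤ x)
    (h' : distInt ((B' : ℝ) * γ) ≤ y) (hlt : (B' : ℝ) * x + B * y < 1) :
    round ((B : ℝ) * γ) * (B' : ℤ) = round ((B' : ℝ) * γ) * (B : ℤ) := by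
  set k := round ((B : ℝ) * γ) with hk
  set k' := round ((B' : ℝ) * γ) with hk'
  have h1 : |(B : ℝ) * γ - k| ≤ x := h
  have h2 : |(B' : ℝ) * γ - k'| ≤ y := h'
  have hB : (0 : ℝ) ≤ B := Nat.cast_nonneg _
  have hB' : (0 : ℝ) ≤ B' := Nat.cast_nonneg _
  have h3 : |((k * (B' : ℤ) - k' * (B : ℤ) : ℤ) : ℝ)| < 1 := by
    have e : ((k * (B' : ℤ) - k' * (B : ℤ) : ℤ) : ℝ) =
        (B : ℝ) * ((B' : ℝ) * γ - k') - (B' : ℝ) * ((B : ℝ) * γ - k) := by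
      push_cast
      ring
    rw [e]
    calc |(B : ℝ) * ((B' : ℝ) * γ - k') - (B' : ℝ) * ((B : ℝ) * γ - k)|
        ≤ |(B : ℝ) * ((B' : ℝ) * γ - k')| + |(B' : ℝ) * ((B : ℝ) * γ - k)| := abs_sub _ _
      _ = (B : ℝ) * |(B' : ℝ) * γ - k'| + (B' : ℝ) * |(B : ℝ) * γ - k| := by
          rw [abs_mul, abs_mul, abs_of_nonneg hB, abs_of_nonneg hB']
      _ ≤ (B : ℝ) * y + (B' : ℝ) * x := by gcongr
      _ < 1 := by linarith only [hlt]
  have h4 : |k * (B' : ℤ) - k' * (B : ℤ)| < 1 := by exact_mod_cast h3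
  have h5 := Int.abs_lt_one_iff.mp h4
  linarith only [h5]

/-! ### reduction of a bad multiplier -/

theorem bad_reduce : ∃ s₀ > 0, ∀ γ s V : ℝ, NHyp s₀ s V → ∀ a : ℕ, 0 < a →
    (a : ℝ) ≤ V * s ^ (-(3 / 16) : ℝ) → NBad γ s V a →
    ∃ B h : ℕ, 0 < h ∧ (h : ℝ) ≤ s ^ (-(1 / 16) : ℝ) ∧ B ∣ h * a ∧ NB γ s V B := by
  refine ⟨1 / 1000, by norm_num, ?_⟩
  intro γ s V hyp a ha haV hbad
  obtain ⟨hs, hs1, hV, hL⟩ := hyp
  obtain ⟨h, hh, hhs, hd⟩ := hbad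
  set n : ℕ := h * a with hn
  have hn0 : 0 < n := Nat.mul_pos hh ha
  have hnR : (n : ℝ) = h * a := by rw [hn]; push_cast; ring
  set k : ℤ := round ((n : ℝ) * γ) with hk
  set d : ℕ := Int.gcd k n with hdd
  have hd0 : 0 < d := Int.gcd_pos_of_ne_zero_right _ (by exact_mod_cast hn0.ne')
  have hdR : (1 : ℝ) ≤ d := by exact_mod_cast hd0
  have hdn : d ∣ n := by
    have := Int.gcd_dvd_right k n
    exact_mod_cast this
  have hdk : (d : ℤ) ∣ k := Int.gcd_dvd_left k n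
  obtain ⟨B, hB⟩ := hdn
  obtain ⟨K, hK⟩ := hdk
  have hB0 : 0 < B := by
    rcases Nat.eq_zero_or_pos B with h0 | h0
    · rw [h0, mul_zero] at hB
      omega
    · exact h0
  have hdist : |(n : ℝ) * γ - k| < a * tb s V := by
    have h1 := hd
    rw [← hnR] at h1
    exact h1
  have hnB : (n : ℝ) = d * B := by exact_mod_cast congrArg (fun z : ℕ => (z : ℝ)) hB
  have hkK : (k : ℝ) = d * K := by exact_mod_cast congrArg (fun z : ℤ => (z : ℝ)) hK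
  have h2 : (d : ℝ) * |(B : ℝ) * γ - K| < a * tb s V := by
    have e : (n : ℝ) * γ - k = d * ((B : ℝ) * γ - K) := by rw [hnB, hkK]; ring
    rw [e, abs_mul, abs_of_pos (by linarith only [hdR])] at hdist
    exact hdist
  have htb0 : 0 < tb s V := by unfold tb; positivity
  have htba : (a : ℝ) * tb s V ≤ 1 / 10 := by
    calc (a : ℝ) * tb s V ≤ (V * s ^ (-(3 / 16) : ℝ)) * (s ^ (27 / 32 : ℝ) / V) := by
          unfold tb
          gcongr
      _ = s ^ (-(3 / 16) : ℝ) * s ^ (27 / 32 : ℝ) := by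
          field_simp
      _ = s ^ (21 / 32 : ℝ) := by
          rw [← Real.rpow_add hs]; norm_num
      _ ≤ 1 / 10 := n3_pow hs hs1 (by norm_num)
  have h3 : |(B : ℝ) * γ - K| < 1 / 2 := by
    have h4 := abs_nonneg ((B : ℝ) * γ - K)
    nlinarith only [h2, htba, hdR, h4]
  have hround : round ((B : ℝ) * γ) = K := n3_round h3
  refine ⟨B, h, hh, hhs, ⟨d, by rw [← hn, hB, mul_comm]⟩, hB0, ?_, ?_⟩
  · rw [hround]
    have h4 : Int.gcd k n = d * Int.gcd K B := by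
      conv_lhs => rw [hK, hB]
      push_cast
      rw [Int.gcd_mul_left, Int.natAbs_natCast]
    have h5 : d * Int.gcd K B = d * 1 := by rw [← h4, mul_one]
    exact Nat.eq_of_mul_eq_mul_left hd0 h5
  · unfold distInt
    rw [hround]
    have h4 : (a : ℝ) ≤ n := by
      have h5 : (1 : ℝ) ≤ h := by exact_mod_cast hh
      rw [hnR]
      have h6 : (0 : ℝ) ≤ a := Nat.cast_nonneg _
      nlinarith only [h5, h6]
    have h5 : (d : ℝ) * |(B : ℝ) * γ - K| < d * (B * tb s V) := by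
      calc (d : ℝ) * |(B : ℝ) * γ - K| < a * tb s V := h2
        _ ≤ n * tb s V := by gcongr
        _ = d * (B * tb s V) := by rw [hnB]; ring
    exact lt_of_mul_lt_mul_left h5 (by linarith only [hdR])

/-! ### small denominators: the window is empty -/

theorem far_empty : ∃ s₀ > 0, ∀ γ s V : ℝ, NHyp s₀ s V → ∀ B : ℕ, NB γ s V B →
    (B : ℝ) ≤ s ^ (-(1 / 4) : ℝ) → ∀ u v : ℕ, ¬ NWin γ s V u v := by
  refine ⟨1 / 1000, by norm_num, ?_⟩
  intro γ s V hyp B hB hBs u v hwin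
  have hsV := n3_V hyp
  have hV1 := n3_V1 hyp
  obtain ⟨hs, hs1, hV, hL⟩ := hyp
  obtain ⟨hB0, hBg, hBd⟩ := hB
  obtain ⟨hw1, hw2, hw3, hw4, hw5⟩ := hwin
  have hBR : (1 : ℝ) ≤ B := by exact_mod_cast hB0
  have htb0 : 0 < tb s V := by unfold tb; positivity
  have hsp : ∀ e : ℝ, 0 < s ^ e := fun e => Real.rpow_pos_of_pos hs e
  -- the precision
  have htb1 : tb s V ≤ s ^ (27 / 32 : ℝ) * s := by
    unfold tb
    rw [div_le_iff₀ hV]
    have := hsp (27 / 32 : ℝ)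
    nlinarith only [this, hsV]
  have h27 : s ^ (27 / 32 : ℝ) * s ^ (-(1 / 4) : ℝ) ≤ 1 / 10 := by
    rw [← Real.rpow_add hs]
    exact n3_pow hs hs1 (by norm_num)
  have hBtb : (B : ℝ) * tb s V ≤ s / 10 := by
    calc (B : ℝ) * tb s V ≤ s ^ (-(1 / 4) : ℝ) * (s ^ (27 / 32 : ℝ) * s) := by
          gcongr
      _ = (s ^ (27 / 32 : ℝ) * s ^ (-(1 / 4) : ℝ)) * s := by ring
      _ ≤ 1 / 10 * s := by gcongr
      _ = s / 10 := by ring
  have h4sB : 4 * s * (B : ℝ) ≤ 4 / 10 := by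
    calc 4 * s * (B : ℝ) ≤ 4 * s * s ^ (-(1 / 4) : ℝ) := by gcongr
      _ = 4 * (s ^ (1 : ℝ) * s ^ (-(1 / 4) : ℝ)) := by rw [Real.rpow_one]; ring
      _ = 4 * s ^ (3 / 4 : ℝ) := by
          rw [← Real.rpow_add hs]; norm_num
      _ ≤ 4 * (1 / 10) := by
          have := n3_pow hs hs1 (e := 3 / 4) (by norm_num)
          linarith only [this]
      _ = 4 / 10 := by norm_num
  have hbadat : BadAt γ s B := by
    refine ⟨⟨hB0, ?_, ?_⟩, ?_⟩
    · linarith only [hBd, hBtb, hs]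
    · intro h hh hhB
      by_contra hcon
      rw [not_lt] at hcon
      have hhR : (h : ℝ) ≤ B := by exact_mod_cast hhB.le
      have hh0 : (0 : ℝ) ≤ h := Nat.cast_nonneg _
      have h1 : (B : ℝ) * (4 * s) + h * (s / 10) < 1 := by
        have h2 : (h : ℝ) * (s / 10) ≤ B * (s / 10) := by gcongr
        have h3 : (B : ℝ) * (4 * s) = 4 * s * B := by ring
        have h4 : (B : ℝ) * (s / 10) = (4 * s * B) / 40 := by ring
        linarith only [h2, h3, h4, h4sB]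
      have h2 := n3_cross (γ := γ) (B := h) (B' := B) hcon (hBd.le.trans hBtb) h1
      have h3 : (B : ℤ) ∣ round ((B : ℝ) * γ) * (h : ℤ) := ⟨round ((h : ℝ) * γ), by
        rw [← h2]; ring⟩
      have h4 : IsCoprime (B : ℤ) (round ((B : ℝ) * γ)) := by
        rw [isCoprime_comm]
        exact Int.isCoprime_iff_gcd_eq_one.mpr hBg
      have h5 : (B : ℤ) ∣ (h : ℤ) := h4.dvd_of_dvd_mul_left h3
      have h6 : B ∣ h := by exact_mod_cast h5
      exact absurd (Nat.le_of_dvd hh h6) (not_le.mpr hhB)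
    · have h1 : (B : ℝ) ^ 4 ≤ (s ^ (-(1 / 4) : ℝ)) ^ 4 := by gcongr
      have h2 : (s ^ (-(1 / 4) : ℝ)) ^ 4 = s⁻¹ := by
        rw [← Real.rpow_natCast, ← Real.rpow_mul hs.le]
        norm_num
        exact Real.rpow_neg_one s
      rw [h2] at h1
      calc (B : ℝ) ^ 4 * s ≤ s⁻¹ * s := by gcongr
        _ = 1 := inv_mul_cancel₀ hs.ne'
  have h1 := hw5 B hbadat
  have h2 : 4 * distInt ((B : ℝ) * γ) * max (u : ℝ) v ≤ 4 / 10 := by
    have h3 : (0 : ℝ) < max (u : ℝ) v := lt_of_lt_of_le hV hw1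
    calc 4 * distInt ((B : ℝ) * γ) * max (u : ℝ) v
        ≤ 4 * (B * tb s V) * (V * s ^ (-(3 / 16) : ℝ)) := by gcongr
      _ ≤ 4 * (s ^ (-(1 / 4) : ℝ) * tb s V) * (V * s ^ (-(3 / 16) : ℝ)) := by gcongr
      _ = 4 * ((s ^ (27 / 32 : ℝ) * s ^ (-(1 / 4) : ℝ)) * s ^ (-(3 / 16) : ℝ)) := by
          unfold tb
          field_simp
      _ = 4 * s ^ (13 / 32 : ℝ) := by
          rw [← Real.rpow_add hs, ← Real.rpow_add hs]; norm_num
      _ ≤ 4 * (1 / 10) := by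
          have := n3_pow hs hs1 (e := 13 / 32) (by norm_num)
          linarith only [this]
      _ = 4 / 10 := by norm_num
  linarith only [h1, h2]

/-! ### uniqueness -/

theorem nb_unique : ∃ s₀ > 0, ∀ γ s V : ℝ, NHyp s₀ s V → ∀ B B' : ℕ, NB γ s V B → NB γ s V B' →
    (B : ℝ) ≤ V ^ (1 / 3 : ℝ) → (B' : ℝ) ≤ V ^ (1 / 3 : ℝ) → B = B' := by
  refine ⟨1 / 1000, by norm_num, ?_⟩
  intro γ s V hyp B B' hB hB' hBV hBV'
  have hV1 := n3_V1 hyp
  obtain ⟨hs, hs1, hV, hL⟩ := hyp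
  obtain ⟨hB0, hBg, hBd⟩ := hB
  obtain ⟨hB0', hBg', hBd'⟩ := hB'
  have htb0 : 0 < tb s V := by unfold tb; positivity
  have h0 : (0 : ℝ) ≤ B := Nat.cast_nonneg _
  have h0' : (0 : ℝ) ≤ B' := Nat.cast_nonneg _
  have h1 : (B : ℝ) * B' * tb s V ≤ 1 / 10 := by
    calc (B : ℝ) * B' * tb s V ≤ V ^ (1 / 3 : ℝ) * V ^ (1 / 3 : ℝ) * tb s V := by gcongr
      _ = V ^ (2 / 3 : ℝ) * (s ^ (27 / 32 : ℝ) / V) := by
          rw [← Real.rpow_add hV]
          unfold tb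
          norm_num
      _ ≤ V * (s ^ (27 / 32 : ℝ) / V) := by
          have h2 : V ^ (2 / 3 : ℝ) ≤ V := by
            conv_rhs => rw [← Real.rpow_one V]
            exact Real.rpow_le_rpow_of_exponent_le hV1 (by norm_num)
          have h3 : 0 ≤ s ^ (27 / 32 : ℝ) / V := by positivity
          gcongr
      _ = s ^ (27 / 32 : ℝ) := by field_simp
      _ ≤ 1 / 10 := n3_pow hs hs1 (by norm_num)
  have h2 : (B' : ℝ) * (B * tb s V) + B * (B' * tb s V) < 1 := by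
    have e : (B' : ℝ) * (B * tb s V) + B * (B' * tb s V) = 2 * (B * B' * tb s V) := by ring
    rw [e]
    linarith only [h1]
  have h3 := n3_cross (γ := γ) hBd.le hBd'.le h2
  apply Nat.dvd_antisymm
  · have h4 : (B : ℤ) ∣ round ((B : ℝ) * γ) * (B' : ℤ) := ⟨round ((B' : ℝ) * γ), by
      rw [h3]; ring⟩
    have h5 : IsCoprime (B : ℤ) (round ((B : ℝ) * γ)) := by
      rw [isCoprime_comm]
      exact Int.isCoprime_iff_gcd_eq_one.mpr hBg
    have h6 := h5.dvd_of_dvd_mul_left h4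
    exact_mod_cast h6
  · have h4 : (B' : ℤ) ∣ round ((B' : ℝ) * γ) * (B : ℤ) := ⟨round ((B : ℝ) * γ), by
      rw [← h3]; ring⟩
    have h5 : IsCoprime (B' : ℤ) (round ((B' : ℝ) * γ)) := by
      rw [isCoprime_comm]
      exact Int.isCoprime_iff_gcd_eq_one.mpr hBg'
    have h6 := h5.dvd_of_dvd_mul_left h4
    exact_mod_cast h6

/-! ### special cofactors -/

/-- one sided sum over the special cofactors -/
theorem n3_star_one : ∃ C > 0, ∃ s₀ > 0, ∀ γ s V : ℝ, NHyp s₀ s V →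
    ∀ (N : ℕ) (ψ f : ℕ → ℝ), (∀ q, 0 ≤ ψ q) → (∀ q, 0 ≤ f q ∧ f q ≤ ψ q * (q.totient / q)) →
      psum (fun q r => NStar γ s V (cofac q r) ∧ Szs ψ s q r) N f f ≤
        C * s ^ (1 + 1 / 100 : ℝ) * (∑ q ∈ Icc 1 N, f q) ^ (501 / 500 : ℝ) := by
  classical
  obtain ⟨s₀, hs₀, hU⟩ := nb_unique
  obtain ⟨C, hC, hT⟩ := T1_dvd (θ := 501 / 1000) (by norm_num) (by norm_num)
  refine ⟨C, hC, min s₀ 1, by positivity, ?_⟩
  intro γ s V hyp N ψ f hψ hf
  have hU' := hU γ s V (hyp.mono (min_le_left _ _))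
  obtain ⟨hs, hs1, hV, hL⟩ := hyp
  have hs1' : s ≤ 1 := hs1.trans (min_le_right _ _)
  have hF0 : 0 ≤ ∑ q ∈ Icc 1 N, f q := sum_nonneg fun q _ => (hf q).1
  set F := ∑ q ∈ Icc 1 N, f q with hF
  by_cases hex : ∃ B : ℕ, s ^ (-(1 / 4) : ℝ) < B ∧ (B : ℝ) ≤ V ^ (1 / 3 : ℝ) ∧ NB γ s V B
  · obtain ⟨Bs, hB1, hB2, hB3⟩ := hex
    have hBs0 : 0 < Bs := hB3.1
    have hBsR : (0 : ℝ) < Bs := by exact_mod_cast hBs0
    set H : ℕ := ⌊s ^ (-(1 / 16) : ℝ)⌋₊ with hH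
    set T : Finset ℕ := Icc 1 H with hTdef
    set D : ℕ → ℕ := fun h => Bs / Nat.gcd Bs h with hD
    have h1 : psum (fun q r => NStar γ s V (cofac q r) ∧ Szs ψ s q r) N f f ≤
        ∑ h ∈ T, psum (fun q r => D h ∣ cofac q r ∧ 1 ∣ cofac r q ∧ (cofac r q : ℝ) * ψ q ≤ s ∧
          (cofac q r : ℝ) * ψ r ≤ s) N f f := by
      refine kc_psum_union _ T (fun h q r => D h ∣ cofac q r ∧ 1 ∣ cofac r q ∧
        (cofac r q : ℝ) * ψ q ≤ s ∧ (cofac q r : ℝ) * ψ r ≤ s) N f (fun q => (hf q).1) ?_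
      rintro q r ⟨⟨B', h, hb1, hb2, hb3, hh, hhs, hdvd⟩, hc1, hc2⟩
      have hB' : B' = Bs := hU' B' Bs hb3 hB3 hb2 hB2
      rw [hB'] at hdvd
      refine ⟨h, ?_, ?_, one_dvd _, hc1, hc2⟩
      · rw [hTdef, mem_Icc]
        exact ⟨hh, Nat.le_floor hhs⟩
      · have hg : 0 < Nat.gcd Bs h := Nat.gcd_pos_of_pos_left _ hBs0
        have h2 : Nat.Coprime (Bs / Nat.gcd Bs h) (h / Nat.gcd Bs h) :=
          Nat.coprime_div_gcd_div_gcd hg
        have h3 : Bs / Nat.gcd Bs h ∣ (h / Nat.gcd Bs h) * cofac q r := by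
          have h4 : Nat.gcd Bs h * (Bs / Nat.gcd Bs h) ∣
              Nat.gcd Bs h * ((h / Nat.gcd Bs h) * cofac q r) := by
            rw [← mul_assoc, Nat.mul_div_cancel' (Nat.gcd_dvd_left Bs h),
              Nat.mul_div_cancel' (Nat.gcd_dvd_right Bs h)]
            exact hdvd
          exact Nat.dvd_of_mul_dvd_mul_left hg h4
        exact h2.dvd_of_dvd_mul_left h3
    have h2 : ∀ h ∈ T, psum (fun q r => D h ∣ cofac q r ∧ 1 ∣ cofac r q ∧
        (cofac r q : ℝ) * ψ q ≤ s ∧ (cofac q r : ℝ) * ψ r ≤ s) N f f ≤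
        C * (s * s) ^ (499 / 1000 : ℝ) * F ^ (501 / 500 : ℝ) *
          (s ^ (3 / 16 : ℝ)) ^ (499 / 1000 : ℝ) := by
      intro h hh
      rw [hTdef, mem_Icc] at hh
      have hh0 : 0 < h := hh.1
      have hhR : (0 : ℝ) < h := by exact_mod_cast hh0
      have hhs : (h : ℝ) ≤ s ^ (-(1 / 16) : ℝ) := by
        have h3 : (h : ℝ) ≤ H := by exact_mod_cast hh.2
        exact h3.trans (Nat.floor_le (Real.rpow_pos_of_pos hs _).le)
      have hg : 0 < Nat.gcd Bs h := Nat.gcd_pos_of_pos_left _ hBs0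
      have hd0 : 0 < D h := Nat.div_pos (Nat.le_of_dvd hBs0 (Nat.gcd_dvd_left _ _)) hg
      have hdR : (0 : ℝ) < D h := by exact_mod_cast hd0
      have hdge : s ^ (-(3 / 16) : ℝ) ≤ D h := by
        have h4 : (Nat.gcd Bs h : ℝ) ≤ h := by
          exact_mod_cast Nat.le_of_dvd hh0 (Nat.gcd_dvd_right Bs h)
        have h5 : (Bs : ℝ) = (Nat.gcd Bs h : ℝ) * D h := by
          have : Bs = Nat.gcd Bs h * D h := (Nat.mul_div_cancel' (Nat.gcd_dvd_left Bs h)).symm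
          exact_mod_cast this
        have h6 : s ^ (-(1 / 4) : ℝ) ≤ s ^ (-(1 / 16) : ℝ) * D h := by
          calc s ^ (-(1 / 4) : ℝ) ≤ Bs := hB1.le
            _ = (Nat.gcd Bs h : ℝ) * D h := h5
            _ ≤ s ^ (-(1 / 16) : ℝ) * D h := by
                exact mul_le_mul_of_nonneg_right (h4.trans hhs) hdR.le
        have h7 : s ^ (-(1 / 4) : ℝ) = s ^ (-(1 / 16) : ℝ) * s ^ (-(3 / 16) : ℝ) := by
          rw [← Real.rpow_add hs]; norm_num
        rw [h7] at h6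
        exact le_of_mul_le_mul_left h6 (Real.rpow_pos_of_pos hs _)
      have h3 := hT (D h) 1 hd0 one_pos ψ ψ f f s s N hs hs hψ hψ hf hf
      rw [Nat.cast_one, Real.one_rpow, mul_one] at h3
      refine h3.trans ?_
      have e1 : (1 : ℝ) - 501 / 1000 = 499 / 1000 := by norm_num
      have e2 : (F * F) ^ (501 / 1000 : ℝ) = F ^ (501 / 500 : ℝ) := by
        rw [← sq, ← Real.rpow_natCast, ← Real.rpow_mul hF0]
        norm_num
      rw [e1, e2]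
      have h4 : (D h : ℝ) ^ (-(499 / 1000) : ℝ) ≤ (s ^ (3 / 16 : ℝ)) ^ (499 / 1000 : ℝ) := by
        rw [Real.rpow_neg hdR.le, ← Real.inv_rpow hdR.le]
        refine Real.rpow_le_rpow (inv_nonneg.mpr hdR.le) ?_ (by norm_num)
        rw [inv_le_comm₀ hdR (Real.rpow_pos_of_pos hs _), ← Real.rpow_neg hs.le]
        exact hdge
      have h5 : 0 ≤ C * (s * s) ^ (499 / 1000 : ℝ) * F ^ (501 / 500 : ℝ) := by positivity
      exact mul_le_mul_of_nonneg_left h4 h5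
    refine h1.trans ((sum_le_sum h2).trans ?_)
    rw [sum_const, nsmul_eq_mul]
    have hcard : ((T.card : ℕ) : ℝ) ≤ s ^ (-(1 / 16) : ℝ) := by
      rw [hTdef, Nat.card_Icc, Nat.add_sub_cancel]
      exact Nat.floor_le (Real.rpow_pos_of_pos hs _).le
    have hpw : s ^ (-(1 / 16) : ℝ) * ((s * s) ^ (499 / 1000 : ℝ) *
        (s ^ (3 / 16 : ℝ)) ^ (499 / 1000 : ℝ)) ≤ s ^ (1 + 1 / 100 : ℝ) := by
      rw [Real.mul_rpow hs.le hs.le, ← Real.rpow_mul hs.le, ← Real.rpow_add hs,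
        ← Real.rpow_add hs, ← Real.rpow_add hs]
      exact Real.rpow_le_rpow_of_exponent_ge hs hs1' (by norm_num)
    have hFp : 0 ≤ F ^ (501 / 500 : ℝ) := Real.rpow_nonneg hF0 _
    have hX : 0 ≤ C * (s * s) ^ (499 / 1000 : ℝ) * F ^ (501 / 500 : ℝ) *
          (s ^ (3 / 16 : ℝ)) ^ (499 / 1000 : ℝ) := by positivity
    calc (T.card : ℝ) * (C * (s * s) ^ (499 / 1000 : ℝ) * F ^ (501 / 500 : ℝ) *
          (s ^ (3 / 16 : ℝ)) ^ (499 / 1000 : ℝ))
        ≤ s ^ (-(1 / 16) : ℝ) * (C * (s * s) ^ (499 / 1000 : ℝ) * F ^ (501 / 500 : ℝ) *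
          (s ^ (3 / 16 : ℝ)) ^ (499 / 1000 : ℝ)) := mul_le_mul_of_nonneg_right hcard hX
      _ = (C * F ^ (501 / 500 : ℝ)) * (s ^ (-(1 / 16) : ℝ) * ((s * s) ^ (499 / 1000 : ℝ) *
        (s ^ (3 / 16 : ℝ)) ^ (499 / 1000 : ℝ))) := by ring
      _ ≤ (C * F ^ (501 / 500 : ℝ)) * s ^ (1 + 1 / 100 : ℝ) :=
          mul_le_mul_of_nonneg_left hpw (mul_nonneg hC.le hFp)
      _ = _ := by ring
  · have h1 : psum (fun q r => NStar γ s V (cofac q r) ∧ Szs ψ s q r) N f f = 0 := by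
      refine kc_psum_empty _ N f ?_
      rintro q r ⟨⟨B', h, hb1, hb2, hb3, -⟩, -⟩
      exact hex ⟨B', hb1, hb2, hb3⟩
    rw [h1]
    positivity

theorem star_sum : ∃ C > 0, ∃ s₀ > 0, ∀ γ s V : ℝ, NHyp s₀ s V →
    ∀ (N : ℕ) (ψ f : ℕ → ℝ), (∀ q, 0 ≤ ψ q) → (∀ q, 0 ≤ f q ∧ f q ≤ ψ q * (q.totient / q)) →
      psum (fun q r => (NStar γ s V (cofac q r) ∨ NStar γ s V (cofac r q)) ∧ Szs ψ s q r) N f f ≤
        C * s ^ (1 + 1 / 100 : ℝ) * (∑ q ∈ Icc 1 N, f q) ^ (501 / 500 : ℝ) := by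
  classical
  obtain ⟨C, hC, s₀, hs₀, h⟩ := n3_star_one
  refine ⟨2 * C, by positivity, s₀, hs₀, ?_⟩
  intro γ s V hyp N ψ f hψ hf
  have h1 := h γ s V hyp N ψ f hψ hf
  have h2 : psum (fun q r => NStar γ s V (cofac r q) ∧ Szs ψ s q r) N f f ≤
      C * s ^ (1 + 1 / 100 : ℝ) * (∑ q ∈ Icc 1 N, f q) ^ (501 / 500 : ℝ) := by
    rw [kc_psum_symm]
    refine le_trans (le_of_eq ?_) h1
    congr 1
    funext q r
    exact propext ⟨fun hh => ⟨hh.1, hh.2.2, hh.2.1⟩, fun hh => ⟨hh.1, hh.2.2, hh.2.1⟩⟩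
  have h3 := kc_psum_cover (fun q r => (NStar γ s V (cofac q r) ∨ NStar γ s V (cofac r q)) ∧
      Szs ψ s q r) (fun q r => NStar γ s V (cofac q r) ∧ Szs ψ s q r)
      (fun q r => NStar γ s V (cofac r q) ∧ Szs ψ s q r) (fun _ _ => False) N f
      (fun q => (hf q).1) (by
        rintro q r ⟨h4 | h4, h5⟩
        · exact Or.inl ⟨h4, h5⟩
        · exact Or.inr (Or.inl ⟨h4, h5⟩))
  have h4 : psum (fun _ _ => False) N f f = 0 := kc_psum_empty _ N f (fun _ _ h => h)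
  rw [h4, add_zero] at h3
  linarith only [h1, h2, h3]

end Vale.P028
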