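import Mathlib
import Vale.Agent.P028.H472.C.NBasic
import Vale.Agent.P028.KCount

/-!
# Density of the good multipliers in a row (N5)
-/

namespace Vale.P028

open Finset

/-- counting lemma, separated case -/
theorem nrow_sep' {α β s : ℝ} {J : ℕ} (hJ : ∀ j : ℕ, 0 < j → j ≤ J → 4 * s ≤ distInt ((j : ℝ) * α))
    (M : ℕ) (S : Finset ℕ) (hS1 : ∀ m ∈ S, m ≤ M)
    (hS2 : ∀ m ∈ S, distInt ((m : ℝ) * α - β) < 2 * s) :
    (S.card : ℝ) ≤ M / (J + 1) + 1 := by
  refine kc_sep_card S M ((J : ℝ) + 1) (by positivity) hS1 ?_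
  intro m hm n hn hmn
  by_contra hlt
  rw [not_le] at hlt
  have h1 : n - m ≤ J := by
    have h2 : ((n - m : ℕ) : ℝ) < J + 1 := by
      rw [Nat.cast_sub hmn.le]
      exact hlt
    have h3 : n - m < J + 1 := by exact_mod_cast h2
    omega
  have h4 := hJ (n - m) (by omega) h1
  rw [Nat.cast_sub hmn.le] at h4
  have e : ((n : ℝ) - m) * α = ((n : ℝ) * α - β) - ((m : ℝ) * α - β) := by ring
  rw [e] at h4
  have h5 := nb_distInt_sub_le ((n : ℝ) * α - β) ((m : ℝ) * α - β)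
  linarith only [h4, h5, hS2 m hm, hS2 n hn]

open Classical in
/-- counting lemma, separated case -/
theorem nrow_sep {α β s : ℝ} {J : ℕ} (hJ : ∀ j : ℕ, 0 < j → j ≤ J → 4 * s ≤ distInt ((j : ℝ) * α))
    (M : ℕ) :
    (((Icc 1 M).filter (fun m : ℕ => distInt ((m : ℝ) * α - β) < 2 * s)).card : ℝ) ≤
      M / (J + 1) + 1 :=
  nrow_sep' hJ M _ (fun m hm => (mem_Icc.1 (mem_filter.1 hm).1).2)
    (fun m hm => (mem_filter.1 hm).2)

/-- hits in one class modulo `h`, in one block -/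
theorem n5_fiber {α β s : ℝ} {h L c i : ℕ} (hh : 0 < h) (hs : 0 < s)
    (hD : 0 < distInt ((h : ℝ) * α)) (hL : (L : ℝ) * distInt ((h : ℝ) * α) ≤ 1 / 2)
    (S : Finset ℕ) (hS1 : ∀ m ∈ S, m % h = c) (hS3 : ∀ m ∈ S, m / h / L = i) (hL0 : 0 < L)
    (hS2 : ∀ m ∈ S, distInt ((m : ℝ) * α - β) < 2 * s) :
    (S.card : ℝ) ≤ 4 * s / distInt ((h : ℝ) * α) + 1 := by
  set D := distInt ((h : ℝ) * α) with hDd
  rcases S.eq_empty_or_nonempty with hS | hS
  · rw [hS]
    simp only [Finset.card_empty, Nat.cast_zero]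
    positivity
  set m0 := S.min' hS with hm0
  have hm0S : m0 ∈ S := S.min'_mem hS
  have hle : ∀ u ∈ S, m0 ≤ u := fun u hu => S.min'_le u hu
  have hdm : ∀ u ∈ S, u = h * (u / h) + c := by
    intro u hu
    have h1 := Nat.div_add_mod u h
    rw [hS1 u hu] at h1
    exact h1.symm
  have hle' : ∀ u ∈ S, m0 / h ≤ u / h := fun u hu => Nat.div_le_div_right (hle u hu)
  have key : ∀ u ∈ S, ((u / h - m0 / h : ℕ) : ℝ) * D < 4 * s := by
    intro u hu
    have h1 : u / h - m0 / h ≤ L := by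
      have h2 := hS3 u hu
      have h3 := hS3 m0 hm0S
      have h4 : i * L ≤ m0 / h := by
        rw [← h3]
        exact Nat.div_mul_le_self _ _
      have h5 : u / h < i * L + L := by
        have h6 := Nat.lt_div_mul_add hL0 (a := u / h)
        rw [h2] at h6
        exact h6
      omega
    have h2 : ((u / h - m0 / h : ℕ) : ℝ) * D ≤ 1 / 2 := by
      have h3 : ((u / h - m0 / h : ℕ) : ℝ) ≤ L := by exact_mod_cast h1
      exact (mul_le_mul_of_nonneg_right h3 hD.le).trans hL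
    have h3 := kc_distInt_mul (x := (h : ℝ) * α) h2
    rw [← h3]
    have e : ((u / h - m0 / h : ℕ) : ℝ) * ((h : ℝ) * α) =
        ((u : ℝ) * α - β) - ((m0 : ℝ) * α - β) := by
      rw [Nat.cast_sub (hle' u hu)]
      have h4 : (u : ℝ) = h * ((u / h : ℕ) : ℝ) + c := by exact_mod_cast hdm u hu
      have h5 : (m0 : ℝ) = h * ((m0 / h : ℕ) : ℝ) + c := by exact_mod_cast hdm m0 hm0S
      conv_rhs => rw [h4, h5]
      ring
    rw [e]
    have h5 := nb_distInt_sub_le ((u : ℝ) * α - β) ((m0 : ℝ) * α - β)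
    linarith only [h5, hS2 u hu, hS2 m0 hm0S]
  have hcard : S.card ≤ (range ⌈4 * s / D⌉₊).card := by
    refine card_le_card_of_injOn (fun u => u / h - m0 / h) ?_ ?_
    · intro u hu
      rw [coe_range, Set.mem_Iio, Nat.lt_ceil, lt_div_iff₀ hD]
      exact key u hu
    · intro u hu w hw huw
      simp only at huw
      have h1 := hle' u hu
      have h2 := hle' w hw
      have h3 : u / h = w / h := by omega
      have h4 := hdm u hu
      have h5 := hdm w hw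
      rw [h3] at h4
      rw [h4]
      exact h5.symm
  rw [card_range] at hcard
  have h2 : (⌈4 * s / D⌉₊ : ℝ) < 4 * s / D + 1 := Nat.ceil_lt_add_one (by positivity)
  have h3 : (S.card : ℝ) ≤ ⌈4 * s / D⌉₊ := by exact_mod_cast hcard
  linarith only [h2, h3]

/-- counting lemma at a multiple `h` with `0 < distInt (h α) ≤ 4 s` -/
theorem nrow_bad' {α β s : ℝ} {h : ℕ} (hh : 0 < h) (hD : 0 < distInt ((h : ℝ) * α))
    (hD4 : distInt ((h : ℝ) * α) ≤ 4 * s) (M : ℕ) (S : Finset ℕ) (hS1 : ∀ m ∈ S, m ≤ M)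
    (hS2 : ∀ m ∈ S, distInt ((m : ℝ) * α - β) < 2 * s) :
    (S.card : ℝ) ≤ 32 * s * M + 8 * h * s / distInt ((h : ℝ) * α) := by
  classical
  set D := distInt ((h : ℝ) * α) with hDd
  have hs : 0 < s := by linarith only [hD, hD4]
  have hD2 : D ≤ 1 / 2 := abs_sub_round _
  set L : ℕ := ⌊1 / (2 * D)⌋₊ with hL
  have hx : 1 ≤ 1 / (2 * D) := by
    rw [le_div_iff₀ (by positivity)]
    linarith only [hD2]
  have hL0 : 0 < L := Nat.floor_pos.2 hx
  have hLR : (0 : ℝ) < L := by exact_mod_cast hL0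
  have hL1 : (L : ℝ) ≤ 1 / (2 * D) := Nat.floor_le (by positivity)
  have hL2 : (L : ℝ) * D ≤ 1 / 2 := by
    rw [le_div_iff₀ (by positivity)] at hL1
    linarith only [hL1]
  have hL3 : 1 / (4 * D) ≤ L := by
    have h1 : 1 / (2 * D) < L + 1 := Nat.lt_floor_add_one _
    have h2 : 1 / (4 * D) = 1 / (2 * D) / 2 := by
      field_simp
      norm_num
    have h3 : (1 : ℝ) ≤ L := by exact_mod_cast hL0
    rw [h2]
    linarith only [h1, h3]
  have h1 : S.card = ∑ x ∈ range h ×ˢ range (M / h / L + 1),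
      (S.filter (fun u => (u % h, u / h / L) = x)).card := by
    refine card_eq_sum_card_fiberwise ?_
    intro u hu
    have h2 := hS1 u hu
    rw [coe_product, Set.mem_prod, coe_range, coe_range, Set.mem_Iio, Set.mem_Iio]
    exact ⟨Nat.mod_lt _ hh,
      Nat.lt_succ_of_le (Nat.div_le_div_right (Nat.div_le_div_right h2))⟩
  have h2 : ∀ x ∈ range h ×ˢ range (M / h / L + 1),
      ((S.filter (fun u => (u % h, u / h / L) = x)).card : ℝ) ≤ 4 * s / D + 1 := by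
    intro x _
    refine n5_fiber (c := x.1) (i := x.2) (β := β) hh hs hD hL2 _ ?_ ?_ hL0 ?_
    · intro m hm
      rw [← (mem_filter.1 hm).2]
    · intro m hm
      rw [← (mem_filter.1 hm).2]
    · intro m hm
      exact hS2 m (mem_filter.1 hm).1
  have h3 : (S.card : ℝ) ≤ (h : ℝ) * ((M / h / L + 1 : ℕ) : ℝ) * (4 * s / D + 1) := by
    rw [h1]
    push_cast
    calc ∑ x ∈ range h ×ˢ range (M / h / L + 1),
          ((S.filter (fun u => (u % h, u / h / L) = x)).card : ℝ)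
        ≤ ∑ _x ∈ range h ×ˢ range (M / h / L + 1), (4 * s / D + 1) := sum_le_sum h2
      _ = _ := by
          rw [sum_const, card_product, card_range, card_range, nsmul_eq_mul]
          push_cast
          ring
  have hhR : (0 : ℝ) < h := by exact_mod_cast hh
  have h4 : ((M / h / L : ℕ) : ℝ) ≤ 4 * D * M / h := by
    calc ((M / h / L : ℕ) : ℝ) ≤ ((M / h : ℕ) : ℝ) / L := Nat.cast_div_le
      _ ≤ ((M : ℝ) / h) / L := by
          have : ((M / h : ℕ) : ℝ) ≤ (M : ℝ) / h := Nat.cast_div_le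
          gcongr
      _ ≤ ((M : ℝ) / h) / (1 / (4 * D)) := by
          apply div_le_div_of_nonneg_left (by positivity) (by positivity) hL3
      _ = 4 * D * M / h := by
          field_simp
  have h5 : 4 * s / D + 1 ≤ 8 * s / D := by
    have h6 : 1 ≤ 4 * s / D := by
      rw [le_div_iff₀ hD]
      linarith only [hD4]
    have e : 8 * s / D = 4 * s / D + 4 * s / D := by ring
    rw [e]
    linarith only [h6]
  have h6 : (h : ℝ) * ((M / h / L + 1 : ℕ) : ℝ) ≤ 4 * D * M + h := by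
    push_cast
    calc (h : ℝ) * (((M / h / L : ℕ) : ℝ) + 1) ≤ h * (4 * D * M / h + 1) := by gcongr
      _ = 4 * D * M + h := by field_simp
  calc (S.card : ℝ) ≤ (h : ℝ) * ((M / h / L + 1 : ℕ) : ℝ) * (4 * s / D + 1) := h3
    _ ≤ (4 * D * M + h) * (8 * s / D) := by gcongr
    _ = 32 * s * M + 8 * h * s / D := by
        field_simp
        ring

open Classical in
/-- counting lemma at a multiple `h` with `0 < distInt (h α) ≤ 4 s` -/
theorem nrow_bad {α β s : ℝ} {h : ℕ} (hh : 0 < h) (hD : 0 < distInt ((h : ℝ) * α))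
    (hD4 : distInt ((h : ℝ) * α) ≤ 4 * s) (M : ℕ) :
    (((Icc 1 M).filter (fun m : ℕ => distInt ((m : ℝ) * α - β) < 2 * s)).card : ℝ) ≤
      32 * s * M + 8 * h * s / distInt ((h : ℝ) * α) :=
  nrow_bad' hh hD hD4 M _ (fun m hm => (mem_Icc.1 (mem_filter.1 hm).1).2)
    (fun m hm => (mem_filter.1 hm).2)

/-- powers of `s = t ^ 9600` -/
theorem n5_root {s : ℝ} (hs : 0 < s) (hs1 : s ≤ (1 / 2 : ℝ) ^ 9600) :
    ∃ t : ℝ, 0 < t ∧ t ≤ 1 / 2 ∧ t ^ 9600 = s ∧ s ^ (1 / 150 : ℝ) = t ^ 64 ∧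
      s ^ (7 / 8 : ℝ) = t ^ 8400 ∧ s ^ (-(1 / 64) : ℝ) = (t ^ 150)⁻¹ ∧
      s ^ (-(1 / 128) : ℝ) = (t ^ 75)⁻¹ ∧ s ^ (-(1 / 16) : ℝ) = (t ^ 600)⁻¹ := by
  refine ⟨s ^ (1 / 9600 : ℝ), by positivity, ?_, ?_, ?_, ?_, ?_, ?_, ?_⟩
  · have h1 : s ^ (1 / 9600 : ℝ) ≤ ((1 / 2 : ℝ) ^ 9600) ^ (1 / 9600 : ℝ) :=
      Real.rpow_le_rpow hs.le hs1 (by norm_num)
    have h2 : ((1 / 2 : ℝ) ^ 9600) ^ (1 / 9600 : ℝ) = 1 / 2 := by
      rw [← Real.rpow_natCast, ← Real.rpow_mul (by norm_num)]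
      norm_num
    rwa [h2] at h1
  · rw [← Real.rpow_natCast, ← Real.rpow_mul hs.le]
    norm_num
  · rw [← Real.rpow_natCast, ← Real.rpow_mul hs.le]
    norm_num
  · rw [← Real.rpow_natCast, ← Real.rpow_mul hs.le]
    norm_num
  · rw [← Real.rpow_natCast, ← Real.rpow_mul hs.le, ← Real.rpow_neg hs.le]
    norm_num
  · rw [← Real.rpow_natCast, ← Real.rpow_mul hs.le, ← Real.rpow_neg hs.le]
    norm_num
  · rw [← Real.rpow_natCast, ← Real.rpow_mul hs.le, ← Real.rpow_neg hs.le]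
    norm_num

open Classical in
theorem row_density : ∃ s₀ > 0, ∀ γ s V β : ℝ, NHyp s₀ s V → ∀ a q₀ : ℕ, 0 < a →
    ¬ NBad γ s V a → s ^ (-(1 / 64) : ℝ) < q₀ → s ^ (7 / 8 : ℝ) ≤ q₀ * a * tb s V →
    (((Icc 1 q₀).filter (fun m : ℕ => distInt ((a : ℝ) * m * γ - β) < 2 * s)).card : ℝ) ≤
      s ^ (1 / 150 : ℝ) * q₀ := by
  refine ⟨(1 / 2 : ℝ) ^ 9600, by positivity, ?_⟩
  intro γ s V β hN a q₀ ha hbad hq hqa
  obtain ⟨hs, hs1, hV, -⟩ := hN
  obtain ⟨t, ht, ht2, hts, e150, e78, e64, e128, e16⟩ := n5_root hs hs1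
  rw [e64] at hq
  rw [e78] at hqa
  rw [e150]
  have hq0 : (0 : ℝ) < q₀ := lt_trans (by positivity) hq
  have haR : (0 : ℝ) < a := by exact_mod_cast ha
  have htb : 0 < tb s V := by
    unfold tb
    positivity
  have ht1 : t ≤ 1 := by linarith only [ht2]
  -- powers of `t`
  have hp : ∀ k : ℕ, t ^ k ≤ (1 / 2) ^ k := fun k => pow_le_pow_left₀ ht.le ht2 k
  have ecard : ((Icc 1 q₀).filter (fun m : ℕ => distInt ((a : ℝ) * m * γ - β) < 2 * s)) =
      ((Icc 1 q₀).filter (fun m : ℕ => distInt ((m : ℝ) * (a * γ) - β) < 2 * s)) := by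
    refine filter_congr fun m _ => ?_
    have : (a : ℝ) * m * γ - β = (m : ℝ) * (a * γ) - β := by ring
    rw [this]
  rw [ecard]
  set J : ℕ := ⌊(t ^ 75)⁻¹⌋₊ with hJ
  have hJ1 : (J : ℝ) ≤ (t ^ 75)⁻¹ := Nat.floor_le (by positivity)
  have hJ2 : (t ^ 75)⁻¹ < (J : ℝ) + 1 := Nat.lt_floor_add_one _
  by_cases hc : ∀ j : ℕ, 0 < j → j ≤ J → 4 * s ≤ distInt ((j : ℝ) * (a * γ))
  · refine (nrow_sep hc q₀).trans ?_
    have h1 : (q₀ : ℝ) / (J + 1) ≤ q₀ * t ^ 75 := by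
      rw [div_le_iff₀ (by positivity)]
      have h2 : 1 ≤ t ^ 75 * ((J : ℝ) + 1) := by
        have h3 : t ^ 75 * (t ^ 75)⁻¹ = 1 := mul_inv_cancel₀ (by positivity)
        have h4 : t ^ 75 * (t ^ 75)⁻¹ ≤ t ^ 75 * ((J : ℝ) + 1) := by gcongr
        rwa [h3] at h4
      nlinarith only [h2, hq0]
    have h2 : 1 ≤ q₀ * t ^ 75 := by
      have h3 : (t ^ 150)⁻¹ * t ^ 150 = 1 := inv_mul_cancel₀ (by positivity)
      have h4 : (t ^ 150)⁻¹ * t ^ 150 ≤ q₀ * t ^ 150 := by gcongr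
      have h5 : q₀ * t ^ 150 ≤ q₀ * t ^ 75 := by
        have : t ^ 150 ≤ t ^ 75 := pow_le_pow_of_le_one ht.le ht1 (by norm_num)
        gcongr
      linarith only [h3, h4, h5]
    have h3 : t ^ 75 ≤ t ^ 64 * (1 / 2) := by
      have e : t ^ 75 = t ^ 64 * t ^ 11 := by rw [← pow_add]
      rw [e]
      have h4 : t ^ 11 ≤ 1 / 2 := (hp 11).trans (by norm_num)
      gcongr
    have h4 : q₀ * t ^ 75 ≤ q₀ * (t ^ 64 * (1 / 2)) := by gcongr
    linarith only [h1, h2, h4]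
  · push Not at hc
    obtain ⟨h, hh, hhJ, hD4⟩ := hc
    have hhR : (0 : ℝ) < h := by exact_mod_cast hh
    have hhJ' : (h : ℝ) ≤ (t ^ 75)⁻¹ := le_trans (by exact_mod_cast hhJ) hJ1
    have hDtb : a * tb s V ≤ distInt ((h : ℝ) * (a * γ)) := by
      by_contra hlt
      rw [not_le] at hlt
      apply hbad
      refine ⟨h, hh, ?_, ?_⟩
      · rw [e16]
        refine hhJ'.trans ?_
        have : t ^ 600 ≤ t ^ 75 := pow_le_pow_of_le_one ht.le ht1 (by norm_num)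
        gcongr
      · rw [mul_assoc]
        exact hlt
    have hD : 0 < distInt ((h : ℝ) * (a * γ)) := lt_of_lt_of_le (by positivity) hDtb
    refine (nrow_bad hh hD hD4.le q₀).trans ?_
    -- `8 h s / D ≤ 8 t^1125 q₀`
    have h1 : 8 * h * s / distInt ((h : ℝ) * (a * γ)) ≤ 8 * t ^ 1125 * q₀ := by
      rw [div_le_iff₀ hD]
      have h2 : t ^ 8400 ≤ q₀ * distInt ((h : ℝ) * (a * γ)) := by
        calc t ^ 8400 ≤ q₀ * a * tb s V := hqa
          _ = q₀ * (a * tb s V) := by ring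
          _ ≤ _ := by gcongr
      calc 8 * h * s ≤ 8 * (t ^ 75)⁻¹ * s := by gcongr
        _ = 8 * t ^ 1125 * t ^ 8400 := by
            have e : s = t ^ 1125 * t ^ 8400 * t ^ 75 := by
              rw [← hts, ← pow_add, ← pow_add]
            rw [e]
            field_simp
        _ ≤ 8 * t ^ 1125 * (q₀ * distInt ((h : ℝ) * (a * γ))) := by gcongr
        _ = _ := by ring
    have h2 : 32 * s ≤ t ^ 64 * (1 / 2) := by
      have e : s = t ^ 64 * t ^ 9536 := by rw [← hts, ← pow_add]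
      have h3 : t ^ 9536 ≤ t ^ 6 := pow_le_pow_of_le_one ht.le ht1 (by norm_num)
      have h4 : t ^ 6 ≤ 1 / 64 := (hp 6).trans (by norm_num)
      have h5 : (0 : ℝ) < t ^ 64 := by positivity
      rw [e]
      nlinarith only [h3, h4, h5]
    have h3 : 8 * t ^ 1125 ≤ t ^ 64 * (1 / 2) := by
      have e : t ^ 1125 = t ^ 64 * t ^ 1061 := by rw [← pow_add]
      have h3 : t ^ 1061 ≤ t ^ 4 := pow_le_pow_of_le_one ht.le ht1 (by norm_num)
      have h4 : t ^ 4 ≤ 1 / 16 := (hp 4).trans (by norm_num)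
      have h5 : (0 : ℝ) < t ^ 64 := by positivity
      rw [e]
      nlinarith only [h3, h4, h5]
    have h4 : 32 * s * q₀ ≤ t ^ 64 * (1 / 2) * q₀ := by gcongr
    have h5 : 8 * t ^ 1125 * q₀ ≤ t ^ 64 * (1 / 2) * q₀ := by gcongr
    linarith only [h1, h4, h5]

end Vale.P028
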