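import Mathlib
import Vale.Agent.P028.H472.C.NBasic
import Vale.Agent.P028.H472.C.NRow
import Vale.Agent.P028.MBase
import Vale.Agent.P028.MTheoremL

/-!
# Base case of Theorem N
-/

namespace Vale.P028

open Finset

open Classical in
theorem n6_card_le (q₀ : ℕ) (p : ℕ → Prop) :
    (((Icc 1 q₀).filter p).card : ℝ) ≤ q₀ := by
  have h1 : ((Icc 1 q₀).filter p).card ≤ q₀ := by
    refine (card_filter_le _ _).trans ?_
    simp
  exact_mod_cast h1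

/-- the size of the row in a window pair -/
theorem n6_size {γ s V : ℝ} (hs : 0 < s) (hV : 0 < V) {a q₀ v : ℕ}
    (h : NWin γ s V (a * q₀) v) : s ^ (7 / 8 : ℝ) ≤ q₀ * a * tb s V := by
  obtain ⟨h1, _, h3, _, _⟩ := h
  have h4 : s ^ (1 / 32 : ℝ) * V ≤ (q₀ : ℝ) * a := by
    have h5 : s ^ (1 / 32 : ℝ) * V ≤ s ^ (1 / 32 : ℝ) * max (((a * q₀ : ℕ) : ℝ)) (v : ℝ) :=
      mul_le_mul_of_nonneg_left h1 (Real.rpow_nonneg hs.le _)
    have h6 : min (((a * q₀ : ℕ) : ℝ)) (v : ℝ) ≤ ((a * q₀ : ℕ) : ℝ) := min_le_left _ _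
    have h7 : ((a * q₀ : ℕ) : ℝ) = (q₀ : ℝ) * a := by push_cast; ring
    linarith only [h3, h5, h6, h7]
  unfold tb
  calc s ^ (7 / 8 : ℝ) = s ^ (1 / 32 : ℝ) * V * (s ^ (27 / 32 : ℝ) / V) := by
        have e : s ^ (7 / 8 : ℝ) = s ^ (1 / 32 : ℝ) * s ^ (27 / 32 : ℝ) := by
          rw [← Real.rpow_add hs]
          norm_num
        rw [e]
        field_simp
    _ ≤ q₀ * a * (s ^ (27 / 32 : ℝ) / V) :=
        mul_le_mul_of_nonneg_right h4 (div_nonneg (Real.rpow_nonneg hs.le _) hV.le)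

open Classical in
/-- the density in a row -/
theorem n6_row {γ s V : ℝ} (hs : 0 < s) (hV : 0 < V)
    (hrow : ∀ β : ℝ, ∀ a q₀ : ℕ, 0 < a →
      ¬ NBad γ s V a → s ^ (-(1 / 64) : ℝ) < q₀ → s ^ (7 / 8 : ℝ) ≤ q₀ * a * tb s V →
      (((Icc 1 q₀).filter (fun m : ℕ => distInt ((a : ℝ) * m * γ - β) < 2 * s)).card : ℝ) ≤
        s ^ (1 / 150 : ℝ) * q₀)
    {a q₀ v : ℕ} (ha : 0 < a) (hbad : ¬ NBad γ s V a) (hq : s ^ (-(1 / 64) : ℝ) < q₀)
    (h : NOm γ s V (a * q₀) v) :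
    (((Icc 1 q₀).filter (fun m : ℕ => NOm γ s V (a * m) v)).card : ℝ) ≤
      s ^ (1 / 150 : ℝ) * q₀ := by
  refine le_trans ?_ (hrow (v * γ) a q₀ ha hbad hq (n6_size hs hV h.1))
  have h1 : ((Icc 1 q₀).filter (fun m : ℕ => NOm γ s V (a * m) v)) ⊆
      ((Icc 1 q₀).filter (fun m : ℕ => distInt ((a : ℝ) * m * γ - v * γ) < 2 * s)) := by
    intro m hm
    rw [mem_filter] at hm ⊢
    refine ⟨hm.1, ?_⟩
    have h2 := hm.2.1.2.2.2.1
    have e : (a : ℝ) * m * γ - v * γ = (((a * m : ℕ) : ℝ) - v) * γ := by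
      push_cast
      ring
    rw [e]
    exact h2
  exact_mod_cast card_le_card h1

theorem n6_base {γ s V : ℝ} (hs : 0 < s) (hV : 0 < V)
    (hrow : ∀ β : ℝ, ∀ a q₀ : ℕ, 0 < a →
      ¬ NBad γ s V a → s ^ (-(1 / 64) : ℝ) < q₀ → s ^ (7 / 8 : ℝ) ≤ q₀ * a * tb s V →
      (((Icc 1 q₀).filter (fun m : ℕ => distInt ((a : ℝ) * m * γ - β) < 2 * s)).card : ℝ) ≤
        s ^ (1 / 150 : ℝ) * q₀) (x : ℕ → ℝ) :
    LBound (NOm γ s V) (501 / 1000) (fun a b => (16 / ((a : ℝ) * b)) ^ (499 / 1000 : ℝ) *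
      (nsig γ s V a b) ^ (499 / 1000 : ℝ)) ∅ x 1 := by
  classical
  intro a b ha hb ψ₁ ψ₂ f g s₁ s₂ N hs₁ hs₂ hψ₁ hψ₂ hf hg
  have ha' : (0 : ℝ) < a := by exact_mod_cast ha
  have hb' : (0 : ℝ) < b := by exact_mod_cast hb
  have hδ := nsig_nonneg (γ := γ) (V := V) hs a b
  have hf' : ∀ q, 0 ≤ f q ∧ f q ≤ ψ₁ q := by
    intro q
    have := hf q
    simpa [wt] using this
  have hg' : ∀ q, 0 ≤ g q ∧ g q ≤ ψ₂ q := by
    intro q
    have := hg q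
    simpa [wt] using this
  have hdens : ∀ q₀ r₀ : ℕ, 0 < q₀ → 0 < r₀ → NOm γ s V (a * q₀) (b * r₀) →
      (((Icc 1 q₀).filter (fun m => NOm γ s V (a * m) (b * r₀))).card : ℝ) *
        (((Icc 1 r₀).filter (fun n => NOm γ s V (a * q₀) (b * n))).card : ℝ) ≤
        nsig γ s V a b * q₀ * r₀ := by
    intro q₀ r₀ hq₀ hr₀ hΩ
    have hq₀' : (0 : ℝ) < q₀ := by exact_mod_cast hq₀
    have hr₀' : (0 : ℝ) < r₀ := by exact_mod_cast hr₀
    have h1 := n6_card_le q₀ (fun m => NOm γ s V (a * m) (b * r₀))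
    have h2 := n6_card_le r₀ (fun n => NOm γ s V (a * q₀) (b * n))
    have hdead : ¬ NDead γ s V a b := fun h => h q₀ r₀ hq₀ hr₀ hΩ
    by_cases hfin : NFin γ s V a b
    · rw [nsig_fin hdead hfin, one_mul]
      exact mul_le_mul h1 h2 (Nat.cast_nonneg _) hq₀'.le
    · rw [nsig_mid hdead hfin]
      have hS : 0 ≤ s ^ (1 / 150 : ℝ) := Real.rpow_nonneg hs.le _
      have hbada : ¬ NBad γ s V a := fun h => hfin (Or.inr (Or.inl h))
      have hbadb : ¬ NBad γ s V b := fun h => hfin (Or.inr (Or.inr h))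
      have hcase : s ^ (-(1 / 64) : ℝ) < q₀ ∨ s ^ (-(1 / 64) : ℝ) < r₀ := by
        by_contra hne
        push Not at hne
        exact hfin (Or.inl ⟨q₀, r₀, hq₀, hr₀, hne.1, hne.2, hΩ⟩)
      rcases hcase with hc | hc
      · have h3 := n6_row hs hV hrow ha hbada hc hΩ
        exact mul_le_mul h3 h2 (Nat.cast_nonneg _) (mul_nonneg hS hq₀'.le)
      · have h3 := n6_row hs hV hrow hb hbadb hc (NOm_comm hΩ)
        have h4 : (((Icc 1 r₀).filter (fun n => NOm γ s V (a * q₀) (b * n))).card : ℝ) ≤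
            s ^ (1 / 150 : ℝ) * r₀ := by
          refine le_trans (le_of_eq ?_) h3
          congr 2
          ext n
          simp only [mem_filter]
          exact ⟨fun h => ⟨h.1, NOm_comm h.2⟩, fun h => ⟨h.1, NOm_comm h.2⟩⟩
        calc _ ≤ (q₀ : ℝ) * (s ^ (1 / 150 : ℝ) * r₀) :=
              mul_le_mul h1 h4 (Nat.cast_nonneg _) hq₀'.le
          _ = _ := by ring
  have h1 := base_trick (NOm γ s V) (θ := 501 / 1000) (by norm_num) (by norm_num)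
    (nsig γ s V a b) hδ a b ha hb hdens ψ₁ ψ₂ f g s₁ s₂ N hs₁ hs₂ hf' hg'
  refine h1.trans (le_of_eq ?_)
  have e : (1 : ℝ) - 501 / 1000 = 499 / 1000 := by norm_num
  rw [e, one_mul]
  congr 1
  beta_reduce
  rw [← Real.mul_rpow (by positivity) hδ, ← Real.mul_rpow (by positivity) (by positivity)]
  congr 1
  field_simp

open Classical in
/-- `base_N` from the density of a row -/
theorem base_N_of (hrow : ∃ s₀ > 0, ∀ γ s V β : ℝ, NHyp s₀ s V → ∀ a q₀ : ℕ, 0 < a →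
    ¬ NBad γ s V a → s ^ (-(1 / 64) : ℝ) < q₀ → s ^ (7 / 8 : ℝ) ≤ q₀ * a * tb s V →
    (((Icc 1 q₀).filter (fun m : ℕ => distInt ((a : ℝ) * m * γ - β) < 2 * s)).card : ℝ) ≤
      s ^ (1 / 150 : ℝ) * q₀) :
    ∃ s₀ > 0, ∀ γ s V : ℝ, NHyp s₀ s V → ∀ x : ℕ → ℝ,
    LBound (NOm γ s V) (501 / 1000) (fun a b => (16 / ((a : ℝ) * b)) ^ (499 / 1000 : ℝ) *
      (nsig γ s V a b) ^ (499 / 1000 : ℝ)) ∅ x 1 := by
  obtain ⟨s₀, hs₀, h⟩ := hrow
  refine ⟨s₀, hs₀, fun γ s V hN x => ?_⟩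
  exact n6_base hN.1 hN.2.2.1 (fun β a q₀ ha hb h1 h2 => h γ s V β hN a q₀ ha hb h1 h2) x

/-- the base case of Theorem N -/
theorem base_N : ∃ s₀ > 0, ∀ γ s V : ℝ, NHyp s₀ s V → ∀ x : ℕ → ℝ,
    LBound (NOm γ s V) (501 / 1000) (fun a b => (16 / ((a : ℝ) * b)) ^ (499 / 1000 : ℝ) *
      (nsig γ s V a b) ^ (499 / 1000 : ℝ)) ∅ x 1 :=
  base_N_of row_density

end Vale.P028
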