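import Vale.Agent.P028.H472.C.NDefs

/-!
# One prime step of the induction of Theorem N (section N2)
-/

namespace Vale.P028

open Finset

theorem n2_exact_cell {Ω : ℕ → ℕ → Prop} {θ : ℝ} {K : ℕ → ℕ → ℝ} {P : Finset ℕ} (hP : ∀ p ∈ P, p.Prime)
    {x : ℕ → ℝ} {M : ℝ} (hM : 0 ≤ M) (ih : LBound Ω θ K P x M) {p : ℕ} (hp : p.Prime)
    (hpP : p ∉ P) (hxp : 0 ≤ x p ∧ x p < 1) (hx : ∀ p ∈ P, x p < 1) 
    {a b : ℕ} (ha : 0 < a) (hb : 0 < b) {W : ℕ → ℝ}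
    (hgrow1 : ∀ l, K (a * p ^ l) b ≤ W l * K a b)
    (hgrow2 : ∀ l, K a (b * p ^ l) ≤ W l * K a b) {ψ₁ ψ₂ f h : ℕ → ℝ} {s₁ s₂ : ℝ} {N : ℕ} (hs₁ : 0 < s₁)
    (hs₂ : 0 < s₂) (hψ₁ : ∀ q, 0 ≤ ψ₁ q) (hψ₂ : ∀ q, 0 ≤ ψ₂ q)
    (hf : ∀ q, 0 ≤ f q ∧ f q ≤ ψ₁ q * wt x (insert p P) q)
    (hh : ∀ r, 0 ≤ h r ∧ h r ≤ ψ₂ r * wt x (insert p P) r) (i j : ℕ) :
    psum (fun q r => Edge Ω (insert p P) a b ψ₁ ψ₂ s₁ s₂ q r ∧ q.factorization p = i ∧
        r.factorization p = j) N f h ≤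
      M * (s₁ * s₂) ^ (1 - θ) * K a b * (W (ad i j) *
        ((∑ q ∈ Icc 1 N, if q.factorization p = i then f q else 0) *
          ∑ r ∈ Icc 1 N, if r.factorization p = j then h r else 0) ^ θ) := by
  have hw : ∀ k q, wt x (insert p P) (p ^ k * q) ≤ wt x P q := by
    intro k q
    rw [wt_insert hpP, wt_mul_pow hP hp hpP]
    have h0 := wt_nonneg hx q
    split_ifs
    · nlinarith only [hxp, h0]
    · rw [one_mul]
  have hsum : ∀ (g : ℕ → ℝ) (i : ℕ), ∑ q ∈ Icc 1 N, (if q.factorization p = i then g q else 0)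
      = ∑ q ∈ Icc 1 N, (if ¬ p ∣ q ∧ p ^ i * q ≤ N then g (p ^ i * q) else 0) := by
    intro g i
    rw [sum_reindex p i N hp.pos]
    · refine sum_congr rfl fun q hq => ?_
      have hq0 : 0 < q := (mem_Icc.mp hq).1
      rw [fac_mul hp i hq0]
      have e := fac_eq_zero hp hq0
      by_cases h1 : p ∣ q
      · have : q.factorization p ≠ 0 := fun h2 => (e.mp h2) h1
        simp only [Nat.add_eq_left, this, ↓reduceIte, ite_self, h1, not_true_eq_false, false_and]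
      · have : q.factorization p = 0 := e.mpr h1
        simp only [this, add_zero, ↓reduceIte, h1, not_false_eq_true, true_and]
    · intro q hq
      rw [if_neg]
      intro h1
      exact hq (pow_dvd_of_le h1.ge)
  rw [hsum f i, hsum h j]
  set f' : ℕ → ℝ := fun q => if ¬ p ∣ q ∧ p ^ i * q ≤ N then f (p ^ i * q) else 0 with hf'
  set h' : ℕ → ℝ := fun r => if ¬ p ∣ r ∧ p ^ j * r ≤ N then h (p ^ j * r) else 0 with hh'
  have hf'0 : ∀ q, 0 ≤ f' q ∧ f' q ≤ ψ₁ (p ^ i * q) * wt x P q := by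
    intro q
    simp only [hf']
    split_ifs with h1
    · exact ⟨(hf _).1, (hf _).2.trans (mul_le_mul_of_nonneg_left (hw i q) (hψ₁ _))⟩
    · exact ⟨le_refl _, mul_nonneg (hψ₁ _) (wt_nonneg hx q)⟩
  have hh'0 : ∀ r, 0 ≤ h' r ∧ h' r ≤ ψ₂ (p ^ j * r) * wt x P r := by
    intro r
    simp only [hh']
    split_ifs with h1
    · exact ⟨(hh _).1, (hh _).2.trans (mul_le_mul_of_nonneg_left (hw j r) (hψ₂ _))⟩
    · exact ⟨le_refl _, mul_nonneg (hψ₂ _) (wt_nonneg hx r)⟩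
  have key := ih (a * p ^ (i - j)) (b * p ^ (j - i)) (Nat.mul_pos ha (pow_pos hp.pos _))
    (Nat.mul_pos hb (pow_pos hp.pos _)) (fun q => ψ₁ (p ^ i * q)) (fun r => ψ₂ (p ^ j * r))
    f' h' s₁ s₂ N hs₁ hs₂ (fun q => hψ₁ _) (fun r => hψ₂ _) hf'0 hh'0
  have h1 : psum (fun q r => Edge Ω (insert p P) a b ψ₁ ψ₂ s₁ s₂ q r ∧ q.factorization p = i ∧
        r.factorization p = j) N f h ≤ Lam Ω P (a * p ^ (i - j)) (b * p ^ (j - i))
          (fun q => ψ₁ (p ^ i * q)) (fun r => ψ₂ (p ^ j * r)) s₁ s₂ N f' h' := by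
    rw [psum_reindex p i j N hp.pos]
    · refine psum_le_psum (fun q => (hf'0 q).1) (fun r => (hh'0 r).1) ?_
      intro q r hq hr ⟨h2, h3, h4⟩
      rw [fac_mul hp i hq] at h3
      rw [fac_mul hp j hr] at h4
      have h5 : ¬ p ∣ q := (fac_eq_zero hp hq).mp (by omega)
      have h6 : ¬ p ∣ r := (fac_eq_zero hp hr).mp (by (clear * - h4; omega))
      refine ⟨?_, Or.inl (edge_exact hp h5 h6 h2)⟩
      simp only [hf', hh', h5, h6, not_false_eq_true, true_and]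
      exact le_refl _
    · intro q r _ _ ⟨_, h3, h4⟩
      exact ⟨pow_dvd_of_le h3.ge, pow_dvd_of_le h4.ge⟩
  have h2 : K (a * p ^ (i - j)) (b * p ^ (j - i)) ≤ W (ad i j) * K a b := by
    unfold ad
    rcases le_total i j with hij | hij
    · rw [Nat.sub_eq_zero_of_le hij, pow_zero, mul_one, Nat.zero_add]
      exact hgrow2 _
    · rw [Nat.sub_eq_zero_of_le hij, pow_zero, mul_one, Nat.add_zero]
      exact hgrow1 _
  have hS : 0 ≤ ((∑ q ∈ Icc 1 N, f' q) * ∑ r ∈ Icc 1 N, h' r) ^ θ :=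
    Real.rpow_nonneg (mul_nonneg (sum_nonneg fun q _ => (hf'0 q).1)
      (sum_nonneg fun r _ => (hh'0 r).1)) _
  have hA : 0 ≤ M * (s₁ * s₂) ^ (1 - θ) :=
    mul_nonneg hM (Real.rpow_nonneg (mul_nonneg hs₁.le hs₂.le) _)
  calc _ ≤ _ := h1
    _ ≤ _ := key
    _ ≤ M * (s₁ * s₂) ^ (1 - θ) * (W (ad i j) * K a b) *
        ((∑ q ∈ Icc 1 N, f' q) * ∑ r ∈ Icc 1 N, h' r) ^ θ :=
      mul_le_mul_of_nonneg_right (mul_le_mul_of_nonneg_left h2 hA) hS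
    _ = _ := by ring

/-- One prime step with state dependent growth. -/
theorem lb_step {Ω : ℕ → ℕ → Prop} {θ : ℝ} (hθ : 1 / 2 < θ) (hθ1 : θ < 1) {K K' : ℕ → ℕ → ℝ}
    {P : Finset ℕ} {x : ℕ → ℝ} {p : ℕ} (hP : ∀ p' ∈ P, p'.Prime) (hp : p.Prime) (hpP : p ∉ P)
    (hx : ∀ p' ∈ insert p P, 0 ≤ x p' ∧ x p' < 1) (hK : ∀ a b, 0 ≤ K a b)
    (ih : LBound Ω θ K P x 1)
    (hstep : ∀ a b : ℕ, 0 < a → 0 < b → ∃ (W : ℕ → ℝ) (c : ℝ), W 0 = 1 ∧ (∀ l, 0 ≤ W l) ∧ 0 ≤ c ∧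
      (∀ l, K (a * p ^ l) b ≤ W l * K a b) ∧ (∀ l, K a (b * p ^ l) ≤ W l * K a b) ∧
      SPw θ W (x p) c ∧ c * K a b ≤ K' a b) :
    LBound Ω θ K' (insert p P) x 1 := by
  have _ := hθ
  have _ := hθ1
  have hself : p ∈ insert p P := mem_insert_self p P
  have hxP : ∀ p' ∈ P, x p' < 1 := fun p' h => (hx p' (mem_insert_of_mem h)).2
  intro a b ha hb ψ₁ ψ₂ f h s₁ s₂ N hs₁ hs₂ hψ₁ hψ₂ hf hh
  obtain ⟨W, c, _, _, _, hg1, hg2, hSP, hc⟩ := hstep a b ha hb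
  have hcell := fun i j => n2_exact_cell hP zero_le_one ih
    hp hpP (hx p hself) hxP ha hb hg1 hg2 hs₁ hs₂ hψ₁ hψ₂ hf hh (N := N) i j
  have hL := fun k => L_cell hP ih
    hp hpP (hx p hself) hxP ha hb hs₁ hs₂ hψ₁ hψ₂ hf hh (N := N) k
  set φ : ℕ → ℝ := fun i => ∑ q ∈ Icc 1 N, if q.factorization p = i then f q else 0 with hφ
  set χ : ℕ → ℝ := fun j => ∑ r ∈ Icc 1 N, if r.factorization p = j then h r else 0 with hχ
  have hφ0 : ∀ i, 0 ≤ φ i := by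
    intro i
    refine sum_nonneg fun q _ => ?_
    split_ifs
    · exact (hf q).1
    · exact le_refl _
  have hχ0 : ∀ i, 0 ≤ χ i := by
    intro i
    refine sum_nonneg fun q _ => ?_
    split_ifs
    · exact (hh q).1
    · exact le_refl _
  have hφs : ∀ k, ∑ i ∈ Icc k N, φ i = ∑ q ∈ Icc 1 N, if k ≤ q.factorization p then f q else 0 :=
    fun k => sum_cells N p f k
  have hχs : ∀ k, ∑ i ∈ Icc k N, χ i = ∑ q ∈ Icc 1 N, if k ≤ q.factorization p then h q else 0 :=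
    fun k => sum_cells N p h k
  have hφt : ∑ i ∈ range (N + 1), φ i = ∑ q ∈ Icc 1 N, f q := by
    rw [Nat.range_succ_eq_Icc_zero, hφs 0]
    simp only [zero_le, ↓reduceIte]
  have hχt : ∑ i ∈ range (N + 1), χ i = ∑ q ∈ Icc 1 N, h q := by
    rw [Nat.range_succ_eq_Icc_zero, hχs 0]
    simp only [zero_le, ↓reduceIte]
  have hs0 : 0 ≤ (s₁ * s₂) ^ (1 - θ) := Real.rpow_nonneg (mul_nonneg hs₁.le hs₂.le) _
  have hA : 0 ≤ 1 * (s₁ * s₂) ^ (1 - θ) * K a b :=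
    mul_nonneg (mul_nonneg zero_le_one hs0) (hK a b)
  have hF : 0 ≤ ((∑ q ∈ Icc 1 N, f q) * ∑ r ∈ Icc 1 N, h r) ^ θ :=
    Real.rpow_nonneg (mul_nonneg (sum_nonneg fun q _ => (hf q).1)
      (sum_nonneg fun r _ => (hh r).1)) _
  have goal : ∀ T : ℝ, Lam Ω (insert p P) a b ψ₁ ψ₂ s₁ s₂ N f h ≤
      (1 * (s₁ * s₂) ^ (1 - θ) * K a b) * T →
      T ≤ c * ((∑ i ∈ range (N + 1), φ i) * ∑ j ∈ range (N + 1), χ j) ^ θ →
      Lam Ω (insert p P) a b ψ₁ ψ₂ s₁ s₂ N f h ≤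
        1 * (s₁ * s₂) ^ (1 - θ) * K' a b *
        ((∑ q ∈ Icc 1 N, f q) * ∑ r ∈ Icc 1 N, h r) ^ θ := by
    intro T h1 h2
    rw [hφt, hχt] at h2
    calc _ ≤ _ := h1
      _ ≤ (1 * (s₁ * s₂) ^ (1 - θ) * K a b) *
          (c * ((∑ q ∈ Icc 1 N, f q) * ∑ r ∈ Icc 1 N, h r) ^ θ) :=
        mul_le_mul_of_nonneg_left h2 hA
      _ = (s₁ * s₂) ^ (1 - θ) * ((∑ q ∈ Icc 1 N, f q) * ∑ r ∈ Icc 1 N, h r) ^ θ *
          (c * K a b) := by ring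
      _ ≤ (s₁ * s₂) ^ (1 - θ) * ((∑ q ∈ Icc 1 N, f q) * ∑ r ∈ Icc 1 N, h r) ^ θ *
          K' a b := mul_le_mul_of_nonneg_left hc (mul_nonneg hs0 hF)
      _ = _ := by ring
  rcases hSP N φ χ hφ0 hχ0 with hs | ⟨k, hk, hs⟩
  · refine goal _ ?_ hs
    unfold Lam
    rw [psum_eq_cells _ N p, mul_sum]
    refine sum_le_sum fun i _ => ?_
    rw [mul_sum]
    exact sum_le_sum fun j _ => hcell i j
  · refine goal _ ?_ hs
    unfold Lam
    rw [psum_eq_L _ N p k, mul_add]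
    refine add_le_add ?_ ?_
    · rw [hφs, hχs]
      exact hL k
    · rw [mul_sum]
      refine sum_le_sum fun i _ => ?_
      rw [mul_sum]
      refine sum_le_sum fun j _ => ?_
      split_ifs
      · rw [mul_zero]
      · exact hcell i j

end Vale.P028
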