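import Vale.Agent.P028.H472.C.NBasic
import Vale.Agent.P028.KCount

/-!
# Theorem N, section N7: transitions of the states
-/

namespace Vale.P028

open Finset MeasureTheory

/-! ### powers of `s` -/

theorem n7_exists_t {s : ℝ} (hs : 0 < s) (hs0 : s ≤ (1 / 400000 : ℝ) ^ 640) :
    ∃ t : ℝ, 0 < t ∧ t ≤ 1 / 400000 ∧ s = t ^ 640 := by
  refine ⟨s ^ (1 / 640 : ℝ), Real.rpow_pos_of_pos hs _, ?_, ?_⟩
  · have h1 : ((1 / 400000 : ℝ) ^ 640) ^ (1 / 640 : ℝ) = 1 / 400000 := by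
      rw [← Real.rpow_natCast, ← Real.rpow_mul (by norm_num)]
      norm_num
    rw [← h1]
    exact Real.rpow_le_rpow hs.le hs0 (by norm_num)
  · rw [← Real.rpow_natCast, ← Real.rpow_mul hs.le]
    norm_num

theorem n7_rpow {t : ℝ} (ht : 0 < t) {e : ℝ} (k : ℕ) (h : (640 : ℝ) * e = k) :
    (t ^ 640) ^ e = t ^ k := by
  rw [← Real.rpow_natCast t 640, ← Real.rpow_mul ht.le,
    show ((640 : ℕ) : ℝ) * e = (k : ℝ) by rw [← h]; norm_num, Real.rpow_natCast]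

theorem n7_rpow_neg {t : ℝ} (ht : 0 < t) {e : ℝ} (k : ℕ) (h : (640 : ℝ) * e = -k) :
    (t ^ 640) ^ e = (t ^ k)⁻¹ := by
  rw [← Real.rpow_natCast t 640, ← Real.rpow_mul ht.le,
    show ((640 : ℕ) : ℝ) * e = -(k : ℝ) by rw [← h]; norm_num, Real.rpow_neg ht.le,
    Real.rpow_natCast]

/-- powers of `t` -/
theorem n7_pow_le {t : ℝ} (ht : 0 < t) (ht1 : t ≤ 1 / 400000) {m n : ℕ} (h : m ≤ n) :
    t ^ n ≤ t ^ m :=
  pow_le_pow_of_le_one ht.le (by linarith only [ht1]) h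

/-- the large primes are large -/
theorem n7_nw {s V t : ℝ} (ht : 0 < t) (ht1 : t ≤ 1 / 400000) (hst : s = t ^ 640)
    (hV : 100 * Real.log (1 / s) ^ 2 ≤ Real.log V) : (t ^ 1280)⁻¹ ≤ nw s V := by
  have hs0 : 0 < s := by rw [hst]; positivity
  have hs1 : s ≤ 1 / 400000 := by
    rw [hst]
    calc t ^ 640 ≤ t ^ 1 := n7_pow_le ht ht1 (by norm_num)
      _ ≤ 1 / 400000 := by rw [pow_one]; exact ht1
  have hL : 0 < Real.log (1 / s) := by
    apply Real.log_pos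
    rw [lt_div_iff₀ hs0]
    linarith only [hs1]
  have h1 : 100 * Real.log (1 / s) ≤ Real.log V / Real.log (1 / s) := by
    rw [le_div_iff₀ hL]
    calc 100 * Real.log (1 / s) * Real.log (1 / s) = 100 * Real.log (1 / s) ^ 2 := by ring
      _ ≤ _ := hV
  unfold nw
  have h2 : (t ^ 1280)⁻¹ = Real.exp (2 * Real.log (1 / s)) := by
    rw [two_mul, Real.exp_add, Real.exp_log (by positivity), hst]
    rw [one_div, ← mul_inv, ← pow_add]
  rw [h2]
  apply Real.exp_le_exp.2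
  linarith only [h1, hL]

/-- hits of a progression -/
theorem n7_count {s t : ℝ} (ht : 0 < t) (ht1 : t ≤ 1 / 400000) (hst : s = t ^ 640) {α β D0 : ℝ}
    {M : ℕ} {S : Finset ℕ} (hD0 : 0 < D0)
    (hα : ∀ h : ℕ, 0 < h → (h : ℝ) * t ^ 30 ≤ 1 → D0 ≤ distInt ((h : ℝ) * α))
    (hS : ∀ p ∈ S, p ≤ M) (hS2 : ∀ p ∈ S, distInt ((p : ℝ) * α - β) < 2 * s) :
    (S.card : ℝ) ≤ t ^ 30 * M + 64 * s * M + 4 * s / D0 + 1 := by
  classical
  have hs0 : 0 < s := by rw [hst]; positivity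
  have hs1 : s ≤ 1 / 1000 := by
    rw [hst]
    calc t ^ 640 ≤ t ^ 1 := n7_pow_le ht ht1 (by norm_num)
      _ ≤ 1 / 1000 := by rw [pow_one]; linarith only [ht1]
  by_cases hex : ∃ h : ℕ, 0 < h ∧ (h : ℝ) * t ^ 30 ≤ 1 ∧ distInt ((h : ℝ) * α) ≤ 4 * s
  · obtain ⟨h1, h10, h1t, h1d⟩ := hex
    have hex2 : ∃ h : ℕ, 0 < h ∧ distInt ((h : ℝ) * α) ≤ 4 * s := ⟨h1, h10, h1d⟩
    obtain ⟨h0, hh0⟩ : ∃ h0, h0 = Nat.find hex2 := ⟨_, rfl⟩
    have hsp := Nat.find_spec hex2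
    have hmin : ∀ k < h0, ¬ (0 < k ∧ distInt ((k : ℝ) * α) ≤ 4 * s) := fun k hk => by
      rw [hh0] at hk
      exact Nat.find_min hex2 hk
    rw [← hh0] at hsp
    have hle : h0 ≤ h1 := by rw [hh0]; exact Nat.find_min' hex2 ⟨h10, h1d⟩
    have hleR : (h0 : ℝ) * t ^ 30 ≤ 1 := by
      have : (h0 : ℝ) ≤ h1 := by exact_mod_cast hle
      calc (h0 : ℝ) * t ^ 30 ≤ h1 * t ^ 30 := by gcongr
        _ ≤ 1 := h1t
    have hbad : BadAt α s h0 := by
      refine ⟨⟨hsp.1, hsp.2, fun k hk hk2 => ?_⟩, ?_⟩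
      · by_contra hne
        push Not at hne
        exact hmin k hk2 ⟨hk, hne⟩
      · calc (h0 : ℝ) ^ 4 * s ≤ (h0 : ℝ) ^ 4 * t ^ 120 := by
              rw [hst]
              have := n7_pow_le ht ht1 (m := 120) (n := 640) (by norm_num)
              gcongr
          _ = ((h0 : ℝ) * t ^ 30) ^ 4 := by ring
          _ ≤ 1 := pow_le_one₀ (by positivity) hleR
    have hD := hα h0 hsp.1 hleR
    have h2 := kc_bad_count hs0 hs1 hbad (hD0.trans_le hD) β M S hS hS2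
    have h3 : 4 * s / distInt ((h0 : ℝ) * α) ≤ 4 * s / D0 := by gcongr
    have h4 : 0 ≤ t ^ 30 * (M : ℝ) := by positivity
    linarith only [h2, h3, h4]
  · push Not at hex
    have h1 := kc_sep_card S M (1 / t ^ 30) (by positivity) hS (fun m hm n hn hmn => by
      have h2 : distInt (((n - m : ℕ) : ℝ) * α) ≤ 4 * s := by
        rw [Nat.cast_sub hmn.le]
        have e : ((n : ℝ) - m) * α = ((n : ℝ) * α - β) - ((m : ℝ) * α - β) := by ring
        rw [e]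
        refine (nb_distInt_sub_le _ _).trans ?_
        linarith only [hS2 m hm, hS2 n hn]
      have h3 : 1 < ((n - m : ℕ) : ℝ) * t ^ 30 := by
        by_contra hne
        push Not at hne
        exact absurd h2 (not_le.2 (hex (n - m) (by omega) hne))
      rw [Nat.cast_sub hmn.le] at h3
      rw [div_le_iff₀ (by positivity)]
      exact h3.le)
    have h2 : (M : ℝ) / (1 / t ^ 30) = t ^ 30 * M := by
      field_simp
    rw [h2] at h1
    have h3 : 0 ≤ 64 * s * (M : ℝ) := by positivity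
    have h4 : 0 ≤ 4 * s / D0 := by positivity
    linarith only [h1, h3, h4]

/-- one block, `trans_near` -/
theorem n7_block {γ s V t : ℝ} (ht : 0 < t) (ht1 : t ≤ 1 / 400000) (hst : s = t ^ 640)
    (hV : 0 < V) {a b : ℕ} (ha : 0 < a) (hbad : ¬ NBad γ s V a) {X : ℕ}
    (hX : 1 ≤ (X : ℝ) * t ^ 640) (S : Finset ℕ) (hS : ∀ p ∈ S, X ≤ p ∧ p < 2 * X)
    (hS2 : ∀ p ∈ S, ∃ m n : ℕ, 0 < m ∧ 0 < n ∧ (m : ℝ) ≤ s ^ (-(1 / 64) : ℝ) ∧
      (n : ℝ) ≤ s ^ (-(1 / 64) : ℝ) ∧ NWin γ s V (a * p * m) (b * n)) :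
    ∑ p ∈ S, 1 / (p : ℝ) ≤ 139 * t ^ 10 := by
  classical
  have hs0 : 0 < s := by rw [hst]; positivity
  have haR : (0 : ℝ) < a := by exact_mod_cast ha
  have hX0 : (0 : ℝ) < X := by
    by_contra hne
    push Not at hne
    have : (X : ℝ) * t ^ 640 ≤ 0 := mul_nonpos_of_nonpos_of_nonneg hne (by positivity)
    linarith only [hX, this]
  have e64 : s ^ (-(1 / 64) : ℝ) = (t ^ 10)⁻¹ := by
    rw [hst]; exact n7_rpow_neg ht 10 (by norm_num)
  have e32 : s ^ (1 / 32 : ℝ) = t ^ 20 := by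
    rw [hst]; exact n7_rpow ht 20 (by norm_num)
  have e16 : s ^ (-(1 / 16) : ℝ) = (t ^ 40)⁻¹ := by
    rw [hst]; exact n7_rpow_neg ht 40 (by norm_num)
  have etb : tb s V = t ^ 540 / V := by
    unfold tb
    rw [hst, n7_rpow ht 540 (by norm_num)]
  obtain ⟨K, hK⟩ : ∃ K, K = ⌊(t ^ 10)⁻¹⌋₊ := ⟨_, rfl⟩
  have hKle : (K : ℝ) ≤ (t ^ 10)⁻¹ := by
    rw [hK]; exact Nat.floor_le (by positivity)
  have hone : ∀ m ∈ Icc 1 K, ∀ n ∈ Icc 1 K,
      ((S.filter (fun p => NWin γ s V (a * p * m) (b * n))).card : ℝ) ≤ 139 * X * t ^ 30 := by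
    intro m hm n hn
    rw [mem_Icc] at hm hn
    rcases (S.filter (fun p => NWin γ s V (a * p * m) (b * n))).eq_empty_or_nonempty with h | h
    · rw [h, card_empty, Nat.cast_zero]
      positivity
    obtain ⟨p₀, hp₀⟩ := h
    rw [mem_filter] at hp₀
    have hmR : (m : ℝ) ≤ (t ^ 10)⁻¹ := by
      have : (m : ℝ) ≤ K := by exact_mod_cast hm.2
      exact this.trans hKle
    have hm0 : (0 : ℝ) < m := by exact_mod_cast hm.1
    have hp2 : (p₀ : ℝ) ≤ 2 * X := by exact_mod_cast (hS p₀ hp₀.1).2.le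
    have hVa : V * t ^ 30 ≤ 2 * (a * X) := by
      have h1 := hp₀.2.1
      have h2 := hp₀.2.2.2.1
      rw [e32] at h2
      have h3 : t ^ 20 * V ≤ ((a * p₀ * m : ℕ) : ℝ) :=
        (mul_le_mul_of_nonneg_left h1 (by positivity)).trans (h2.trans (min_le_left _ _))
      have h4 : ((a * p₀ * m : ℕ) : ℝ) ≤ a * (2 * X) * (t ^ 10)⁻¹ := by
        push_cast
        gcongr
      calc V * t ^ 30 = (t ^ 20 * V) * t ^ 10 := by ring
        _ ≤ (a * (2 * X) * (t ^ 10)⁻¹) * t ^ 10 := by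
            have := h3.trans h4
            gcongr
        _ = 2 * (a * X) := by
            field_simp
    have hcnt := n7_count (s := s) ht ht1 hst (α := (a : ℝ) * m * γ) (β := (b : ℝ) * n * γ)
      (D0 := a * (t ^ 540 / V)) (M := 2 * X)
      (S := S.filter (fun p => NWin γ s V (a * p * m) (b * n))) (by positivity) ?_ ?_ ?_
    · refine hcnt.trans ?_
      have h1 : 4 * s / (a * (t ^ 540 / V)) ≤ 8 * X * t ^ 70 := by
        rw [div_le_iff₀ (by positivity)]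
        calc 4 * s = 4 * (t ^ 30 * V) * (t ^ 610 / V) := by
              rw [hst]
              field_simp
          _ ≤ 4 * (2 * (a * X)) * (t ^ 610 / V) := by
              have : t ^ 30 * V ≤ 2 * (a * X) := by linarith only [hVa]
              gcongr
          _ = 8 * X * t ^ 70 * (a * (t ^ 540 / V)) := by
              ring
      have h2 : t ^ 70 ≤ t ^ 30 := n7_pow_le ht ht1 (by norm_num)
      have h3 : t ^ 640 ≤ t ^ 30 := n7_pow_le ht ht1 (by norm_num)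
      have h4 : (X : ℝ) * t ^ 640 ≤ X * t ^ 30 := by gcongr
      have h5 : 8 * (X : ℝ) * t ^ 70 ≤ 8 * X * t ^ 30 := by gcongr
      rw [hst] at h1 ⊢
      push_cast
      nlinarith only [h1, h4, h5, hX]
    · intro h hh0 hht
      have h1 : ¬ NBad γ s V a := hbad
      unfold NBad at h1
      push Not at h1
      have h2 : (((h * m : ℕ) : ℝ)) ≤ s ^ (-(1 / 16) : ℝ) := by
        rw [e16]
        push_cast
        calc (h : ℝ) * m ≤ (t ^ 30)⁻¹ * (t ^ 10)⁻¹ := by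
              have : (h : ℝ) ≤ (t ^ 30)⁻¹ := by
                rw [inv_eq_one_div, le_div_iff₀ (by positivity)]
                exact hht
              gcongr
          _ = (t ^ 40)⁻¹ := by rw [← mul_inv, ← pow_add]
      have h3 := h1 (h * m) (Nat.mul_pos hh0 hm.1) h2
      rw [etb] at h3
      refine h3.trans (le_of_eq ?_)
      congr 1
      push_cast
      ring
    · intro p hp
      rw [mem_filter] at hp
      exact (hS p hp.1).2.le
    · intro p hp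
      rw [mem_filter] at hp
      have h1 := hp.2.2.2.2.1
      refine lt_of_le_of_lt (le_of_eq ?_) h1
      congr 1
      push_cast
      ring
  have hsub : S ⊆ (Icc 1 K ×ˢ Icc 1 K).biUnion
      (fun z => S.filter (fun p => NWin γ s V (a * p * z.1) (b * z.2))) := by
    intro p hp
    obtain ⟨m, n, hm, hn, hm2, hn2, hw⟩ := hS2 p hp
    rw [e64] at hm2 hn2
    rw [mem_biUnion]
    refine ⟨(m, n), mem_product.2 ⟨mem_Icc.2 ⟨hm, ?_⟩, mem_Icc.2 ⟨hn, ?_⟩⟩,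
      mem_filter.2 ⟨hp, hw⟩⟩
    · rw [hK]; exact Nat.le_floor hm2
    · rw [hK]; exact Nat.le_floor hn2
  have hcard : (S.card : ℝ) ≤ 139 * X * t ^ 10 := by
    have h1 : S.card ≤ ∑ z ∈ Icc 1 K ×ˢ Icc 1 K,
        (S.filter (fun p => NWin γ s V (a * p * z.1) (b * z.2))).card :=
      (card_le_card hsub).trans card_biUnion_le
    have h2 : (S.card : ℝ) ≤ ∑ z ∈ Icc 1 K ×ˢ Icc 1 K,
        ((S.filter (fun p => NWin γ s V (a * p * z.1) (b * z.2))).card : ℝ) := by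
      exact_mod_cast h1
    refine h2.trans ?_
    calc ∑ z ∈ Icc 1 K ×ˢ Icc 1 K,
        ((S.filter (fun p => NWin γ s V (a * p * z.1) (b * z.2))).card : ℝ)
        ≤ ∑ _z ∈ Icc 1 K ×ˢ Icc 1 K, 139 * (X : ℝ) * t ^ 30 := by
          refine sum_le_sum fun z hz => ?_
          rw [mem_product] at hz
          exact hone z.1 hz.1 z.2 hz.2
      _ = (K : ℝ) * K * (139 * X * t ^ 30) := by
          rw [sum_const, card_product, Nat.card_Icc, nsmul_eq_mul]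
          push_cast
          simp
      _ ≤ (t ^ 10)⁻¹ * (t ^ 10)⁻¹ * (139 * X * t ^ 30) := by gcongr
      _ = 139 * X * t ^ 10 := by
          field_simp
  calc ∑ p ∈ S, 1 / (p : ℝ) ≤ ∑ _p ∈ S, 1 / (X : ℝ) := by
        refine sum_le_sum fun p hp => ?_
        have : (X : ℝ) ≤ p := by exact_mod_cast (hS p hp).1
        gcongr
    _ = S.card * (1 / (X : ℝ)) := by rw [sum_const, nsmul_eq_mul]
    _ ≤ 139 * X * t ^ 10 * (1 / X) := by gcongr
    _ = 139 * t ^ 10 := by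
        field_simp

/-- range of the logarithms -/
theorem n7_log_card {t : ℝ} (ht : 0 < t) (ht1 : t ≤ 1 / 400000) (S : Finset ℕ)
    (hS : ∀ p ∈ S, 0 < p) (hS2 : ∀ p ∈ S, ∀ q ∈ S, (q : ℝ) * t ^ 150 ≤ p) :
    ((S.image (fun p => Nat.log 2 p)).card : ℝ) ≤ 302 / t := by
  classical
  rcases S.eq_empty_or_nonempty with h | h
  · rw [h, image_empty, card_empty, Nat.cast_zero]
    positivity
  have hne : (S.image (fun p => Nat.log 2 p)).Nonempty := h.image _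
  obtain ⟨i, hi⟩ : ∃ i, i = (S.image (fun p => Nat.log 2 p)).min' hne := ⟨_, rfl⟩
  obtain ⟨j, hj⟩ : ∃ j, j = (S.image (fun p => Nat.log 2 p)).max' hne := ⟨_, rfl⟩
  have hiS := (S.image (fun p => Nat.log 2 p)).min'_mem hne
  have hjS := (S.image (fun p => Nat.log 2 p)).max'_mem hne
  rw [← hi, mem_image] at hiS
  rw [← hj, mem_image] at hjS
  obtain ⟨p, hp, hpi⟩ := hiS
  obtain ⟨q, hq, hqj⟩ := hjS
  have hij : i ≤ j := by
    rw [hi, hj]
    exact Finset.min'_le_max' _ hne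
  have hsub : S.image (fun p => Nat.log 2 p) ⊆ Icc i j := by
    intro k hk
    rw [mem_Icc, hi, hj]
    exact ⟨Finset.min'_le _ _ hk, Finset.le_max' _ _ hk⟩
  have hcard := card_le_card hsub
  rw [Nat.card_Icc] at hcard
  have h1 : (2 : ℝ) ^ j ≤ q := by
    rw [← hqj]
    exact_mod_cast Nat.pow_log_le_self 2 (hS q hq).ne'
  have h2 : (p : ℝ) < 2 ^ (i + 1) := by
    rw [← hpi]
    exact_mod_cast Nat.lt_pow_succ_log_self (by norm_num) p
  have h3 := hS2 p hp q hq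
  have h4 : (2 : ℝ) ^ (j - i) * t ^ 150 < 2 := by
    have h5 : (2 : ℝ) ^ j * t ^ 150 < 2 ^ (i + 1) := by
      calc (2 : ℝ) ^ j * t ^ 150 ≤ (q : ℝ) * t ^ 150 := by gcongr
        _ ≤ (p : ℝ) := h3
        _ < (2 : ℝ) ^ (i + 1) := h2
    have h6 : (2 : ℝ) ^ j = 2 ^ i * 2 ^ (j - i) := by
      rw [← pow_add]
      congr 1
      omega
    rw [h6, pow_succ, mul_assoc] at h5
    exact lt_of_mul_lt_mul_left h5 (by positivity)
  have h5 : ((j - i : ℕ) : ℝ) * Real.log 2 + 150 * Real.log t < Real.log 2 := by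
    have h6 := Real.log_lt_log (by positivity) h4
    rw [Real.log_mul (by positivity) (by positivity), Real.log_pow, Real.log_pow] at h6
    push_cast at h6 ⊢
    exact h6
  have h6 : -Real.log t ≤ 1 / t := by
    have h7 := Real.log_le_sub_one_of_pos (x := 1 / t) (by positivity)
    rw [one_div, Real.log_inv] at h7
    rw [one_div]
    linarith only [h7]
  have h7 : (1 / 2 : ℝ) < Real.log 2 := by
    have := Real.log_two_gt_d9
    linarith only [this]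
  have h8 : ((j - i : ℕ) : ℝ) ≤ 1 + 300 / t := by
    by_contra hne'
    push Not at hne'
    have h9 : (1 + 300 / t) * Real.log 2 < ((j - i : ℕ) : ℝ) * Real.log 2 := by gcongr
    have h10 : 300 / t * (1 / 2) ≤ 300 / t * Real.log 2 := by gcongr
    have h11 : 300 / t * (1 / 2) = 150 * (1 / t) := by ring
    nlinarith only [h5, h6, h9, h10, h11]
  have h9 : ((S.image (fun p => Nat.log 2 p)).card : ℝ) ≤ ((j - i : ℕ) : ℝ) + 1 := by
    have h10 : (S.image (fun p => Nat.log 2 p)).card ≤ (j - i) + 1 := by omega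
    exact_mod_cast h10
  have h10 : 2 ≤ 2 / t := by
    rw [le_div_iff₀ ht]
    linarith only [ht1]
  have h11 : 302 / t = 300 / t + 2 / t := by ring
  rw [h11]
  linarith only [h8, h9, h10]

/-- decomposition in dyadic blocks -/
theorem n7_dyadic (S : Finset ℕ) (f : ℕ → ℝ) :
    ∑ p ∈ S, f p = ∑ j ∈ S.image (fun p => Nat.log 2 p),
      ∑ p ∈ S.filter (fun p => Nat.log 2 p = j), f p := by
  classical
  exact (sum_fiberwise_of_maps_to (fun p hp => mem_image_of_mem _ hp) f).symm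

open Classical in
theorem trans_near : ∃ s₀ > 0, ∀ γ s V : ℝ, NHyp s₀ s V → ∀ a b : ℕ, 0 < a → 0 < b →
    ¬ NBad γ s V a → ∀ P : Finset ℕ, (∀ p ∈ P, p.Prime ∧ nw s V < p) →
    ∑ p ∈ P, (if ∃ m n : ℕ, 0 < m ∧ 0 < n ∧ (m : ℝ) ≤ s ^ (-(1 / 64) : ℝ) ∧
        (n : ℝ) ≤ s ^ (-(1 / 64) : ℝ) ∧ NWin γ s V (a * p * m) (b * n) then 1 / (p : ℝ) else 0) ≤
      s ^ (1 / 80 : ℝ) / 4 := by
  refine ⟨(1 / 400000 : ℝ) ^ 640, by positivity, fun γ s V hH a b ha _ hbad P hP => ?_⟩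
  obtain ⟨hs, hs0, hV, hVL⟩ := hH
  obtain ⟨t, ht, ht1, hst⟩ := n7_exists_t hs hs0
  have hnw := n7_nw ht ht1 hst hVL
  have haR : (0 : ℝ) < a := by exact_mod_cast ha
  have e64 : s ^ (-(1 / 64) : ℝ) = (t ^ 10)⁻¹ := by
    rw [hst]; exact n7_rpow_neg ht 10 (by norm_num)
  have e32 : s ^ (1 / 32 : ℝ) = t ^ 20 := by
    rw [hst]; exact n7_rpow ht 20 (by norm_num)
  have e316 : s ^ (-(3 / 16) : ℝ) = (t ^ 120)⁻¹ := by
    rw [hst]; exact n7_rpow_neg ht 120 (by norm_num)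
  have e80 : s ^ (1 / 80 : ℝ) = t ^ 8 := by
    rw [hst]; exact n7_rpow ht 8 (by norm_num)
  rw [← sum_filter, e80]
  obtain ⟨Q, hQ⟩ : ∃ Q, Q = P.filter (fun p => ∃ m n : ℕ, 0 < m ∧ 0 < n ∧
      (m : ℝ) ≤ s ^ (-(1 / 64) : ℝ) ∧ (n : ℝ) ≤ s ^ (-(1 / 64) : ℝ) ∧
      NWin γ s V (a * p * m) (b * n)) := ⟨_, rfl⟩
  rw [← hQ]
  have hQ1 : ∀ p ∈ Q, p.Prime ∧ nw s V < p := fun p hp => by
    rw [hQ, mem_filter] at hp
    exact hP p hp.1
  have hQ2 : ∀ p ∈ Q, ∃ m n : ℕ, 0 < m ∧ 0 < n ∧ (m : ℝ) ≤ s ^ (-(1 / 64) : ℝ) ∧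
      (n : ℝ) ≤ s ^ (-(1 / 64) : ℝ) ∧ NWin γ s V (a * p * m) (b * n) := fun p hp => by
    rw [hQ, mem_filter] at hp
    exact hp.2
  have hlow : ∀ p ∈ Q, V * t ^ 30 ≤ a * p := by
    intro p hp
    obtain ⟨m, n, hm, hn, hm2, hn2, hw⟩ := hQ2 p hp
    have h1 := hw.1
    have h2 := hw.2.2.1
    rw [e32] at h2
    rw [e64] at hm2
    have h3 : t ^ 20 * V ≤ ((a * p * m : ℕ) : ℝ) :=
      (mul_le_mul_of_nonneg_left h1 (by positivity)).trans (h2.trans (min_le_left _ _))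
    have h4 : ((a * p * m : ℕ) : ℝ) ≤ a * p * (t ^ 10)⁻¹ := by
      push_cast
      gcongr
    calc V * t ^ 30 = (t ^ 20 * V) * t ^ 10 := by ring
      _ ≤ (a * p * (t ^ 10)⁻¹) * t ^ 10 := by
          have := h3.trans h4
          gcongr
      _ = a * p := by
          field_simp
  have hup : ∀ p ∈ Q, (a * p : ℝ) * t ^ 120 ≤ V := by
    intro p hp
    obtain ⟨m, n, hm, hn, hm2, hn2, hw⟩ := hQ2 p hp
    have h2 := hw.2.1
    rw [e316] at h2
    have hm1 : (1 : ℝ) ≤ m := by exact_mod_cast hm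
    have h3 : (a * p : ℝ) ≤ V * (t ^ 120)⁻¹ := by
      calc (a * p : ℝ) ≤ a * p * m := le_mul_of_one_le_right (by positivity) hm1
        _ = ((a * p * m : ℕ) : ℝ) := by push_cast; ring
        _ ≤ max ((a * p * m : ℕ) : ℝ) ((b * n : ℕ) : ℝ) := le_max_left _ _
        _ ≤ _ := h2
    calc (a * p : ℝ) * t ^ 120 ≤ V * (t ^ 120)⁻¹ * t ^ 120 := by gcongr
      _ = V := by
          field_simp
  have hcard := n7_log_card ht ht1 Q (fun p hp => (hQ1 p hp).1.pos) (fun p hp q hq => by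
    have h1 := hlow p hp
    have h2 := hup q hq
    have h3 : a * ((q : ℝ) * t ^ 150) ≤ a * p := by
      calc a * ((q : ℝ) * t ^ 150) = (a * q : ℝ) * t ^ 120 * t ^ 30 := by ring
        _ ≤ V * t ^ 30 := by gcongr
        _ ≤ a * p := h1
    exact le_of_mul_le_mul_left h3 haR)
  rw [n7_dyadic]
  calc ∑ j ∈ Q.image (fun p => Nat.log 2 p), ∑ p ∈ Q.filter (fun p => Nat.log 2 p = j),
        1 / (p : ℝ)
      ≤ ∑ _j ∈ Q.image (fun p => Nat.log 2 p), 139 * t ^ 10 := by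
        refine sum_le_sum fun j hj => ?_
        obtain ⟨p₀, hp₀, hpj⟩ := mem_image.1 hj
        have hblock : ∀ p ∈ Q.filter (fun p => Nat.log 2 p = j), 2 ^ j ≤ p ∧ p < 2 * 2 ^ j := by
          intro p hp
          rw [mem_filter] at hp
          have hpp := (hQ1 p hp.1).1.pos
          rw [← hp.2]
          refine ⟨Nat.pow_log_le_self 2 hpp.ne', ?_⟩
          have := Nat.lt_pow_succ_log_self (b := 2) (by norm_num) p
          rw [pow_succ] at this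
          omega
        refine n7_block (b := b) ht ht1 hst hV ha hbad (X := 2 ^ j) ?_ _ hblock
          (fun p hp => hQ2 p (mem_filter.1 hp).1)
        have h1 := hblock p₀ (mem_filter.2 ⟨hp₀, hpj⟩)
        have h2 : (p₀ : ℝ) < 2 * 2 ^ j := by exact_mod_cast h1.2
        have h3 := (hQ1 p₀ hp₀).2
        have h4 : (t ^ 1280)⁻¹ < 2 * 2 ^ j := hnw.trans_lt (h3.trans h2)
        have h5 : (t ^ 1280)⁻¹ * t ^ 640 = (t ^ 640)⁻¹ := by
          field_simp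
        have h6 : (t ^ 640)⁻¹ < 2 * 2 ^ j * t ^ 640 := by
          rw [← h5]
          gcongr
        have h7 : (2 : ℝ) ≤ (t ^ 640)⁻¹ := by
          rw [inv_eq_one_div, le_div_iff₀ (by positivity)]
          have h8 : t ^ 640 ≤ t ^ 1 := n7_pow_le ht ht1 (by norm_num)
          rw [pow_one] at h8
          linarith only [h8, ht1]
        push_cast
        linarith only [h6, h7]
    _ = ((Q.image (fun p => Nat.log 2 p)).card : ℝ) * (139 * t ^ 10) := by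
        rw [sum_const, nsmul_eq_mul]
    _ ≤ 302 / t * (139 * t ^ 10) := by gcongr
    _ = 41978 * t * t ^ 8 := by
        field_simp
        ring
    _ ≤ t ^ 8 / 4 := by
        have h1 : 41978 * t ≤ 1 / 4 := by linarith only [ht1]
        calc 41978 * t * t ^ 8 ≤ 1 / 4 * t ^ 8 := by gcongr
          _ = t ^ 8 / 4 := by ring

/-! ### `trans_bad` -/

theorem n7_biUnion (I : Finset ℕ) (T : ℕ → Finset ℕ) (f : ℕ → ℝ) (hf : ∀ p, 0 ≤ f p) :
    ∑ p ∈ I.biUnion T, f p ≤ ∑ h ∈ I, ∑ p ∈ T h, f p := by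
  classical
  induction I using Finset.induction_on with
  | empty => simp
  | insert h I hh ih =>
    rw [biUnion_insert, sum_insert hh]
    have h1 := sum_union_inter (s₁ := T h) (s₂ := I.biUnion T) (f := f)
    have h2 : 0 ≤ ∑ p ∈ T h ∩ I.biUnion T, f p := sum_nonneg fun p _ => hf p
    linarith only [h1, h2, ih]

/-- separated reals in an interval -/
theorem n7_sep_card {S : Finset ℕ} {f : ℕ → ℝ} {x l G : ℝ} (hG : 0 < G)
    (h1 : ∀ p ∈ S, x ≤ f p ∧ f p ≤ x + l) (h2 : ∀ p ∈ S, ∀ q ∈ S, p ≠ q → G ≤ |f p - f q|) :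
    S.Nonempty → (S.card : ℝ) ≤ l / G + 1 := by
  intro hne
  have hl : 0 ≤ l := by
    obtain ⟨p, hp⟩ := hne
    have := h1 p hp
    linarith only [this.1, this.2]
  have h3 : S.card ≤ (range (⌊l / G⌋₊ + 1)).card := by
    refine card_le_card_of_injOn (fun p => ⌊(f p - x) / G⌋₊) ?_ ?_
    · intro p hp
      rw [coe_range, Set.mem_Iio]
      have h4 := (h1 p hp).2
      refine Nat.lt_succ_of_le (Nat.floor_mono (div_le_div_of_nonneg_right ?_ hG.le))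
      linarith only [h4]
    · intro p hp q hq hpq
      by_contra hne2
      have h4 := h2 p hp q hq hne2
      simp only at hpq
      have h5 : 0 ≤ (f p - x) / G := div_nonneg (by linarith only [(h1 p hp).1]) hG.le
      have h6 : 0 ≤ (f q - x) / G := div_nonneg (by linarith only [(h1 q hq).1]) hG.le
      have h7 := Nat.floor_le h5
      have h8 := Nat.lt_floor_add_one ((f p - x) / G)
      have h9 := Nat.floor_le h6
      have h10 := Nat.lt_floor_add_one ((f q - x) / G)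
      rw [hpq] at h7 h8
      have h11 : |(f p - x) / G - (f q - x) / G| < 1 := by
        rw [abs_lt]
        constructor <;> linarith only [h7, h8, h9, h10]
      have h12 : (f p - x) / G - (f q - x) / G = (f p - f q) / G := by ring
      rw [h12, abs_div, abs_of_pos hG, div_lt_one hG] at h11
      linarith only [h4, h11]
  rw [card_range] at h3
  have h4 : (S.card : ℝ) ≤ ((⌊l / G⌋₊ + 1 : ℕ) : ℝ) := by exact_mod_cast h3
  push_cast at h4
  have h5 : (⌊l / G⌋₊ : ℝ) ≤ l / G := Nat.floor_le (by positivity)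
  linarith only [h4, h5]

/-- reduced fractions with different prime denominators -/
theorem n7_sep {p q : ℕ} (hp : p.Prime) (hq : q.Prime) (hne : p ≠ q) {k l : ℤ}
    (hk : ¬ (p : ℤ) ∣ k) : 1 / ((p : ℝ) * q) ≤ |(k : ℝ) / p - l / q| := by
  have hp0 : (0 : ℝ) < p := by exact_mod_cast hp.pos
  have hq0 : (0 : ℝ) < q := by exact_mod_cast hq.pos
  have h1 : k * q - l * p ≠ 0 := by
    intro h
    have h2 : (p : ℤ) ∣ k * q := ⟨l, by linarith only [h]⟩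
    rcases (Nat.prime_iff_prime_int.1 hp).dvd_or_dvd h2 with h3 | h3
    · exact hk h3
    · have h4 : p ∣ q := by exact_mod_cast h3
      exact hne ((Nat.prime_dvd_prime_iff_eq hp hq).1 h4)
  have h2 : (1 : ℝ) ≤ |(k : ℝ) * q - l * p| := by
    have h3 : (1 : ℤ) ≤ |k * q - l * p| := Int.one_le_abs h1
    exact_mod_cast h3
  have h3 : (k : ℝ) / p - l / q = ((k : ℝ) * q - l * p) / (p * q) := by
    field_simp
  rw [h3, abs_div, abs_of_pos (mul_pos hp0 hq0)]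
  gcongr

theorem n7_geom_up (J : Finset ℕ) (m : ℕ) (h : ∀ j ∈ J, j ≤ m) :
    ∑ j ∈ J, (2 : ℝ) ^ j ≤ 2 * 2 ^ m := by
  have h1 : J ⊆ range (m + 1) := fun j hj => mem_range.2 (Nat.lt_succ_of_le (h j hj))
  have h2 : ∀ n : ℕ, ∑ j ∈ range n, (2 : ℝ) ^ j = 2 ^ n - 1 := by
    intro n
    induction n with
    | zero => simp
    | succ n ih => rw [sum_range_succ, ih, pow_succ]; ring
  calc ∑ j ∈ J, (2 : ℝ) ^ j ≤ ∑ j ∈ range (m + 1), (2 : ℝ) ^ j :=
        sum_le_sum_of_subset_of_nonneg h1 fun _ _ _ => by positivity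
    _ = 2 ^ (m + 1) - 1 := h2 _
    _ ≤ 2 * 2 ^ m := by rw [pow_succ]; linarith only

theorem n7_geom_down (J : Finset ℕ) (m : ℕ) (h : ∀ j ∈ J, m ≤ j) :
    ∑ j ∈ J, (1 / 2 : ℝ) ^ j ≤ 2 * (1 / 2) ^ m := by
  classical
  have h1 : ∀ j ∈ J, (1 / 2 : ℝ) ^ j = (1 / 2) ^ m * (1 / 2) ^ (j - m) := by
    intro j hj
    rw [← pow_add]
    congr 1
    have := h j hj
    omega
  have h2 : Set.InjOn (fun j => j - m) J := by
    intro i hi j hj hij
    have h3 := h i hi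
    have h4 := h j hj
    simp only at hij
    omega
  have h3 : ∑ j ∈ J, (1 / 2 : ℝ) ^ (j - m) = ∑ i ∈ J.image (fun j => j - m), (1 / 2 : ℝ) ^ i :=
    (sum_image h2).symm
  have h4 : ∑ i ∈ J.image (fun j => j - m), (1 / 2 : ℝ) ^ i ≤ 2 := by
    have h5 := summable_geometric_two.sum_le_tsum (J.image (fun j => j - m))
      (fun i _ => by positivity)
    rwa [tsum_geometric_two] at h5
  rw [sum_congr rfl h1, ← mul_sum, h3, mul_comm]
  gcongr

/-- one block, `trans_bad`: the set of primes of a dyadic block for a fixed multiplier. -/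
theorem n7_block_bad {α η : ℝ} {X : ℕ} (hX : 0 < X) (hη : 0 ≤ η)
    (hbad : η ≤ distInt α) (S : Finset ℕ)
    (hS : ∀ p ∈ S, X ≤ p ∧ p < 2 * X) (hp : ∀ p ∈ S, p.Prime)
    (hS2 : ∀ p ∈ S, distInt ((p : ℝ) * α) < p * η) :
    ∑ p ∈ S, 1 / (p : ℝ) ≤ 1 / (X : ℝ) + 8 * X * η := by
  have hX0 : (0 : ℝ) < X := by exact_mod_cast hX
  rcases S.eq_empty_or_nonempty with he | hne
  · rw [he, sum_empty]
    positivity
  have hp0 : ∀ p ∈ S, (0 : ℝ) < p := fun p hpS => by exact_mod_cast (hp p hpS).pos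
  have hab : ∀ p ∈ S, |α - (round ((p : ℝ) * α) : ℝ) / p| < η := by
    intro p hpS
    have h1 := hS2 p hpS
    have h2 := hp0 p hpS
    unfold distInt at h1
    have h3 : (p : ℝ) * α - round ((p : ℝ) * α) = p * (α - (round ((p : ℝ) * α) : ℝ) / p) := by
      field_simp
    rw [h3, abs_mul, abs_of_pos h2] at h1
    exact lt_of_mul_lt_mul_left h1 h2.le
  have hnd : ∀ p ∈ S, ¬ (p : ℤ) ∣ round ((p : ℝ) * α) := by
    intro p hpS hd
    obtain ⟨c, hc⟩ := hd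
    have h1 := hab p hpS
    have h2 := hp0 p hpS
    rw [hc] at h1
    push_cast at h1
    rw [mul_div_cancel_left₀ _ h2.ne'] at h1
    have h3 := distInt_le_abs_sub' α c
    linarith only [h1, h3, hbad]
  have hcard := n7_sep_card (S := S) (f := fun p => (round ((p : ℝ) * α) : ℝ) / p) (x := α - η)
    (l := 2 * η) (G := 1 / (4 * X ^ 2)) (by positivity) (fun p hpS => by
      have h1 := abs_lt.1 (hab p hpS)
      constructor <;> linarith only [h1.1, h1.2]) (fun p hpS q hqS hpq => by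
      refine le_trans ?_ (n7_sep (hp p hpS) (hp q hqS) hpq (hnd p hpS))
      have h1 : (p : ℝ) ≤ 2 * X := by exact_mod_cast (hS p hpS).2.le
      have h2 : (q : ℝ) ≤ 2 * X := by exact_mod_cast (hS q hqS).2.le
      have h3 := hp0 p hpS
      have h4 := hp0 q hqS
      apply one_div_le_one_div_of_le (by positivity)
      calc (p : ℝ) * q ≤ (2 * X) * (2 * X) := by gcongr
        _ = 4 * X ^ 2 := by ring) hne
  have hcard2 : (S.card : ℝ) ≤ 8 * X ^ 2 * η + 1 := by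
    refine hcard.trans (le_of_eq ?_)
    field_simp
    ring
  calc ∑ p ∈ S, 1 / (p : ℝ) ≤ ∑ _p ∈ S, 1 / (X : ℝ) := by
        refine sum_le_sum fun p hpS => ?_
        have : (X : ℝ) ≤ p := by exact_mod_cast (hS p hpS).1
        gcongr
    _ = S.card * (1 / (X : ℝ)) := by rw [sum_const, nsmul_eq_mul]
    _ ≤ (8 * X ^ 2 * η + 1) * (1 / X) := by gcongr
    _ = 1 / (X : ℝ) + 8 * X * η := by
        field_simp
        ring

/-- `trans_bad` for a fixed multiplier -/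
theorem n7_bad_one {α η w Z : ℝ} (hη : 0 ≤ η) (hw : 1 ≤ w)
    (hbad : η ≤ distInt α) (S : Finset ℕ) (hp : ∀ p ∈ S, p.Prime ∧ w < p ∧ p * η ≤ Z)
    (hZ : 0 ≤ Z) (hS2 : ∀ p ∈ S, distInt ((p : ℝ) * α) < p * η) :
    ∑ p ∈ S, 1 / (p : ℝ) ≤ 4 / w + 16 * Z := by
  classical
  rcases S.eq_empty_or_nonempty with he | hne
  · rw [he, sum_empty]
    positivity
  rw [n7_dyadic]
  have hblock : ∀ j, ∀ p ∈ S.filter (fun p => Nat.log 2 p = j), 2 ^ j ≤ p ∧ p < 2 * 2 ^ j := by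
    intro j p hpj
    rw [mem_filter] at hpj
    have hpp := (hp p hpj.1).1.pos
    rw [← hpj.2]
    refine ⟨Nat.pow_log_le_self 2 hpp.ne', ?_⟩
    have := Nat.lt_pow_succ_log_self (b := 2) (by norm_num) p
    rw [pow_succ] at this
    omega
  obtain ⟨J, hJ⟩ : ∃ J, J = S.image (fun p => Nat.log 2 p) := ⟨_, rfl⟩
  have hJne : J.Nonempty := by rw [hJ]; exact hne.image _
  have h1 : ∀ j ∈ J, ∑ p ∈ S.filter (fun p => Nat.log 2 p = j), 1 / (p : ℝ) ≤
      (1 / 2 : ℝ) ^ j + 8 * η * 2 ^ j := by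
    intro j _
    have h2 := n7_block_bad (X := 2 ^ j) (α := α) (η := η) (by positivity) hη hbad
      (S.filter (fun p => Nat.log 2 p = j)) (hblock j)
      (fun p hpj => (hp p (mem_filter.1 hpj).1).1)
      (fun p hpj => hS2 p (mem_filter.1 hpj).1)
    refine h2.trans (le_of_eq ?_)
    push_cast
    rw [one_div_pow]
    ring
  rw [← hJ]
  obtain ⟨i, hi⟩ : ∃ i, i = J.min' hJne := ⟨_, rfl⟩
  obtain ⟨k, hk⟩ : ∃ k, k = J.max' hJne := ⟨_, rfl⟩
  have hiJ : i ∈ J := by rw [hi]; exact J.min'_mem hJne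
  have hkJ : k ∈ J := by rw [hk]; exact J.max'_mem hJne
  have h3 := n7_geom_down J i (fun j hj => by rw [hi]; exact J.min'_le j hj)
  have h4 := n7_geom_up J k (fun j hj => by rw [hk]; exact J.le_max' j hj)
  rw [hJ, mem_image] at hiJ hkJ
  obtain ⟨p, hpS, hpi⟩ := hiJ
  obtain ⟨q, hqS, hqk⟩ := hkJ
  have h5 : w < 2 * 2 ^ i := by
    have h6 := (hblock i p (mem_filter.2 ⟨hpS, hpi⟩)).2
    have h7 : (p : ℝ) < 2 * 2 ^ i := by exact_mod_cast h6
    exact (hp p hpS).2.1.trans h7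
  have h6 : (2 : ℝ) ^ k * η ≤ Z := by
    have h7 := (hblock k q (mem_filter.2 ⟨hqS, hqk⟩)).1
    have h8 : (2 : ℝ) ^ k ≤ q := by exact_mod_cast h7
    calc (2 : ℝ) ^ k * η ≤ q * η := by gcongr
      _ ≤ Z := (hp q hqS).2.2
  have h7 : (1 / 2 : ℝ) ^ i ≤ 2 / w := by
    rw [one_div_pow, div_le_div_iff₀ (by positivity) (by linarith only [hw])]
    linarith only [h5]
  calc ∑ j ∈ J, ∑ p ∈ S.filter (fun p => Nat.log 2 p = j), 1 / (p : ℝ)
      ≤ ∑ j ∈ J, ((1 / 2 : ℝ) ^ j + 8 * η * 2 ^ j) := sum_le_sum h1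
    _ = ∑ j ∈ J, (1 / 2 : ℝ) ^ j + 8 * η * ∑ j ∈ J, (2 : ℝ) ^ j := by
        rw [sum_add_distrib, mul_sum]
    _ ≤ 2 * (1 / 2) ^ i + 8 * η * (2 * 2 ^ k) := by gcongr
    _ ≤ 4 / w + 16 * Z := by
        have h8 : 4 / w = 2 * (2 / w) := by ring
        rw [h8]
        linarith only [h6, h7]

open Classical in
theorem trans_bad : ∃ s₀ > 0, ∀ γ s V : ℝ, NHyp s₀ s V → ∀ a : ℕ, 0 < a →
    ¬ NBad γ s V a → ∀ P : Finset ℕ, (∀ p ∈ P, p.Prime ∧ nw s V < p) →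
    ∑ p ∈ P, (if NBad γ s V (a * p) ∧ ((a * p : ℕ) : ℝ) ≤ V * s ^ (-(3 / 16) : ℝ)
      then 1 / (p : ℝ) else 0) ≤ s ^ (1 / 80 : ℝ) / 4 := by
  refine ⟨(1 / 400000 : ℝ) ^ 640, by positivity, fun γ s V hH a ha hbad P hP => ?_⟩
  obtain ⟨hs, hs0, hV, hVL⟩ := hH
  obtain ⟨t, ht, ht1, hst⟩ := n7_exists_t hs hs0
  have hnw := n7_nw ht ht1 hst hVL
  have haR : (0 : ℝ) < a := by exact_mod_cast ha
  have e16 : s ^ (-(1 / 16) : ℝ) = (t ^ 40)⁻¹ := by
    rw [hst]; exact n7_rpow_neg ht 40 (by norm_num)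
  have e316 : s ^ (-(3 / 16) : ℝ) = (t ^ 120)⁻¹ := by
    rw [hst]; exact n7_rpow_neg ht 120 (by norm_num)
  have e80 : s ^ (1 / 80 : ℝ) = t ^ 8 := by
    rw [hst]; exact n7_rpow ht 8 (by norm_num)
  have etb : tb s V = t ^ 540 / V := by
    unfold tb
    rw [hst, n7_rpow ht 540 (by norm_num)]
  rw [← sum_filter, e80]
  obtain ⟨Q, hQ⟩ : ∃ Q, Q = P.filter (fun p => NBad γ s V (a * p) ∧
      ((a * p : ℕ) : ℝ) ≤ V * s ^ (-(3 / 16) : ℝ)) := ⟨_, rfl⟩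
  rw [← hQ]
  obtain ⟨K, hK⟩ : ∃ K, K = ⌊(t ^ 40)⁻¹⌋₊ := ⟨_, rfl⟩
  have hKle : (K : ℝ) ≤ (t ^ 40)⁻¹ := by
    rw [hK]; exact Nat.floor_le (by positivity)
  have hw1 : 1 ≤ (t ^ 1280)⁻¹ := by
    rw [inv_eq_one_div, le_div_iff₀ (by positivity), one_mul]
    exact pow_le_one₀ ht.le (by linarith only [ht1])
  have hone : ∀ h ∈ Icc 1 K, ∑ p ∈ Q.filter (fun p => distInt ((h : ℝ) * ((a * p : ℕ) : ℝ) * γ) <
      ((a * p : ℕ) : ℝ) * tb s V), 1 / (p : ℝ) ≤ 20 * t ^ 420 := by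
    intro h hh
    rw [mem_Icc] at hh
    have h1 := n7_bad_one (α := (h : ℝ) * a * γ) (η := a * tb s V) (w := (t ^ 1280)⁻¹)
      (Z := t ^ 420) (by rw [etb]; positivity) hw1 ?_
      (Q.filter (fun p => distInt ((h : ℝ) * ((a * p : ℕ) : ℝ) * γ) <
        ((a * p : ℕ) : ℝ) * tb s V)) ?_ (by positivity) ?_
    · refine h1.trans ?_
      have h2 : 4 / (t ^ 1280)⁻¹ = 4 * t ^ 1280 := by rw [div_inv_eq_mul]
      have h3 : t ^ 1280 ≤ t ^ 420 := n7_pow_le ht ht1 (by norm_num)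
      rw [h2]
      linarith only [h3]
    · have h2 : ¬ NBad γ s V a := hbad
      unfold NBad at h2
      push Not at h2
      refine h2 h (by omega) ?_
      rw [e16]
      have : (h : ℝ) ≤ K := by exact_mod_cast hh.2
      exact this.trans hKle
    · intro p hp
      rw [mem_filter, hQ, mem_filter] at hp
      obtain ⟨⟨hpP, _, hp2⟩, hp3⟩ := hp
      refine ⟨(hP p hpP).1, hnw.trans_lt (hP p hpP).2, ?_⟩
      rw [e316] at hp2
      push_cast at hp2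
      rw [etb]
      calc (p : ℝ) * (a * (t ^ 540 / V)) = (a * p) * (t ^ 540 / V) := by ring
        _ ≤ (V * (t ^ 120)⁻¹) * (t ^ 540 / V) := by gcongr
        _ = t ^ 420 := by
            field_simp
    · intro p hp
      rw [mem_filter] at hp
      have h2 := hp.2
      push_cast at h2
      have e1 : (p : ℝ) * ((h : ℝ) * a * γ) = (h : ℝ) * (a * p) * γ := by ring
      have e2 : (p : ℝ) * (a * tb s V) = a * p * tb s V := by ring
      rw [e1, e2]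
      exact h2
  have hsub : Q ⊆ (Icc 1 K).biUnion (fun h : ℕ =>
      Q.filter (fun p => distInt ((h : ℝ) * ((a * p : ℕ) : ℝ) * γ) <
        ((a * p : ℕ) : ℝ) * tb s V)) := by
    intro p hp
    have h1 := hp
    rw [hQ, mem_filter] at h1
    obtain ⟨_, ⟨h, hh0, hh1, hh2⟩, _⟩ := h1
    rw [mem_biUnion]
    refine ⟨h, mem_Icc.2 ⟨hh0, ?_⟩, mem_filter.2 ⟨hp, hh2⟩⟩
    rw [hK]
    rw [e16] at hh1
    exact Nat.le_floor hh1
  calc ∑ p ∈ Q, 1 / (p : ℝ)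
      ≤ ∑ p ∈ (Icc 1 K).biUnion (fun h : ℕ =>
          Q.filter (fun p => distInt ((h : ℝ) * ((a * p : ℕ) : ℝ) * γ) <
            ((a * p : ℕ) : ℝ) * tb s V)), 1 / (p : ℝ) :=
        sum_le_sum_of_subset_of_nonneg hsub fun _ _ _ => by positivity
    _ ≤ ∑ h ∈ Icc 1 K, ∑ p ∈ Q.filter (fun p => distInt ((h : ℝ) * ((a * p : ℕ) : ℝ) * γ) <
          ((a * p : ℕ) : ℝ) * tb s V), 1 / (p : ℝ) :=
        n7_biUnion _ _ _ fun _ => by positivity
    _ ≤ ∑ _h ∈ Icc 1 K, 20 * t ^ 420 := sum_le_sum hone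
    _ = K * (20 * t ^ 420) := by
        rw [sum_const, Nat.card_Icc, nsmul_eq_mul]
        simp
    _ ≤ (t ^ 40)⁻¹ * (20 * t ^ 420) := by gcongr
    _ = 20 * t ^ 372 * t ^ 8 := by
        field_simp
    _ ≤ t ^ 8 / 4 := by
        have h1 : t ^ 372 ≤ t ^ 1 := n7_pow_le ht ht1 (by norm_num)
        have h2 : 20 * t ^ 372 ≤ 1 / 4 := by
          rw [pow_one] at h1
          linarith only [h1, ht1]
        calc 20 * t ^ 372 * t ^ 8 ≤ 1 / 4 * t ^ 8 := by gcongr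
          _ = t ^ 8 / 4 := by ring

/-- one side of the sum over the transitions -/
theorem n7_half {γ s V : ℝ} {a b : ℕ} (hfin : ¬ NFin γ s V a b) {p : ℕ}
    (h : NFin γ s V (a * p) b ∧ ¬ NDead γ s V (a * p) b) :
    (∃ m n : ℕ, 0 < m ∧ 0 < n ∧ (m : ℝ) ≤ s ^ (-(1 / 64) : ℝ) ∧
        (n : ℝ) ≤ s ^ (-(1 / 64) : ℝ) ∧ NWin γ s V (a * p * m) (b * n)) ∨
      (NBad γ s V (a * p) ∧ ((a * p : ℕ) : ℝ) ≤ V * s ^ (-(3 / 16) : ℝ)) := by
  obtain ⟨h1, h2⟩ := h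
  rcases h1 with ⟨m, n, hm, hn, hm2, hn2, hom⟩ | h1 | h1
  · exact Or.inl ⟨m, n, hm, hn, hm2, hn2, hom.1⟩
  · right
    refine ⟨h1, ?_⟩
    unfold NDead at h2
    push Not at h2
    obtain ⟨m, n, hm, hn, hom⟩ := h2
    have h3 := hom.1.2.1
    have hm1 : (1 : ℝ) ≤ m := by exact_mod_cast hm
    calc ((a * p : ℕ) : ℝ) ≤ ((a * p : ℕ) : ℝ) * m := le_mul_of_one_le_right (by positivity) hm1
      _ = ((a * p * m : ℕ) : ℝ) := by push_cast; ring
      _ ≤ max ((a * p * m : ℕ) : ℝ) ((b * n : ℕ) : ℝ) := le_max_left _ _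
      _ ≤ _ := h3
  · exact absurd (Or.inr (Or.inr h1)) hfin

open Classical in
theorem trans_sum : ∃ s₀ > 0, ∀ γ s V : ℝ, NHyp s₀ s V → ∀ a b : ℕ, 0 < a → 0 < b →
    ¬ NFin γ s V a b → ∀ P : Finset ℕ, (∀ p ∈ P, p.Prime ∧ nw s V < p) →
    ∑ p ∈ P, (if (NFin γ s V (a * p) b ∧ ¬ NDead γ s V (a * p) b) ∨
        (NFin γ s V a (b * p) ∧ ¬ NDead γ s V a (b * p)) then 1 / (p : ℝ) else 0) ≤
      s ^ (1 / 80 : ℝ) := by
  obtain ⟨s₁, hs₁, H1⟩ := trans_near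
  obtain ⟨s₂, hs₂, H2⟩ := trans_bad
  refine ⟨min s₁ s₂, lt_min hs₁ hs₂, fun γ s V hH a b ha hb hfin P hP => ?_⟩
  have hH1 : NHyp s₁ s V := NHyp.mono hH (min_le_left _ _)
  have hH2 : NHyp s₂ s V := NHyp.mono hH (min_le_right _ _)
  have hna : ¬ NBad γ s V a := fun h => hfin (Or.inr (Or.inl h))
  have hnb : ¬ NBad γ s V b := fun h => hfin (Or.inr (Or.inr h))
  have hfin' : ¬ NFin γ s V b a := fun h => hfin (NFin_comm h)
  have A1 := H1 γ s V hH1 a b ha hb hna P hP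
  have A2 := H1 γ s V hH1 b a hb ha hnb P hP
  have A3 := H2 γ s V hH2 a ha hna P hP
  have A4 := H2 γ s V hH2 b hb hnb P hP
  have key : ∀ p ∈ P, (if (NFin γ s V (a * p) b ∧ ¬ NDead γ s V (a * p) b) ∨
        (NFin γ s V a (b * p) ∧ ¬ NDead γ s V a (b * p)) then 1 / (p : ℝ) else 0) ≤
      (if ∃ m n : ℕ, 0 < m ∧ 0 < n ∧ (m : ℝ) ≤ s ^ (-(1 / 64) : ℝ) ∧
        (n : ℝ) ≤ s ^ (-(1 / 64) : ℝ) ∧ NWin γ s V (a * p * m) (b * n) then 1 / (p : ℝ) else 0) +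
      (if ∃ m n : ℕ, 0 < m ∧ 0 < n ∧ (m : ℝ) ≤ s ^ (-(1 / 64) : ℝ) ∧
        (n : ℝ) ≤ s ^ (-(1 / 64) : ℝ) ∧ NWin γ s V (b * p * m) (a * n) then 1 / (p : ℝ) else 0) +
      (if NBad γ s V (a * p) ∧ ((a * p : ℕ) : ℝ) ≤ V * s ^ (-(3 / 16) : ℝ)
        then 1 / (p : ℝ) else 0) +
      (if NBad γ s V (b * p) ∧ ((b * p : ℕ) : ℝ) ≤ V * s ^ (-(3 / 16) : ℝ)
        then 1 / (p : ℝ) else 0) := by
    intro p hp
    have h0 : ∀ (c : Prop) [Decidable c], 0 ≤ (if c then 1 / (p : ℝ) else 0) := by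
      intro c _
      split_ifs
      · positivity
      · exact le_rfl
    by_cases h1 : NFin γ s V (a * p) b ∧ ¬ NDead γ s V (a * p) b
    · rw [if_pos (Or.inl h1)]
      rcases n7_half hfin h1 with h2 | h2
      · rw [if_pos h2]
        have := h0 (∃ m n : ℕ, 0 < m ∧ 0 < n ∧ (m : ℝ) ≤ s ^ (-(1 / 64) : ℝ) ∧
          (n : ℝ) ≤ s ^ (-(1 / 64) : ℝ) ∧ NWin γ s V (b * p * m) (a * n))
        have h4 := h0 (NBad γ s V (a * p) ∧ ((a * p : ℕ) : ℝ) ≤ V * s ^ (-(3 / 16) : ℝ))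
        have h5 := h0 (NBad γ s V (b * p) ∧ ((b * p : ℕ) : ℝ) ≤ V * s ^ (-(3 / 16) : ℝ))
        linarith
      · rw [if_pos h2]
        have := h0 (∃ m n : ℕ, 0 < m ∧ 0 < n ∧ (m : ℝ) ≤ s ^ (-(1 / 64) : ℝ) ∧
          (n : ℝ) ≤ s ^ (-(1 / 64) : ℝ) ∧ NWin γ s V (b * p * m) (a * n))
        have h4 := h0 (∃ m n : ℕ, 0 < m ∧ 0 < n ∧ (m : ℝ) ≤ s ^ (-(1 / 64) : ℝ) ∧
          (n : ℝ) ≤ s ^ (-(1 / 64) : ℝ) ∧ NWin γ s V (a * p * m) (b * n))
        have h5 := h0 (NBad γ s V (b * p) ∧ ((b * p : ℕ) : ℝ) ≤ V * s ^ (-(3 / 16) : ℝ))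
        linarith
    · by_cases h1' : NFin γ s V a (b * p) ∧ ¬ NDead γ s V a (b * p)
      · rw [if_pos (Or.inr h1')]
        have h1'' : NFin γ s V (b * p) a ∧ ¬ NDead γ s V (b * p) a :=
          ⟨NFin_comm h1'.1, fun h => h1'.2 (NDead_comm h)⟩
        rcases n7_half hfin' h1'' with h2 | h2
        · rw [if_pos h2]
          have := h0 (∃ m n : ℕ, 0 < m ∧ 0 < n ∧ (m : ℝ) ≤ s ^ (-(1 / 64) : ℝ) ∧
            (n : ℝ) ≤ s ^ (-(1 / 64) : ℝ) ∧ NWin γ s V (a * p * m) (b * n))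
          have h4 := h0 (NBad γ s V (a * p) ∧ ((a * p : ℕ) : ℝ) ≤ V * s ^ (-(3 / 16) : ℝ))
          have h5 := h0 (NBad γ s V (b * p) ∧ ((b * p : ℕ) : ℝ) ≤ V * s ^ (-(3 / 16) : ℝ))
          linarith
        · rw [if_pos h2]
          have := h0 (∃ m n : ℕ, 0 < m ∧ 0 < n ∧ (m : ℝ) ≤ s ^ (-(1 / 64) : ℝ) ∧
            (n : ℝ) ≤ s ^ (-(1 / 64) : ℝ) ∧ NWin γ s V (b * p * m) (a * n))
          have h4 := h0 (∃ m n : ℕ, 0 < m ∧ 0 < n ∧ (m : ℝ) ≤ s ^ (-(1 / 64) : ℝ) ∧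
            (n : ℝ) ≤ s ^ (-(1 / 64) : ℝ) ∧ NWin γ s V (a * p * m) (b * n))
          have h5 := h0 (NBad γ s V (a * p) ∧ ((a * p : ℕ) : ℝ) ≤ V * s ^ (-(3 / 16) : ℝ))
          linarith
      · rw [if_neg (not_or.2 ⟨h1, h1'⟩)]
        have := h0 (∃ m n : ℕ, 0 < m ∧ 0 < n ∧ (m : ℝ) ≤ s ^ (-(1 / 64) : ℝ) ∧
          (n : ℝ) ≤ s ^ (-(1 / 64) : ℝ) ∧ NWin γ s V (a * p * m) (b * n))
        have h3 := h0 (∃ m n : ℕ, 0 < m ∧ 0 < n ∧ (m : ℝ) ≤ s ^ (-(1 / 64) : ℝ) ∧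
          (n : ℝ) ≤ s ^ (-(1 / 64) : ℝ) ∧ NWin γ s V (b * p * m) (a * n))
        have h4 := h0 (NBad γ s V (a * p) ∧ ((a * p : ℕ) : ℝ) ≤ V * s ^ (-(3 / 16) : ℝ))
        have h5 := h0 (NBad γ s V (b * p) ∧ ((b * p : ℕ) : ℝ) ≤ V * s ^ (-(3 / 16) : ℝ))
        linarith
  refine (sum_le_sum key).trans ?_
  rw [sum_add_distrib, sum_add_distrib, sum_add_distrib]
  linarith only [A1, A2, A3, A4]

end Vale.P028
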