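import Mathlib
import Vale.Agent.P013.Mertens
import Vale.Agent.P028.H472.C.NBasic
import Vale.Agent.P028.H472.C.NSPw
import Vale.Agent.P028.H472.C.NStep
import Vale.Agent.P028.H472.C.NBase
import Vale.Agent.P028.H472.C.NTrans

/-!
# The inner induction (N8)
-/

namespace Vale.P028

open Finset Filter Topology

theorem n8_small {Q : ℝ → Prop} (h : ∀ᶠ s in 𝓝[>] (0 : ℝ), Q s) :
    ∃ s₀ > 0, ∀ s : ℝ, 0 < s → s ≤ s₀ → Q s := by
  rw [eventually_nhdsWithin_iff, Metric.eventually_nhds_iff] at h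
  obtain ⟨e, he, h⟩ := h
  refine ⟨e / 2, by positivity, fun s hs hs' => h ?_ hs⟩
  rw [Real.dist_eq, sub_zero, abs_of_pos hs]
  linarith only [hs', he]

theorem n8_tendsto_rpow {r : ℝ} (hr : 0 < r) :
    Tendsto (fun s : ℝ => s ^ r) (𝓝[>] (0 : ℝ)) (𝓝 0) := by
  have h := (Real.continuousAt_rpow_const 0 r (Or.inr hr.le)).tendsto
  rw [Real.zero_rpow hr.ne'] at h
  exact h.mono_left nhdsWithin_le_nhds

theorem n8_ev_rpow {r A e : ℝ} (hr : 0 < r) (he : 0 < e) :
    ∀ᶠ s in 𝓝[>] (0 : ℝ), A * s ^ r ≤ e := by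
  have h := (n8_tendsto_rpow hr).const_mul A
  rw [mul_zero] at h
  exact h.eventually_le_const he

theorem n8_ev_log {r A e : ℝ} (hr : 0 < r) (he : 0 < e) :
    ∀ᶠ s in 𝓝[>] (0 : ℝ), A * (s ^ r * Real.log (1 / s)) ≤ e := by
  have h := (tendsto_log_mul_rpow_nhdsGT_zero hr).const_mul (-A)
  rw [mul_zero] at h
  filter_upwards [h.eventually_le_const he] with s hs
  rw [one_div, Real.log_inv]
  linarith only [hs]

/-- a growth sum -/
theorem n8_geom {r A D : ℝ} (hr0 : 0 ≤ r) (hr : r ≤ 1 / 2) (hA : 0 ≤ A) (hD : 0 ≤ D)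
    {f : ℕ → ℝ} (h1 : f 1 ≤ A) (h2 : ∀ l, 2 ≤ l → f l ≤ D * r ^ l) (n : ℕ) :
    ∑ l ∈ Icc 1 n, f l ≤ A + 2 * D * r ^ 2 := by
  have key : ∀ n : ℕ, ∑ l ∈ Icc 1 (n + 1), f l ≤ A + 2 * D * r ^ 2 - 2 * D * r ^ (n + 2) := by
    intro n
    induction n with
    | zero =>
      simp only [zero_add, Icc_self, sum_singleton]
      linarith only [h1]
    | succ n ih =>
      rw [Finset.sum_Icc_succ_top (by omega)]
      have h3 := h2 (n + 1 + 1) (by omega)
      have h4 : 0 ≤ D * r ^ (n + 2) * (1 - 2 * r) :=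
        mul_nonneg (mul_nonneg hD (pow_nonneg hr0 _)) (by linarith only [hr])
      have h5 : D * r ^ (n + 2) * (1 - 2 * r) = D * r ^ (n + 2) - 2 * (D * r ^ (n + 1 + 2)) := by
        ring
      have h6 : D * r ^ (n + 1 + 1) = D * r ^ (n + 2) := rfl
      linarith only [ih, h3, h4, h5, h6]
  rcases n with _ | n
  · simp only [Icc_eq_empty_of_lt zero_lt_one, sum_empty]
    positivity
  · have h3 := key n
    have h4 : 0 ≤ 2 * D * r ^ (n + 2) := by positivity
    linarith only [h3, h4]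

theorem n8_pow_half {y : ℝ} (h0 : 0 ≤ y) (h : y ≤ 1 / 8) : y ^ (499 / 1000 : ℝ) ≤ 1 / 2 := by
  have h1 : y ^ (499 / 1000 : ℝ) ≤ (1 / 8 : ℝ) ^ (499 / 1000 : ℝ) :=
    Real.rpow_le_rpow h0 h (by norm_num)
  have h2 : (1 / 8 : ℝ) ^ (499 / 1000 : ℝ) ≤ (1 / 8 : ℝ) ^ (1 / 3 : ℝ) :=
    Real.rpow_le_rpow_of_exponent_ge (by norm_num) (by norm_num) (by norm_num)
  have h3 : (1 / 8 : ℝ) ^ (1 / 3 : ℝ) = 1 / 2 := by
    rw [show (1 / 8 : ℝ) = (1 / 2) ^ (3 : ℝ) by norm_num, ← Real.rpow_mul (by norm_num)]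
    norm_num
  linarith only [h1, h2, h3]

/-! ### Mertens between `x` and `y` -/

theorem n8_mertens : ∃ C > 0, ∀ (Qs : Finset ℕ) (x y : ℝ),
    (∀ p ∈ Qs, p.Prime ∧ x ≤ (p : ℝ) ∧ (p : ℝ) ≤ y) → 2 ≤ x → x ≤ y →
    Real.log x * ∑ p ∈ Qs, 1 / (p : ℝ) ≤ Real.log y + C := by
  obtain ⟨C₁, hC₁, hM⟩ := Vale.Agent.P013.mertens_one
  have hl2 : 0 < Real.log 2 := Real.log_pos (by norm_num)
  refine ⟨Real.log 2 + 2 * C₁, by positivity, ?_⟩
  intro Qs x y hQ hx hxy
  have hlx : Real.log 2 ≤ Real.log x := Real.log_le_log (by norm_num) hx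
  have hlx0 : 0 < Real.log x := hl2.trans_le hlx
  have hy0 : 0 < y := by linarith only [hx, hxy]
  set a := ⌈x⌉₊ with ha
  set b := ⌊y⌋₊ + 1 with hb
  have hab : a ≤ b := by
    have h1 : ⌈x⌉₊ ≤ ⌈y⌉₊ := Nat.ceil_le_ceil hxy
    exact h1.trans (Nat.ceil_le_floor_add_one y)
  have ha1 : (x : ℝ) ≤ a := Nat.le_ceil x
  have ha2 : 1 ≤ a := by
    have : (0 : ℝ) < a := by linarith only [hx, ha1]
    exact_mod_cast this
  have hb1 : (b : ℝ) ≤ 2 * y := by
    have := Nat.floor_le hy0.le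
    rw [hb]
    push_cast
    linarith only [hx, hxy, this]
  have hMa := (abs_le.1 (hM a ha2)).1
  have hMb := (abs_le.1 (hM b (ha2.trans hab))).2
  have hsub : Qs ⊆ ((range b).filter Nat.Prime) \ ((range a).filter Nat.Prime) := by
    intro p hp
    obtain ⟨h1, h2, h3⟩ := hQ p hp
    have h4 : p < b := by
      rw [hb, Nat.lt_add_one_iff]
      exact Nat.le_floor h3
    have h5 : a ≤ p := by
      rw [ha]
      exact Nat.ceil_le.2 h2
    simp only [Finset.mem_sdiff, Finset.mem_filter, Finset.mem_range, not_and]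
    exact ⟨⟨h4, h1⟩, fun h => absurd h (by omega)⟩
  have hsum : ∑ p ∈ Qs, Real.log p / p ≤ Real.log b - Real.log a + 2 * C₁ := by
    calc ∑ p ∈ Qs, Real.log p / p
        ≤ ∑ p ∈ ((range b).filter Nat.Prime) \ ((range a).filter Nat.Prime),
            Real.log p / (p : ℝ) := by
          refine Finset.sum_le_sum_of_subset_of_nonneg hsub fun p _ _ => ?_
          exact div_nonneg (Real.log_natCast_nonneg p) (Nat.cast_nonneg p)
      _ = ∑ p ∈ (range b).filter Nat.Prime, Real.log p / (p : ℝ) -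
            ∑ p ∈ (range a).filter Nat.Prime, Real.log p / (p : ℝ) := by
          rw [eq_sub_iff_add_eq]
          refine Finset.sum_sdiff ?_
          exact Finset.filter_subset_filter _ (Finset.range_subset_range.2 hab)
      _ ≤ _ := by linarith only [hMa, hMb]
  have hlb : Real.log b ≤ Real.log 2 + Real.log y := by
    rw [← Real.log_mul (by norm_num) hy0.ne']
    exact Real.log_le_log (by exact_mod_cast (lt_of_lt_of_le (by omega : 0 < a) hab)) hb1
  have hla : 0 ≤ Real.log a := Real.log_nonneg (by exact_mod_cast ha2)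
  have hfin : Real.log x * ∑ p ∈ Qs, 1 / (p : ℝ) ≤ ∑ p ∈ Qs, Real.log p / p := by
    rw [Finset.mul_sum]
    refine Finset.sum_le_sum fun p hp => ?_
    obtain ⟨h1, h2, h3⟩ := hQ p hp
    rw [mul_one_div]
    exact div_le_div_of_nonneg_right (Real.log_le_log (by linarith only [hx]) h2) (Nat.cast_nonneg p)
  linarith only [hfin, hsum, hlb, hla]

/-! ### the kernel -/

open Classical in
/-- a transition at `p` -/
noncomputable def n8tau (γ s V : ℝ) (a b p : ℕ) : ℝ :=
  if ¬ NFin γ s V a b ∧ ((NFin γ s V (a * p) b ∧ ¬ NDead γ s V (a * p) b) ∨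
    (NFin γ s V a (b * p) ∧ ¬ NDead γ s V a (b * p))) then 1 / (p : ℝ) else 0

/-- sum of the transitions -/
noncomputable def n8H (γ s V : ℝ) (P : Finset ℕ) (a b : ℕ) : ℝ := ∑ p ∈ P, n8tau γ s V a b p

open Classical in
/-- error of a prime -/
noncomputable def n8lam (s V η C' : ℝ) (p : ℕ) : ℝ :=
  (if (p : ℝ) ≤ V * s ^ (-(3 / 16) : ℝ) then η * (1 / (p : ℝ)) else 0) +
    C' * (s ^ (-(1 / 150) : ℝ)) ^ 2 * (1 / (p : ℝ)) ^ (501 / 500 : ℝ)

/-- the kernel of the induction -/
noncomputable def n8K (γ s V η C' : ℝ) (P : Finset ℕ) (a b : ℕ) : ℝ :=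
  (16 / ((a : ℝ) * b)) ^ (499 / 1000 : ℝ) * (nsig γ s V a b) ^ (499 / 1000 : ℝ) *
    Real.exp (4 * s ^ (-(1 / 150) : ℝ) * n8H γ s V P a b + ∑ p ∈ P, n8lam s V η C' p)

theorem n8_tau_nonneg (γ s V : ℝ) (a b p : ℕ) : 0 ≤ n8tau γ s V a b p := by
  classical
  unfold n8tau
  split_ifs <;> positivity

theorem n8_H_nonneg (γ s V : ℝ) (P : Finset ℕ) (a b : ℕ) : 0 ≤ n8H γ s V P a b :=
  sum_nonneg fun _ _ => n8_tau_nonneg _ _ _ _ _ _

theorem n8_H_le {γ s V : ℝ} (hs : 0 < s) {P : Finset ℕ} {a b : ℕ}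
    (h : ¬ NFin γ s V a b →
      open Classical in ∑ p ∈ P, (if (NFin γ s V (a * p) b ∧ ¬ NDead γ s V (a * p) b) ∨
        (NFin γ s V a (b * p) ∧ ¬ NDead γ s V a (b * p)) then 1 / (p : ℝ) else 0) ≤
      s ^ (1 / 80 : ℝ)) : n8H γ s V P a b ≤ s ^ (1 / 80 : ℝ) := by
  classical
  unfold n8H n8tau
  by_cases hf : NFin γ s V a b
  · have h0 : ∀ p ∈ P, (if ¬ NFin γ s V a b ∧ ((NFin γ s V (a * p) b ∧
        ¬ NDead γ s V (a * p) b) ∨ (NFin γ s V a (b * p) ∧ ¬ NDead γ s V a (b * p)))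
        then 1 / (p : ℝ) else 0) = 0 := by
      intro p _
      rw [if_neg]
      exact fun h' => h'.1 hf
    rw [sum_eq_zero h0]
    positivity
  · refine le_trans (le_of_eq ?_) (h hf)
    refine sum_congr rfl fun p _ => ?_
    refine if_congr ?_ rfl rfl
    simp only [hf, not_false_eq_true, true_and]

theorem n8_lam_nonneg {s V η C' : ℝ} (hη : 0 ≤ η) (hC : 0 ≤ C') (p : ℕ) :
    0 ≤ n8lam s V η C' p := by
  classical
  unfold n8lam
  have h1 : 0 ≤ C' * (s ^ (-(1 / 150) : ℝ)) ^ 2 * (1 / (p : ℝ)) ^ (501 / 500 : ℝ) := by positivity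
  split_ifs
  · have : 0 ≤ η * (1 / (p : ℝ)) := by positivity
    linarith only [this, h1]
  · linarith only [h1]

theorem n8_K_nonneg {γ s V η C' : ℝ} (hs : 0 < s) (P : Finset ℕ) (a b : ℕ) :
    0 ≤ n8K γ s V η C' P a b := by
  unfold n8K
  have h := nsig_nonneg (γ := γ) (V := V) hs a b
  positivity

theorem n8_K_dead {γ s V η C' : ℝ} {P : Finset ℕ} {a b : ℕ} (h : NDead γ s V a b) :
    n8K γ s V η C' P a b = 0 := by
  unfold n8K
  rw [nsig_dead h, Real.zero_rpow (by norm_num), mul_zero, zero_mul]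

/-- comparison of two states -/
theorem n8_K_cmp {γ s V η C' : ℝ} (hs : 0 < s) (hη : 0 ≤ η)
    (hηe : Real.exp (4 * s ^ (-(1 / 150) : ℝ) * s ^ (1 / 80 : ℝ)) ≤
      (1 + η) ^ (499 / 1000 : ℝ)) {P : Finset ℕ} {a b a' b' : ℕ} {t g : ℝ} (ht : 0 ≤ t)
    (hg : 0 ≤ g) (h16 : 16 / ((a' : ℝ) * b') = t * (16 / ((a : ℝ) * b)))
    (hn : nsig γ s V a' b' ≤ g * nsig γ s V a b)
    (hH : n8H γ s V P a' b' ≤ s ^ (1 / 80 : ℝ)) :
    n8K γ s V η C' P a' b' ≤
      ((1 + η) * g * t) ^ (499 / 1000 : ℝ) * n8K γ s V η C' P a b := by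
  have hna := nsig_nonneg (γ := γ) (V := V) hs a b
  have hna' := nsig_nonneg (γ := γ) (V := V) hs a' b'
  have h1 : nsig γ s V a' b' ^ (499 / 1000 : ℝ) ≤
      g ^ (499 / 1000 : ℝ) * nsig γ s V a b ^ (499 / 1000 : ℝ) := by
    rw [← Real.mul_rpow hg hna]
    exact Real.rpow_le_rpow hna' hn (by norm_num)
  have hS : 0 ≤ 4 * s ^ (-(1 / 150) : ℝ) := by positivity
  have h2 : Real.exp (4 * s ^ (-(1 / 150) : ℝ) * n8H γ s V P a' b' + ∑ p ∈ P, n8lam s V η C' p) ≤
      (1 + η) ^ (499 / 1000 : ℝ) *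
      Real.exp (4 * s ^ (-(1 / 150) : ℝ) * n8H γ s V P a b + ∑ p ∈ P, n8lam s V η C' p) := by
    refine le_trans ?_ (mul_le_mul_of_nonneg_right hηe (Real.exp_pos _).le)
    rw [← Real.exp_add]
    apply Real.exp_le_exp.2
    have h3 := mul_le_mul_of_nonneg_left hH hS
    have h4 := mul_nonneg hS (n8_H_nonneg γ s V P a b)
    linarith only [h3, h4]
  unfold n8K
  rw [h16, Real.mul_rpow ht (by positivity), Real.mul_rpow (by positivity) ht,
    Real.mul_rpow (by positivity) hg]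
  calc t ^ (499 / 1000 : ℝ) * (16 / ((a : ℝ) * b)) ^ (499 / 1000 : ℝ) *
        nsig γ s V a' b' ^ (499 / 1000 : ℝ) *
        Real.exp (4 * s ^ (-(1 / 150) : ℝ) * n8H γ s V P a' b' + ∑ p ∈ P, n8lam s V η C' p)
      ≤ t ^ (499 / 1000 : ℝ) * (16 / ((a : ℝ) * b)) ^ (499 / 1000 : ℝ) *
        (g ^ (499 / 1000 : ℝ) * nsig γ s V a b ^ (499 / 1000 : ℝ)) *
        ((1 + η) ^ (499 / 1000 : ℝ) *
      Real.exp (4 * s ^ (-(1 / 150) : ℝ) * n8H γ s V P a b + ∑ p ∈ P, n8lam s V η C' p)) := by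
        refine mul_le_mul (mul_le_mul_of_nonneg_left h1 (by positivity)) h2 (Real.exp_pos _).le
          (by positivity)
    _ = _ := by ring

/-! ### density ratios -/

theorem n8_inv {s : ℝ} (hs : 0 < s) :
    s ^ (-(1 / 150) : ℝ) * s ^ (1 / 150 : ℝ) = 1 := by
  rw [← Real.rpow_add hs]
  norm_num

theorem n8_one_le {s : ℝ} (hs : 0 < s) (hs1 : s ≤ 1) : 1 ≤ s ^ (-(1 / 150) : ℝ) :=
  Real.one_le_rpow_of_pos_of_le_one_of_nonpos hs hs1 (by norm_num)

theorem n8_sig_le {γ s V : ℝ} (hs : 0 < s) (hs1 : s ≤ 1) {a b a' b' : ℕ}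
    (h : ¬ NDead γ s V a b) :
    nsig γ s V a' b' ≤ s ^ (-(1 / 150) : ℝ) * nsig γ s V a b := by
  have h1 := nsig_le_one (γ := γ) (V := V) hs hs1 a' b'
  refine h1.trans ?_
  by_cases hf : NFin γ s V a b
  · rw [nsig_fin h hf, mul_one]
    exact n8_one_le hs hs1
  · rw [nsig_mid h hf, n8_inv hs]

theorem n8_sig_le_one {γ s V : ℝ} (hs : 0 < s) (hs1 : s ≤ 1) {a b a' b' : ℕ}
    (h : ¬ NDead γ s V a b) (h' : NFin γ s V a b ∨ ¬ (NFin γ s V a' b' ∧ ¬ NDead γ s V a' b')) :
    nsig γ s V a' b' ≤ 1 * nsig γ s V a b := by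
  rw [one_mul]
  by_cases hf : NFin γ s V a b
  · rw [nsig_fin h hf]
    exact nsig_le_one hs hs1 a' b'
  · rw [nsig_mid h hf]
    by_cases hd : NDead γ s V a' b'
    · rw [nsig_dead hd]
      positivity
    · have hf' : ¬ NFin γ s V a' b' := fun hf' =>
        (h'.resolve_left hf) ⟨hf', hd⟩
      rw [nsig_mid hd hf']

/-- the step of the induction, one state -/
theorem n8_step {B₀ C : ℝ} (hC : 0 ≤ C)
    (hSP : ∀ (W ω : ℕ → ℝ) (B x : ℝ), 0 < B → B ≤ B₀ → 0 ≤ x → x ≤ B →
      W 0 = 1 → (∀ l, 0 ≤ W l) → (∀ l, 0 ≤ ω l) →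
      (∀ l, 1 ≤ l → W l ≤ (ω l) ^ (499 / 1000 : ℝ)) →
      (∀ n, ∑ l ∈ Icc 1 n, ω l ≤ B) → (∀ n, ∑ l ∈ Icc 1 n, W l ≤ 2 * B ^ (499 / 1000 : ℝ)) →
      SPw (501 / 1000) W x (1 + (499 / 500) * (B - x) + C * B ^ (501 / 500 : ℝ)))
    {γ s V η : ℝ} (hs : 0 < s) (hs1 : s ≤ 1) (hη : 0 ≤ η) (hη1 : η ≤ 1)
    (hηe : Real.exp (4 * s ^ (-(1 / 150) : ℝ) * s ^ (1 / 80 : ℝ)) ≤
      (1 + η) ^ (499 / 1000 : ℝ)) {P : Finset ℕ} {p : ℕ} (hp : p.Prime) (hpP : p ∉ P)
    (hpB : 4 * s ^ (-(1 / 150) : ℝ) * (1 / (p : ℝ)) ≤ B₀)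
    (hp16 : s ^ (-(1 / 150) : ℝ) * (1 / (p : ℝ)) ≤ 1 / 16)
    (hH : ∀ a b : ℕ, 0 < a → 0 < b → n8H γ s V P a b ≤ s ^ (1 / 80 : ℝ))
    {a b : ℕ} (ha : 0 < a) (hb : 0 < b) :
    ∃ (W : ℕ → ℝ) (c : ℝ), W 0 = 1 ∧ (∀ l, 0 ≤ W l) ∧ 0 ≤ c ∧
      (∀ l, n8K γ s V η (4 + 16 * C) P (a * p ^ l) b ≤
        W l * n8K γ s V η (4 + 16 * C) P a b) ∧
      (∀ l, n8K γ s V η (4 + 16 * C) P a (b * p ^ l) ≤
        W l * n8K γ s V η (4 + 16 * C) P a b) ∧
      SPw (501 / 1000) W (1 / (p : ℝ)) c ∧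
      c * n8K γ s V η (4 + 16 * C) P a b ≤ n8K γ s V η (4 + 16 * C) (insert p P) a b := by
  classical
  set Si := s ^ (-(1 / 150) : ℝ) with hSi
  have hSi1 : 1 ≤ Si := n8_one_le hs hs1
  have hp0 : (0 : ℝ) < p := by exact_mod_cast hp.pos
  set y := 1 / (p : ℝ) with hy
  have hy0 : 0 < y := by positivity
  have hy16 : y ≤ 1 / 16 := by nlinarith only [hSi1, hp16, hy0]
  have hC' : 0 ≤ 4 + 16 * C := by linarith only [hC]
  have hK0 := n8_K_nonneg (γ := γ) (V := V) (η := η) (C' := 4 + 16 * C) hs P a b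
  have hyp : 0 ≤ y ^ (501 / 500 : ℝ) := by positivity
  -- the new kernel
  have hins : n8K γ s V η (4 + 16 * C) (insert p P) a b = n8K γ s V η (4 + 16 * C) P a b *
      Real.exp (4 * Si * n8tau γ s V a b p + n8lam s V η (4 + 16 * C) p) := by
    unfold n8K n8H
    rw [sum_insert hpP, sum_insert hpP, mul_assoc _ (Real.exp _), ← Real.exp_add]
    congr 2
    ring
  have hfinal : ∀ c : ℝ, c ≤ 1 + (4 * Si * n8tau γ s V a b p + n8lam s V η (4 + 16 * C) p) →
      c * n8K γ s V η (4 + 16 * C) P a b ≤ n8K γ s V η (4 + 16 * C) (insert p P) a b := by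
    intro c hc
    rw [hins, mul_comm]
    refine mul_le_mul_of_nonneg_left (hc.trans ?_) hK0
    have := Real.add_one_le_exp (4 * Si * n8tau γ s V a b p + n8lam s V η (4 + 16 * C) p)
    linarith only [this]
  have htau := n8_tau_nonneg γ s V a b p
  by_cases hcase : NDead γ s V a b ∨ V * s ^ (-(3 / 16) : ℝ) < p
  · -- no growth
    refine ⟨fun l => if l = 0 then 1 else 0, 1 + C * y ^ (501 / 500 : ℝ), by simp, ?_, ?_,
      ?_, ?_, ?_, ?_⟩
    · intro l
      dsimp only
      split_ifs <;> norm_num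
    · positivity
    · intro l
      dsimp only
      rcases Nat.eq_zero_or_pos l with rfl | hl
      · simp
      · rw [if_neg hl.ne', zero_mul]
        refine le_of_eq (n8_K_dead ?_)
        rcases hcase with h | h
        · exact NDead_mul_left (pow_pos hp.pos l) h
        · refine NDead_of_large (lt_of_lt_of_le h ?_)
          have h1 : p ≤ a * p ^ l := by
            calc p = 1 * p ^ 1 := by ring
              _ ≤ a * p ^ l := Nat.mul_le_mul ha (Nat.pow_le_pow_right hp.pos hl)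
          exact_mod_cast h1
    · intro l
      dsimp only
      rcases Nat.eq_zero_or_pos l with rfl | hl
      · simp
      · rw [if_neg hl.ne', zero_mul]
        refine le_of_eq (n8_K_dead ?_)
        rcases hcase with h | h
        · exact NDead_mul_right (pow_pos hp.pos l) h
        · refine NDead_comm (NDead_of_large (lt_of_lt_of_le h ?_))
          have h1 : p ≤ b * p ^ l := by
            calc p = 1 * p ^ 1 := by ring
              _ ≤ b * p ^ l := Nat.mul_le_mul hb (Nat.pow_le_pow_right hp.pos hl)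
          exact_mod_cast h1
    · have h := hSP (fun l => if l = 0 then 1 else 0) (fun _ => 0) y y hy0
        (by nlinarith only [hSi1, hpB, hy0]) hy0.le le_rfl (by simp)
        (by intro l; split_ifs <;> norm_num) (by intro l; exact le_rfl)
        (by
          intro l hl
          rw [if_neg (by omega)]
          positivity)
        (by intro n; simpa using hy0.le)
        (by
          intro n
          have h0 : ∑ l ∈ Icc 1 n, (if l = 0 then (1 : ℝ) else 0) = 0 := by
            refine sum_eq_zero fun l hl => ?_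
            rw [mem_Icc] at hl
            rw [if_neg (by omega)]
          rw [h0]
          positivity)
      have e : 1 + (499 / 500) * (y - y) + C * y ^ (501 / 500 : ℝ) =
          1 + C * y ^ (501 / 500 : ℝ) := by ring
      rw [e] at h
      exact h
    · rcases hcase with h | h
      · rw [n8_K_dead h, n8_K_dead h, mul_zero]
      · refine hfinal _ ?_
        have h2 : n8lam s V η (4 + 16 * C) p = (4 + 16 * C) * Si ^ 2 * y ^ (501 / 500 : ℝ) := by
          unfold n8lam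
          rw [if_neg (not_le.2 h), zero_add]
        rw [h2]
        have h3 : C * y ^ (501 / 500 : ℝ) ≤ (4 + 16 * C) * Si ^ 2 * y ^ (501 / 500 : ℝ) := by
          refine mul_le_mul_of_nonneg_right ?_ hyp
          have h4 : 1 ≤ Si ^ 2 := one_le_pow₀ hSi1
          nlinarith only [h4, hC]
        have h5 : 0 ≤ 4 * Si * n8tau γ s V a b p := by positivity
        linarith only [h3, h5]
  · -- growth
    push Not at hcase
    obtain ⟨hdead, hpV⟩ := hcase
    set τ : Prop := ¬ NFin γ s V a b ∧ ((NFin γ s V (a * p) b ∧ ¬ NDead γ s V (a * p) b) ∨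
      (NFin γ s V a (b * p) ∧ ¬ NDead γ s V a (b * p))) with hτ
    set g : ℝ := if τ then Si else 1 with hg
    have hg0 : 0 ≤ g := by
      rw [hg]
      split_ifs <;> linarith only [hSi1]
    have hg1 : 1 ≤ g := by
      rw [hg]
      split_ifs <;> linarith only [hSi1]
    have hgS : g ≤ Si := by
      rw [hg]
      split_ifs <;> linarith only [hSi1]
    set G : ℕ → ℝ := fun l => if l = 1 then g else Si with hG
    have hG0 : ∀ l, 0 ≤ G l := by
      intro l
      simp only [hG]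
      split_ifs <;> linarith only [hSi1, hg0]
    set ω : ℕ → ℝ := fun l => (1 + η) * G l * y ^ l with hω
    have hω0 : ∀ l, 0 ≤ ω l := by
      intro l
      have := hG0 l
      simp only [hω]
      positivity
    set B : ℝ := (1 + η) * g * y + 2 * ((1 + η) * Si) * y ^ 2 with hB
    have hBy : y ≤ B := by
      have h1 : y ≤ (1 + η) * g * y := by
        have h2 : 1 ≤ (1 + η) * g := by nlinarith only [hη, hg1]
        nlinarith only [h2, hy0]
      have h3 : 0 ≤ 2 * ((1 + η) * Si) * y ^ 2 := by positivity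
      linarith only [h1, h3]
    have hB4 : B ≤ 4 * Si * y := by
      have h1 : (1 + η) * g * y ≤ 2 * Si * y := by
        refine mul_le_mul_of_nonneg_right ?_ hy0.le
        exact mul_le_mul (by linarith only [hη1]) hgS hg0 (by norm_num)
      have h2 : 2 * ((1 + η) * Si) * y ^ 2 ≤ 2 * (2 * Si) * (y * (1 / 16)) := by
        have h3 : y ^ 2 ≤ y * (1 / 16) := by nlinarith only [hy16, hy0]
        have h4 : (1 + η) * Si ≤ 2 * Si :=
          mul_le_mul_of_nonneg_right (by linarith only [hη1]) (by linarith only [hSi1])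
        exact mul_le_mul (by linarith only [h4]) h3 (by positivity) (by linarith only [hSi1])
      have h5 : 0 ≤ Si * y := by positivity
      rw [hB]
      linarith only [h1, h2, h5]
    have hB0 : 0 < B := lt_of_lt_of_le hy0 hBy
    -- comparison of the states
    have hpl : ∀ l, (1 / (p : ℝ)) ^ l = 1 / (p : ℝ) ^ l := fun l => by rw [one_div, inv_pow, one_div]
    have ha' : (0 : ℝ) < a := by exact_mod_cast ha
    have hb' : (0 : ℝ) < b := by exact_mod_cast hb
    have hcmp1 : ∀ l, 1 ≤ l → n8K γ s V η (4 + 16 * C) P (a * p ^ l) b ≤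
        (ω l) ^ (499 / 1000 : ℝ) * n8K γ s V η (4 + 16 * C) P a b := by
      intro l hl
      refine n8_K_cmp hs hη hηe (by positivity) (hG0 l) ?_ ?_
        (hH _ _ (Nat.mul_pos ha (pow_pos hp.pos l)) hb)
      · rw [hy, hpl]
        push_cast
        field_simp
      · simp only [hG]
        split_ifs with h1
        · subst h1
          rw [pow_one, hg]
          split_ifs with h2
          · exact n8_sig_le hs hs1 hdead
          · refine n8_sig_le_one hs hs1 hdead ?_
            by_contra h3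
            push Not at h3
            exact h2 ⟨h3.1, Or.inl h3.2⟩
        · exact n8_sig_le hs hs1 hdead
    have hcmp2 : ∀ l, 1 ≤ l → n8K γ s V η (4 + 16 * C) P a (b * p ^ l) ≤
        (ω l) ^ (499 / 1000 : ℝ) * n8K γ s V η (4 + 16 * C) P a b := by
      intro l hl
      refine n8_K_cmp hs hη hηe (by positivity) (hG0 l) ?_ ?_
        (hH _ _ ha (Nat.mul_pos hb (pow_pos hp.pos l)))
      · rw [hy, hpl]
        push_cast
        field_simp
      · simp only [hG]
        split_ifs with h1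
        · subst h1
          rw [pow_one, hg]
          split_ifs with h2
          · exact n8_sig_le hs hs1 hdead
          · refine n8_sig_le_one hs hs1 hdead ?_
            by_contra h3
            push Not at h3
            exact h2 ⟨h3.1, Or.inr h3.2⟩
        · exact n8_sig_le hs hs1 hdead
    refine ⟨fun l => if l = 0 then 1 else (ω l) ^ (499 / 1000 : ℝ),
      1 + (499 / 500) * (B - y) + C * B ^ (501 / 500 : ℝ), by simp, ?_, ?_, ?_, ?_, ?_, ?_⟩
    · intro l
      have := hω0 l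
      dsimp only
      split_ifs <;> positivity
    · have : 0 ≤ B - y := by linarith only [hBy]
      positivity
    · intro l
      dsimp only
      rcases Nat.eq_zero_or_pos l with rfl | hl
      · simp
      · rw [if_neg hl.ne']
        exact hcmp1 l hl
    · intro l
      dsimp only
      rcases Nat.eq_zero_or_pos l with rfl | hl
      · simp
      · rw [if_neg hl.ne']
        exact hcmp2 l hl
    · refine hSP _ ω B y hB0 (hB4.trans hpB) hy0.le hBy (by simp) ?_ hω0 ?_ ?_ ?_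
      · intro l
        have := hω0 l
        split_ifs <;> positivity
      · intro l hl
        rw [if_neg (by omega)]
      · intro n
        refine n8_geom hy0.le (by linarith only [hy16]) (by positivity) (by positivity) ?_ ?_ n
        · simp only [hω, hG, if_true, pow_one, le_refl]
        · intro l hl
          simp only [hω, hG]
          rw [if_neg (by omega)]
      · intro n
        have hρ : y ^ (499 / 1000 : ℝ) ≤ 1 / 2 := n8_pow_half hy0.le (by linarith only [hy16])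
        have hBρ : y ^ (499 / 1000 : ℝ) ≤ B ^ (499 / 1000 : ℝ) :=
          Real.rpow_le_rpow hy0.le hBy (by norm_num)
        have hD : ((1 + η) * Si) ^ (499 / 1000 : ℝ) * y ^ (499 / 1000 : ℝ) ≤ 1 / 2 := by
          rw [← Real.mul_rpow (by positivity) hy0.le]
          refine n8_pow_half (by positivity) ?_
          have h1 : (1 + η) * Si * y ≤ 2 * (Si * y) := by
            have h2 : 0 ≤ Si * y := by positivity
            nlinarith only [h2, hη1]
          linarith only [h1, hp16]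
        have hmain := n8_geom (r := y ^ (499 / 1000 : ℝ)) (A := B ^ (499 / 1000 : ℝ))
          (D := ((1 + η) * Si) ^ (499 / 1000 : ℝ)) (by positivity) hρ (by positivity)
          (by positivity) (f := fun l => if l = 0 then 1 else (ω l) ^ (499 / 1000 : ℝ)) (by
            rw [if_neg (by norm_num)]
            refine Real.rpow_le_rpow (hω0 1) ?_ (by norm_num)
            simp only [hω, hG, if_true, pow_one, hB]
            have : 0 ≤ 2 * ((1 + η) * Si) * y ^ 2 := by positivity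
            linarith only [this]) (by
            intro l hl
            rw [if_neg (by omega)]
            simp only [hω, hG]
            rw [if_neg (by omega), Real.mul_rpow (by positivity) (by positivity)]
            refine mul_le_mul_of_nonneg_left (le_of_eq ?_) (by positivity)
            rw [← Real.rpow_natCast, ← Real.rpow_mul hy0.le, ← Real.rpow_natCast,
              ← Real.rpow_mul hy0.le, mul_comm]) n
        refine hmain.trans ?_
        have h6 : ((1 + η) * Si) ^ (499 / 1000 : ℝ) * (y ^ (499 / 1000 : ℝ)) ^ 2 ≤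
            1 / 2 * B ^ (499 / 1000 : ℝ) := by
          have h7 : ((1 + η) * Si) ^ (499 / 1000 : ℝ) * (y ^ (499 / 1000 : ℝ)) ^ 2 =
            (((1 + η) * Si) ^ (499 / 1000 : ℝ) * y ^ (499 / 1000 : ℝ)) * y ^ (499 / 1000 : ℝ) := by
            ring
          rw [h7]
          exact mul_le_mul hD hBρ (by positivity) (by norm_num)
        linarith only [h6]
    · -- the constant
      refine hfinal _ ?_
      have hlam : n8lam s V η (4 + 16 * C) p =
          η * y + (4 + 16 * C) * Si ^ 2 * y ^ (501 / 500 : ℝ) := by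
        unfold n8lam
        rw [if_pos hpV]
      rw [hlam]
      have hB2 : B ^ (501 / 500 : ℝ) ≤ 16 * Si ^ 2 * y ^ (501 / 500 : ℝ) := by
        have h1 : B ^ (501 / 500 : ℝ) ≤ (4 * Si * y) ^ (501 / 500 : ℝ) :=
          Real.rpow_le_rpow hB0.le hB4 (by norm_num)
        rw [Real.mul_rpow (by positivity) hy0.le] at h1
        refine h1.trans (mul_le_mul_of_nonneg_right ?_ hyp)
        have h2 : (4 * Si) ^ (501 / 500 : ℝ) ≤ (4 * Si) ^ (2 : ℝ) :=
          Real.rpow_le_rpow_of_exponent_le (by linarith only [hSi1]) (by norm_num)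
        rw [Real.rpow_two] at h2
        linarith only [h2, mul_pow 4 Si 2]
      have hCB : C * B ^ (501 / 500 : ℝ) ≤ 16 * C * Si ^ 2 * y ^ (501 / 500 : ℝ) := by
        have := mul_le_mul_of_nonneg_left hB2 hC
        linarith only [this]
      have hy2 : y ^ 2 ≤ y ^ (501 / 500 : ℝ) := by
        rw [← Real.rpow_two]
        exact Real.rpow_le_rpow_of_exponent_ge hy0 (by linarith only [hy16]) (by norm_num)
      have hmain : (499 / 500) * (B - y) ≤ 4 * Si * n8tau γ s V a b p + η * y +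
          4 * Si ^ 2 * y ^ (501 / 500 : ℝ) := by
        have hBy0 : 0 ≤ B - y := by linarith only [hBy]
        by_cases hτ' : τ
        · have h1 : n8tau γ s V a b p = y := by
            unfold n8tau
            rw [if_pos hτ']
          rw [h1]
          have h2 : 0 ≤ η * y := by positivity
          have h3 : 0 ≤ 4 * Si ^ 2 * y ^ (501 / 500 : ℝ) := by positivity
          linarith only [h2, h3, hB4, hBy0, hy0]
        · have h1 : g = 1 := by
            rw [hg, if_neg hτ']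
          have h2 : B - y = η * y + 2 * ((1 + η) * Si) * y ^ 2 := by
            rw [hB, h1]
            ring
          have h3 : 2 * ((1 + η) * Si) * y ^ 2 ≤ 4 * Si ^ 2 * y ^ (501 / 500 : ℝ) := by
            refine mul_le_mul ?_ hy2 (by positivity) (by positivity)
            have h4 : (1 + η) * Si ≤ 2 * Si :=
              mul_le_mul_of_nonneg_right (by linarith only [hη1]) (by linarith only [hSi1])
            nlinarith only [h4, hSi1]
          have h5 : 0 ≤ 4 * Si * n8tau γ s V a b p := by positivity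
          linarith only [h2, h3, h5, hBy0]
      linarith only [hmain, hCB]

/-! ### the sum of the errors -/

theorem n8_logs {s₀ s V : ℝ} (h : NHyp s₀ s V) (hs4 : s ≤ 1 / 4) :
    1 ≤ Real.log (1 / s) ∧ 100 * Real.log (1 / s) ≤ Real.log V / Real.log (1 / s) ∧
      Real.log (1 / s) ≤ Real.log V ∧ 1 ≤ Real.log V := by
  obtain ⟨hs, -, hV, hL⟩ := h
  have h1 : 1 ≤ Real.log (1 / s) := by
    have h2 : Real.log 4 ≤ Real.log (1 / s) := by
      apply Real.log_le_log (by norm_num)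
      rw [le_div_iff₀ hs]
      linarith only [hs4]
    have h3 : Real.log 4 = 2 * Real.log 2 := by
      rw [show (4 : ℝ) = 2 ^ 2 by norm_num, Real.log_pow]
      norm_num
    linarith only [h2, h3, Real.log_two_gt_d9]
  refine ⟨h1, ?_, ?_, ?_⟩
  · rw [le_div_iff₀ (by linarith only [h1])]
    nlinarith only [hL]
  · nlinarith only [hL, h1]
  · nlinarith only [hL, h1]

theorem n8_inv_prime {s₀ s V : ℝ} (h : NHyp s₀ s V) (hs4 : s ≤ 1 / 4) {p : ℕ}
    (hp : nw s V < p) : 1 / (p : ℝ) ≤ s ^ (100 : ℝ) := by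
  have hs := h.1
  obtain ⟨h1, h2, -, -⟩ := n8_logs h hs4
  have h3 : s ^ (-(100 : ℝ)) ≤ nw s V := by
    unfold nw
    rw [Real.rpow_def_of_pos hs]
    apply Real.exp_le_exp.2
    rw [one_div, Real.log_inv] at h2
    rw [one_div, Real.log_inv]
    linarith only [h2]
  have h4 : 0 < s ^ (-(100 : ℝ)) := by positivity
  have h5 : s ^ (100 : ℝ) = 1 / s ^ (-(100 : ℝ)) := by
    rw [Real.rpow_neg hs.le, one_div, inv_inv]
  rw [h5]
  exact one_div_le_one_div_of_le h4 (h3.trans hp.le)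

theorem n8_sum_lam : ∃ C₁ > 0, ∃ Z > 0, ∀ (s₀ s V η C' : ℝ), NHyp s₀ s V → s ≤ 1 / 4 →
    0 ≤ η → 0 ≤ C' → ∀ P : Finset ℕ, (∀ p ∈ P, p.Prime ∧ nw s V < p) →
    ∑ p ∈ P, n8lam s V η C' p ≤ η * ((2 + C₁) * Real.log (1 / s)) +
      C' * Z * s ^ (13 / 150 : ℝ) := by
  classical
  obtain ⟨C₁, hC₁, hM⟩ := n8_mertens
  have hsm : Summable (fun n : ℕ => 1 / (n : ℝ) ^ (1001 / 1000 : ℝ)) :=
    Real.summable_one_div_nat_rpow.2 (by norm_num)
  refine ⟨C₁, hC₁, (∑' n : ℕ, 1 / (n : ℝ) ^ (1001 / 1000 : ℝ)) + 1, ?_, ?_⟩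
  · have : 0 ≤ ∑' n : ℕ, 1 / (n : ℝ) ^ (1001 / 1000 : ℝ) := tsum_nonneg fun n => by positivity
    linarith only [this]
  intro s₀ s V η C' hN hs4 hη hC' P hP
  have hs := hN.1
  have hV := hN.2.2.1
  obtain ⟨h1, h2, h3, h4⟩ := n8_logs hN hs4
  unfold n8lam
  rw [sum_add_distrib]
  refine add_le_add ?_ ?_
  · -- primes of the window
    rw [← sum_filter, ← mul_sum]
    refine mul_le_mul_of_nonneg_left ?_ hη
    set Q := P.filter (fun p : ℕ => (p : ℝ) ≤ V * s ^ (-(3 / 16) : ℝ)) with hQ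
    rcases Q.eq_empty_or_nonempty with hQe | ⟨q, hq⟩
    · rw [hQe, sum_empty]
      positivity
    have hx0 : 0 < nw s V := Real.exp_pos _
    have hlx : Real.log (nw s V) = Real.log V / Real.log (1 / s) := by
      unfold nw
      rw [Real.log_exp]
    have hx2 : 2 ≤ nw s V := by
      unfold nw
      have := Real.add_one_le_exp (Real.log V / Real.log (1 / s))
      linarith only [this, h2, h1]
    have hq' := mem_filter.1 hq
    have h5 := hM Q (nw s V) (V * s ^ (-(3 / 16) : ℝ)) (fun p hp => by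
      have hp' := mem_filter.1 hp
      exact ⟨(hP p hp'.1).1, (hP p hp'.1).2.le, hp'.2⟩) hx2
      ((hP q hq'.1).2.le.trans hq'.2)
    have h6 : Real.log (V * s ^ (-(3 / 16) : ℝ)) = Real.log V + 3 / 16 * Real.log (1 / s) := by
      rw [Real.log_mul hV.ne' (by positivity), Real.log_rpow hs, one_div, Real.log_inv]
      ring
    rw [hlx, h6, div_mul_eq_mul_div, div_le_iff₀ (by linarith only [h1])] at h5
    have h7 : (Real.log V + 3 / 16 * Real.log (1 / s) + C₁) * Real.log (1 / s) ≤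
        Real.log V * ((2 + C₁) * Real.log (1 / s)) := by
      have h8 : Real.log V + 3 / 16 * Real.log (1 / s) + C₁ ≤ Real.log V * (2 + C₁) := by
        nlinarith only [h3, h4, hC₁, h1]
      have h9 := mul_le_mul_of_nonneg_right h8 (by linarith only [h1] : 0 ≤ Real.log (1 / s))
      linarith only [h9]
    exact le_of_mul_le_mul_left (h5.trans h7) (by linarith only [h4])
  · -- the quadratic error
    have h5 : ∀ p ∈ P, C' * (s ^ (-(1 / 150) : ℝ)) ^ 2 * (1 / (p : ℝ)) ^ (501 / 500 : ℝ) ≤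
        C' * s ^ (13 / 150 : ℝ) * (1 / (p : ℝ) ^ (1001 / 1000 : ℝ)) := by
      intro p hp
      have hp0 : (0 : ℝ) < p := by exact_mod_cast (hP p hp).1.pos
      have h6 := n8_inv_prime hN hs4 (hP p hp).2
      have h7 : (1 / (p : ℝ)) ^ (501 / 500 : ℝ) ≤
          s ^ (1 / 10 : ℝ) * (1 / (p : ℝ) ^ (1001 / 1000 : ℝ)) := by
        have e1 : (1 / (p : ℝ)) ^ (501 / 500 : ℝ) =
            (1 / (p : ℝ)) ^ (1 / 1000 : ℝ) * (1 / (p : ℝ)) ^ (1001 / 1000 : ℝ) := by
          rw [← Real.rpow_add (by positivity)]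
          norm_num
        have e2 : (1 / (p : ℝ)) ^ (1001 / 1000 : ℝ) = 1 / (p : ℝ) ^ (1001 / 1000 : ℝ) := by
          rw [Real.div_rpow zero_le_one hp0.le, Real.one_rpow]
        have e3 : (1 / (p : ℝ)) ^ (1 / 1000 : ℝ) ≤ s ^ (1 / 10 : ℝ) := by
          have h8 := Real.rpow_le_rpow (by positivity) h6 (by norm_num : (0 : ℝ) ≤ 1 / 1000)
          rw [← Real.rpow_mul hs.le] at h8
          norm_num at h8 ⊢
          exact h8
        rw [e1, e2]
        exact mul_le_mul_of_nonneg_right e3 (by positivity)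
      have h8 : (s ^ (-(1 / 150) : ℝ)) ^ 2 * s ^ (1 / 10 : ℝ) = s ^ (13 / 150 : ℝ) := by
        rw [← Real.rpow_natCast, ← Real.rpow_mul hs.le, ← Real.rpow_add hs]
        norm_num
      calc C' * (s ^ (-(1 / 150) : ℝ)) ^ 2 * (1 / (p : ℝ)) ^ (501 / 500 : ℝ)
          ≤ C' * (s ^ (-(1 / 150) : ℝ)) ^ 2 *
            (s ^ (1 / 10 : ℝ) * (1 / (p : ℝ) ^ (1001 / 1000 : ℝ))) :=
            mul_le_mul_of_nonneg_left h7 (by positivity)
        _ = C' * ((s ^ (-(1 / 150) : ℝ)) ^ 2 * s ^ (1 / 10 : ℝ)) *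
            (1 / (p : ℝ) ^ (1001 / 1000 : ℝ)) := by ring
        _ = _ := by rw [h8]
    refine (sum_le_sum h5).trans ?_
    rw [← mul_sum]
    have h6 : ∑ p ∈ P, 1 / (p : ℝ) ^ (1001 / 1000 : ℝ) ≤
        (∑' n : ℕ, 1 / (n : ℝ) ^ (1001 / 1000 : ℝ)) + 1 := by
      have := hsm.sum_le_tsum P (fun n _ => by positivity)
      linarith only [this]
    have h7 := mul_le_mul_of_nonneg_left h6 (by positivity : 0 ≤ C' * s ^ (13 / 150 : ℝ))
    linarith only [h7]

/-! N8 -/
theorem inner_N : ∃ Γ > 0, ∃ s₀ > 0, ∀ γ s V : ℝ, NHyp s₀ s V → ∀ P : Finset ℕ,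
    (∀ p ∈ P, p.Prime ∧ nw s V < p) →
    LBound (NOm γ s V) (501 / 1000) (fun a b => Γ * ((16 / ((a : ℝ) * b)) ^ (499 / 1000 : ℝ) *
      (nsig γ s V a b) ^ (499 / 1000 : ℝ))) P (fun p => 1 / (p : ℝ)) 1 := by
  classical
  obtain ⟨B₀, hB₀, C, hC, -, hSP⟩ := SPw_small (θ := 501 / 1000) (by norm_num) (by norm_num)
  simp only [show (1 - 501 / 1000 : ℝ) = 499 / 1000 by norm_num,
    show (2 * (499 / 1000) : ℝ) = 499 / 500 by norm_num,
    show (2 * (501 / 1000) : ℝ) = 501 / 500 by norm_num] at hSP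
  obtain ⟨C₁, hC₁, Z, hZ, hlam⟩ := n8_sum_lam
  obtain ⟨s₁, hs₁, hbase⟩ := base_N
  obtain ⟨s₂, hs₂, htrans⟩ := trans_sum
  obtain ⟨s₃, hs₃, hsmall⟩ := n8_small (((((n8_ev_rpow (r := 1) (A := 1) (e := 1 / 4)
    (by norm_num) (by norm_num)).and (n8_ev_rpow (r := 7 / 1200) (A := 32) (e := 1)
    (by norm_num) (by norm_num))).and (n8_ev_log (r := 7 / 1200) (A := 32 * (2 + C₁)) (e := 1)
    (by norm_num) (by norm_num))).and (n8_ev_rpow (r := 13 / 150) (A := (4 + 16 * C) * Z)
    (e := 1) (by norm_num) (by norm_num))).and (n8_ev_rpow (r := 99) (A := 1)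
    (e := min (B₀ / 4) (1 / 16)) (by norm_num) (by positivity)))
  refine ⟨Real.exp 3, Real.exp_pos _, min s₁ (min s₂ s₃), by positivity, ?_⟩
  intro γ s V hN P hP
  have hs := hN.1
  have hN1 : NHyp s₁ s V := hN.mono (min_le_left _ _)
  have hN2 : NHyp s₂ s V := hN.mono ((min_le_right _ _).trans (min_le_left _ _))
  obtain ⟨⟨⟨⟨q1, q2⟩, q3⟩, q4⟩, q5⟩ := hsmall s hs
    (hN.2.1.trans ((min_le_right _ _).trans (min_le_right _ _)))
  rw [Real.rpow_one, one_mul] at q1
  rw [one_mul] at q5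
  have hs1 : s ≤ 1 := by linarith only [q1]
  set ε := s ^ (7 / 1200 : ℝ) with hε
  have hε0 : 0 < ε := by positivity
  have hSε : s ^ (-(1 / 150) : ℝ) * s ^ (1 / 80 : ℝ) = ε := by
    rw [← Real.rpow_add hs]
    norm_num
    rfl
  set η := Real.exp (16 * ε) - 1 with hη
  have hη0 : 0 ≤ η := by
    have := Real.add_one_le_exp (16 * ε)
    linarith only [this, hε0, hη]
  have hη32 : η ≤ 32 * ε := by
    have h := Real.abs_exp_sub_one_le (x := 16 * ε)
      (by rw [abs_of_pos (by positivity)]; linarith only [q2])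
    rw [abs_of_pos (a := 16 * ε) (by positivity)] at h
    have h' := le_abs_self (Real.exp (16 * ε) - 1)
    linarith only [h, h', hη]
  have hη1 : η ≤ 1 := hη32.trans q2
  have hηe : Real.exp (4 * s ^ (-(1 / 150) : ℝ) * s ^ (1 / 80 : ℝ)) ≤
      (1 + η) ^ (499 / 1000 : ℝ) := by
    have h1 : 1 + η = Real.exp (16 * ε) := by rw [hη]; ring
    rw [h1, ← Real.exp_mul, mul_assoc, hSε]
    apply Real.exp_le_exp.2
    linarith only [hε0]
  have hC' : 0 ≤ 4 + 16 * C := by linarith only [hC]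
  have hH : ∀ P : Finset ℕ, (∀ p ∈ P, p.Prime ∧ nw s V < p) → ∀ a b : ℕ, 0 < a → 0 < b →
      n8H γ s V P a b ≤ s ^ (1 / 80 : ℝ) := fun P hP a b ha hb =>
    n8_H_le hs fun hf => htrans γ s V hN2 a b ha hb hf P hP
  have hpS : ∀ p : ℕ, nw s V < p → s ^ (-(1 / 150) : ℝ) * (1 / (p : ℝ)) ≤
      min (B₀ / 4) (1 / 16) := by
    intro p hp
    have h1 := n8_inv_prime hN q1 hp
    have h2 : s ^ (-(1 / 150) : ℝ) * s ^ (100 : ℝ) ≤ s ^ (99 : ℝ) := by
      rw [← Real.rpow_add hs]
      exact Real.rpow_le_rpow_of_exponent_ge hs hs1 (by norm_num)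
    have h3 := mul_le_mul_of_nonneg_left h1 (by positivity : 0 ≤ s ^ (-(1 / 150) : ℝ))
    exact h3.trans (h2.trans q5)
  -- the induction
  have hind : ∀ P : Finset ℕ, (∀ p ∈ P, p.Prime ∧ nw s V < p) →
      LBound (NOm γ s V) (501 / 1000) (n8K γ s V η (4 + 16 * C) P) P
        (fun p => 1 / (p : ℝ)) 1 := by
    intro P
    induction P using Finset.induction_on with
    | empty =>
      intro _
      refine LBound_mono (hbase γ s V hN1 _) fun a b _ _ => ?_
      unfold n8K n8H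
      rw [sum_empty, sum_empty, mul_zero, add_zero, Real.exp_zero, mul_one]
    | insert p P hpP ih =>
      intro hP'
      have hPP : ∀ q ∈ P, q.Prime ∧ nw s V < q := fun q hq => hP' q (mem_insert_of_mem hq)
      have hpp := hP' p (mem_insert_self p P)
      refine lb_step (K := n8K γ s V η (4 + 16 * C) P) (by norm_num) (by norm_num)
        (fun q hq => (hPP q hq).1) hpp.1 hpP ?_ (n8_K_nonneg hs P) (ih hPP) ?_
      · intro q hq
        have h2 : (2 : ℝ) ≤ q := by exact_mod_cast (hP' q hq).1.two_le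
        refine ⟨by positivity, ?_⟩
        rw [div_lt_one (by linarith only [h2])]
        linarith only [h2]
      · intro a b ha hb
        have h1 := hpS p hpp.2
        exact n8_step hC hSP hs hs1 hη0 hη1 hηe hpp.1 hpP
          (by
            have := h1.trans (min_le_left _ _)
            linarith only [this])
          (h1.trans (min_le_right _ _)) (hH P hPP) ha hb
  refine LBound_mono (hind P hP) fun a b ha hb => ?_
  unfold n8K
  rw [mul_comm (Real.exp 3)]
  have hn := nsig_nonneg (γ := γ) (V := V) hs a b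
  refine mul_le_mul_of_nonneg_left (Real.exp_le_exp.2 ?_) (by positivity)
  have h1 := hlam _ s V η (4 + 16 * C) hN q1 hη0 hC' P hP
  have h2 : 4 * s ^ (-(1 / 150) : ℝ) * n8H γ s V P a b ≤ 4 * ε := by
    have h3 := mul_le_mul_of_nonneg_left (hH P hP a b ha hb)
      (by positivity : 0 ≤ 4 * s ^ (-(1 / 150) : ℝ))
    linarith only [h3, hSε]
  have h4 : η * ((2 + C₁) * Real.log (1 / s)) ≤ 1 := by
    have h5 : 0 ≤ (2 + C₁) * Real.log (1 / s) := by
      have := (n8_logs hN q1).1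
      positivity
    have h6 := mul_le_mul_of_nonneg_right hη32 h5
    linarith only [h6, q3]
  linarith only [h1, h2, h4, q2, q4]

end Vale.P028
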