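import Vale.Agent.P028.H472.C.NMomentAux
import Vale.Agent.P028.H472.C.NSmallSum
import Vale.Agent.P028.H472.C.NDiffSum
import Vale.Agent.P028.H472.C.NPair4

/-!
# The second moment for separated arcs
-/

namespace Vale.P028

open Finset MeasureTheory Filter

/-- the second moment of the sifted sets is bounded when the arcs are separated -/
theorem moment_N {c₀ : ℝ} (hc₀ : 0 < c₀) : ∃ C > 0, ∀ (γ : ℝ) (ψ : ℕ → ℝ) (S : Finset ℕ),
    (∀ q ∈ S, 0 < q ∧ 0 < ψ q ∧ ψ q ≤ 1 / 2) →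
    (∀ q ∈ S, ∀ r ∈ S, q < r → ArcSep c₀ ψ q r) →
      ∑ q ∈ S, ∑ r ∈ S, wK γ (ψ q) q * wK γ (ψ r) r *
        volume.real (GK γ ψ q ∩ GK γ ψ r ∩ Set.Ioc 0 1) ≤
      C * ((∑ q ∈ S, (q.totient : ℝ) / q * ψ q) + (∑ q ∈ S, (q.totient : ℝ) / q * ψ q) ^ 2) :=
  n16_moment (small_sum_sep hc₀) diff_sum pair_four

end Vale.P028
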