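import Mathlib
import Vale.Agent.P028.H472.C.NBasic
import Vale.Agent.P028.KSmall
import Vale.Agent.P028.KPair3
import Vale.Agent.P028.KPV
import Vale.Agent.P028.KResid
import Vale.Agent.P028.KBad

/-!
# The second moment for separated arcs, from the three bounds (small sum, denominators, pairs)
-/

namespace Vale.P028

open Finset MeasureTheory Filter

theorem n16_KD_nonneg (B B' u v : ℕ) : 0 ≤ KDn B B' u v := by
  unfold KDn
  split_ifs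
  · refine mul_nonneg (mul_nonneg (GG_nonneg _) (GG_nonneg _)) (mul_nonneg ?_ ?_)
    · positivity
    · apply Real.rpow_nonneg
      exact le_min zero_le_one (by positivity)
  · exact le_rfl

theorem n16_gap {γ x y : ℝ} (h : Bq γ x < Bq γ y) :
    2 * Bq γ x ≤ Bq γ y ∧ 3 / 16 * (Bq γ x : ℝ) ^ 4 ≤ Bq γ y := by
  refine ⟨kb_values_double h, ?_⟩
  have hpos : 0 < Bq γ x := Bsel_pos _ _ _
  have hy : Bad γ (1 / 1024) (Bq γ y) := by
    rcases Bsel_spec γ (1 / 1024) (min y (1 / 1024)) with h1 | h1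
    · exfalso
      have : Bq γ y = 1 := h1
      omega
    · exact h1.1
  rcases Bsel_spec γ (1 / 1024) (min x (1 / 1024)) with h1 | h1
  · have h2 : Bq γ x = 1 := h1
    have h3 : (1 : ℝ) ≤ Bq γ y := by
      have : 1 ≤ Bq γ y := by omega
      exact_mod_cast this
    rw [h2]
    norm_num
    linarith only [h3]
  · have h2 : Bad γ (1 / 1024) (Bq γ x) := h1.1
    have h3 := Bad.gap (by norm_num) h2 hy h
    have h4 := le_max_left ((Bq γ x : ℝ) ^ 4) (1 / (1 / 1024))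
    linarith only [h3, h4]

open Classical in
/-- the moment for a function vanishing outside of `S` -/
theorem n16_aux {c₀ : ℝ}
    (hsmall : ∃ C > 0, ∀ (γ : ℝ) (N : ℕ) (ψ f : ℕ → ℝ),
      (∀ q, 0 ≤ ψ q) → (∀ q, 0 ≤ f q ∧ f q ≤ ψ q * (q.totient / q)) →
        (∀ q r : ℕ, 0 < q → q < r → f q ≠ 0 → f r ≠ 0 → ArcSep c₀ ψ q r) →
        wsum (SmallRel γ ψ) N f f
          (fun q r => GG (cofac q r * cofac r q) / DD q r (ψ q) (ψ r)) ≤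
          C * ((∑ q ∈ Icc 1 N, f q) + (∑ q ∈ Icc 1 N, f q) ^ 2))
    (hdiff : ∃ C > 0, ∀ (N : ℕ) (f : ℕ → ℝ) (b : ℕ → ℕ), (∀ q, 0 ≤ f q) →
      (∀ q, 0 < b q) → (∀ q r, b q < b r → 2 * b q ≤ b r ∧ 3 / 16 * (b q : ℝ) ^ 4 ≤ b r) →
      ∑ q ∈ Icc 1 N, ∑ r ∈ Icc 1 N, Real.sqrt (f q * f r) *
        KDn (b q) (b r) (cofac q r) (cofac r q) ≤ C * ∑ q ∈ Icc 1 N, f q)
    (hpair : ∃ C > 0, ∀ (γ : ℝ) (ψ : ℕ → ℝ) (q r : ℕ), 0 < q → 0 < r → 0 < ψ q →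
      0 < ψ r → ψ q ≤ 1 / 2 → ψ r ≤ 1 / 2 →
      wK γ (ψ q) q * wK γ (ψ r) r * volume.real (GK γ ψ q ∩ GK γ ψ r ∩ Set.Ioc 0 1) ≤
        C * ((q.totient : ℝ) / q * ψ q * ((r.totient : ℝ) / r * ψ r) *
            GT (max 2 (DD q r (ψ q) (ψ r))) (cofac q r * cofac r q)) +
        (if SmallRel γ ψ q r then
          C * ((q.totient : ℝ) / q * ψ q * ((r.totient : ℝ) / r * ψ r) *
            GG (cofac q r * cofac r q) / DD q r (ψ q) (ψ r)) else 0) +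
        128 * (Real.sqrt (((q.totient : ℝ) / q * ψ q) * ((r.totient : ℝ) / r * ψ r)) *
          resK q r) +
        16 * (Real.sqrt (((q.totient : ℝ) / q * ψ q) * ((r.totient : ℝ) / r * ψ r)) *
          KDn (Bq γ (ψ q)) (Bq γ (ψ r)) (cofac q r) (cofac r q)) +
        16 * (Real.sqrt (((q.totient : ℝ) / q * ψ q) * ((r.totient : ℝ) / r * ψ r)) *
          KDn (Bq γ (ψ r)) (Bq γ (ψ q)) (cofac r q) (cofac q r))) :
    ∃ C > 0, ∀ (γ : ℝ) (ψ : ℕ → ℝ) (S : Finset ℕ) (N : ℕ), S ⊆ Icc 1 N →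
      (∀ q, q ∉ S → ψ q = 0) → (∀ q ∈ S, 0 < ψ q ∧ ψ q ≤ 1 / 2) →
      (∀ q ∈ S, ∀ r ∈ S, q < r → ArcSep c₀ ψ q r) →
      ∑ q ∈ S, ∑ r ∈ S, wK γ (ψ q) q * wK γ (ψ r) r *
        volume.real (GK γ ψ q ∩ GK γ ψ r ∩ Set.Ioc 0 1) ≤
      C * ((∑ q ∈ Icc 1 N, (q.totient : ℝ) / q * ψ q) +
        (∑ q ∈ Icc 1 N, (q.totient : ℝ) / q * ψ q) ^ 2) := by
  obtain ⟨C₀, hC₀, hpair⟩ := hpair
  obtain ⟨C₁, hC₁, hanat⟩ := anat_sum
  obtain ⟨C₂, hC₂, hsmall⟩ := hsmall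
  obtain ⟨C₃, hC₃, hres⟩ := resid
  obtain ⟨C₄, hC₄, hdiff⟩ := hdiff
  refine ⟨C₀ * C₁ + C₀ * C₂ + 128 * C₃ + 32 * C₄,
    by (clear * - hC₀ hC₁ hC₂ hC₃ hC₄; positivity), ?_⟩
  intro γ ψ S N hSN hψ0 hS hsep
  have hψ : ∀ q, 0 ≤ ψ q := by
    intro q
    by_cases h : q ∈ S
    · exact (hS q h).1.le
    · rw [hψ0 q h]
  set f : ℕ → ℝ := fun q => (q.totient : ℝ) / q * ψ q with hf
  have hf0 : ∀ q, 0 ≤ f q := fun q => mul_nonneg (by (clear * -; positivity)) (hψ q)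
  have hfψ : ∀ q, 0 ≤ f q ∧ f q ≤ ψ q * (q.totient / q) :=
    fun q => ⟨hf0 q, le_of_eq (mul_comm _ _)⟩
  have hfS : ∀ q, f q ≠ 0 → q ∈ S := by
    intro q h
    by_contra hne
    apply h
    simp only [hf, hψ0 q hne, mul_zero]
  set F : ℝ := ∑ q ∈ Icc 1 N, f q with hF
  have hF0 : 0 ≤ F := sum_nonneg fun q _ => hf0 q
  have hpos : ∀ q ∈ S, 0 < q := by
    intro q hq
    have := hSN hq
    rw [mem_Icc] at this
    omega
  -- pointwise bound, everything expressed by `f`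
  have hpt : ∀ q ∈ S, ∀ r ∈ S, wK γ (ψ q) q * wK γ (ψ r) r *
        volume.real (GK γ ψ q ∩ GK γ ψ r ∩ Set.Ioc 0 1) ≤
      C₀ * (f q * f r * GT (max 2 (DD q r (ψ q) (ψ r))) (cofac q r * cofac r q)) +
      C₀ * (if SmallRel γ ψ q r then
        f q * f r * (GG (cofac q r * cofac r q) / DD q r (ψ q) (ψ r)) else 0) +
      128 * (Real.sqrt (f q * f r) * resK q r) +
      16 * (Real.sqrt (f q * f r) *
        KDn (Bq γ (ψ q)) (Bq γ (ψ r)) (cofac q r) (cofac r q)) +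
      16 * (Real.sqrt (f r * f q) *
        KDn (Bq γ (ψ r)) (Bq γ (ψ q)) (cofac r q) (cofac q r)) := by
    intro q hq r hr
    obtain ⟨hq3, hq4⟩ := hS q hq
    obtain ⟨hr3, hr4⟩ := hS r hr
    have h1 := hpair γ ψ q r (hpos q hq) (hpos r hr) hq3 hr3 hq4 hr4
    refine h1.trans ?_
    refine add_le_add (add_le_add (add_le_add (add_le_add le_rfl ?_) le_rfl) le_rfl) ?_
    · split_ifs with h
      · apply le_of_eq
        simp only [hf]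
        ring
      · simp
    · rw [mul_comm (f r) (f q)]
  -- the sums
  have hGT0 : ∀ (D : ℝ) (n : ℕ), 0 ≤ GT D n := by
    intro D n
    rw [GT_eq]
    exact inv_nonneg.mpr (pr_pos fun p hp =>
      Nat.prime_of_mem_primeFactors (mem_filter.mp hp).1).le
  have hDn : ∀ q r, 0 ≤ DD q r (ψ q) (ψ r) := by
    intro q r
    unfold DD
    exact div_nonneg (le_trans (mul_nonneg (Nat.cast_nonneg _) (hψ q)) (le_max_left _ _))
      (Nat.cast_nonneg _)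
  have hext : ∀ G : ℕ → ℕ → ℝ, (∀ q r, 0 ≤ G q r) →
      ∑ q ∈ S, ∑ r ∈ S, G q r ≤ ∑ q ∈ Icc 1 N, ∑ r ∈ Icc 1 N, G q r := by
    intro G hG
    calc ∑ q ∈ S, ∑ r ∈ S, G q r ≤ ∑ q ∈ S, ∑ r ∈ Icc 1 N, G q r :=
          sum_le_sum fun q _ => sum_le_sum_of_subset_of_nonneg hSN fun r _ _ => hG q r
      _ ≤ _ := sum_le_sum_of_subset_of_nonneg hSN fun q _ _ => sum_nonneg fun r _ => hG q r
  have hff : ∀ q r, 0 ≤ f q * f r := fun q r => mul_nonneg (hf0 q) (hf0 r)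
  have s1 : ∑ q ∈ S, ∑ r ∈ S,
      f q * f r * GT (max 2 (DD q r (ψ q) (ψ r))) (cofac q r * cofac r q) ≤
      C₁ * (F + F ^ 2) :=
    (hext _ fun q r => mul_nonneg (hff q r) (hGT0 _ _)).trans (hanat N ψ f hψ hfψ)
  have s2 : ∑ q ∈ S, ∑ r ∈ S,
      (if SmallRel γ ψ q r then
        f q * f r * (GG (cofac q r * cofac r q) / DD q r (ψ q) (ψ r)) else 0) ≤
      C₂ * (F + F ^ 2) := by
    refine (hext _ fun q r => ?_).trans (hsmall γ N ψ f hψ hfψ fun q r _ hqr hfq hfr => ?_)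
    · split_ifs
      · exact mul_nonneg (hff q r) (div_nonneg (GG_nonneg _) (hDn q r))
      · exact le_rfl
    · exact hsep q (hfS q hfq) r (hfS r hfr) hqr
  have s3 : ∑ q ∈ S, ∑ r ∈ S, Real.sqrt (f q * f r) * resK q r ≤ C₃ * F :=
    (hext _ fun q r => mul_nonneg (Real.sqrt_nonneg _) (resK_nonneg q r)).trans (hres N f hf0)
  have s4 : ∑ q ∈ S, ∑ r ∈ S, Real.sqrt (f q * f r) *
      KDn (Bq γ (ψ q)) (Bq γ (ψ r)) (cofac q r) (cofac r q) ≤ C₄ * F :=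
    (hext _ fun q r => mul_nonneg (Real.sqrt_nonneg _) (n16_KD_nonneg _ _ _ _)).trans
      (hdiff N f (fun q => Bq γ (ψ q)) hf0 (fun q => Bsel_pos _ _ _) fun q r h => n16_gap h)
  have s5 : ∑ q ∈ S, ∑ r ∈ S, Real.sqrt (f r * f q) *
      KDn (Bq γ (ψ r)) (Bq γ (ψ q)) (cofac r q) (cofac q r) ≤ C₄ * F := by
    rw [sum_comm]
    exact s4
  have hsum : ∑ q ∈ S, ∑ r ∈ S, wK γ (ψ q) q * wK γ (ψ r) r *
        volume.real (GK γ ψ q ∩ GK γ ψ r ∩ Set.Ioc 0 1) ≤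
      C₀ * (C₁ * (F + F ^ 2)) + C₀ * (C₂ * (F + F ^ 2)) + 128 * (C₃ * F) +
        16 * (C₄ * F) + 16 * (C₄ * F) := by
    refine (sum_le_sum fun q hq => sum_le_sum fun r hr => hpt q hq r hr).trans ?_
    simp_rw [sum_add_distrib, ← mul_sum]
    (clear * - s1 hC₀ s2 s3 s4 s5; gcongr)
  refine hsum.trans ?_
  have h6 : F ≤ F + F ^ 2 := by nlinarith only []
  have h7 : 128 * (C₃ * F) ≤ 128 * (C₃ * (F + F ^ 2)) := by
    (clear * - h6 hC₃; gcongr)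
  have h9 : 16 * (C₄ * F) ≤ 16 * (C₄ * (F + F ^ 2)) := by
    (clear * - h6 hC₄; gcongr)
  have h8 : (C₀ * C₁ + C₀ * C₂ + 128 * C₃ + 32 * C₄) * (F + F ^ 2) =
      C₀ * (C₁ * (F + F ^ 2)) + C₀ * (C₂ * (F + F ^ 2)) + 128 * (C₃ * (F + F ^ 2)) +
        16 * (C₄ * (F + F ^ 2)) + 16 * (C₄ * (F + F ^ 2)) := by ring
  rw [h8]
  linarith only [h7, h9]

/-- the second moment, from the three bounds -/
theorem n16_moment {c₀ : ℝ}
    (hsmall : ∃ C > 0, ∀ (γ : ℝ) (N : ℕ) (ψ f : ℕ → ℝ),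
      (∀ q, 0 ≤ ψ q) → (∀ q, 0 ≤ f q ∧ f q ≤ ψ q * (q.totient / q)) →
        (∀ q r : ℕ, 0 < q → q < r → f q ≠ 0 → f r ≠ 0 → ArcSep c₀ ψ q r) →
        wsum (SmallRel γ ψ) N f f
          (fun q r => GG (cofac q r * cofac r q) / DD q r (ψ q) (ψ r)) ≤
          C * ((∑ q ∈ Icc 1 N, f q) + (∑ q ∈ Icc 1 N, f q) ^ 2))
    (hdiff : ∃ C > 0, ∀ (N : ℕ) (f : ℕ → ℝ) (b : ℕ → ℕ), (∀ q, 0 ≤ f q) →
      (∀ q, 0 < b q) → (∀ q r, b q < b r → 2 * b q ≤ b r ∧ 3 / 16 * (b q : ℝ) ^ 4 ≤ b r) →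
      ∑ q ∈ Icc 1 N, ∑ r ∈ Icc 1 N, Real.sqrt (f q * f r) *
        KDn (b q) (b r) (cofac q r) (cofac r q) ≤ C * ∑ q ∈ Icc 1 N, f q)
    (hpair : open Classical in ∃ C > 0, ∀ (γ : ℝ) (ψ : ℕ → ℝ) (q r : ℕ), 0 < q → 0 < r → 0 < ψ q →
      0 < ψ r → ψ q ≤ 1 / 2 → ψ r ≤ 1 / 2 →
      wK γ (ψ q) q * wK γ (ψ r) r * volume.real (GK γ ψ q ∩ GK γ ψ r ∩ Set.Ioc 0 1) ≤
        C * ((q.totient : ℝ) / q * ψ q * ((r.totient : ℝ) / r * ψ r) *
            GT (max 2 (DD q r (ψ q) (ψ r))) (cofac q r * cofac r q)) +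
        (if SmallRel γ ψ q r then
          C * ((q.totient : ℝ) / q * ψ q * ((r.totient : ℝ) / r * ψ r) *
            GG (cofac q r * cofac r q) / DD q r (ψ q) (ψ r)) else 0) +
        128 * (Real.sqrt (((q.totient : ℝ) / q * ψ q) * ((r.totient : ℝ) / r * ψ r)) *
          resK q r) +
        16 * (Real.sqrt (((q.totient : ℝ) / q * ψ q) * ((r.totient : ℝ) / r * ψ r)) *
          KDn (Bq γ (ψ q)) (Bq γ (ψ r)) (cofac q r) (cofac r q)) +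
        16 * (Real.sqrt (((q.totient : ℝ) / q * ψ q) * ((r.totient : ℝ) / r * ψ r)) *
          KDn (Bq γ (ψ r)) (Bq γ (ψ q)) (cofac r q) (cofac q r))) :
    ∃ C > 0, ∀ (γ : ℝ) (ψ : ℕ → ℝ) (S : Finset ℕ),
    (∀ q ∈ S, 0 < q ∧ 0 < ψ q ∧ ψ q ≤ 1 / 2) →
    (∀ q ∈ S, ∀ r ∈ S, q < r → ArcSep c₀ ψ q r) →
      ∑ q ∈ S, ∑ r ∈ S, wK γ (ψ q) q * wK γ (ψ r) r *
        volume.real (GK γ ψ q ∩ GK γ ψ r ∩ Set.Ioc 0 1) ≤
      C * ((∑ q ∈ S, (q.totient : ℝ) / q * ψ q) + (∑ q ∈ S, (q.totient : ℝ) / q * ψ q) ^ 2) := by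
  classical
  obtain ⟨C, hC, h⟩ := n16_aux hsmall hdiff hpair
  refine ⟨C, hC, ?_⟩
  intro γ ψ S hS hsep
  set ψ' : ℕ → ℝ := fun q => if q ∈ S then ψ q else 0 with hψ'
  have he : ∀ q ∈ S, ψ' q = ψ q := fun q hq => by simp only [hψ', if_pos hq]
  set N : ℕ := S.sup id with hN
  have hSN : S ⊆ Icc 1 N := by
    intro q hq
    rw [mem_Icc]
    exact ⟨(hS q hq).1, Finset.le_sup (f := id) hq⟩
  have h1 := h γ ψ' S N hSN (fun q hq => by simp only [hψ', if_neg hq])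
    (fun q hq => by rw [he q hq]; exact (hS q hq).2)
    (fun q hq r hr hqr => by
      have := hsep q hq r hr hqr
      unfold ArcSep at this ⊢
      rw [he q hq, he r hr]
      exact this)
  have h2 : ∑ q ∈ Icc 1 N, (q.totient : ℝ) / q * ψ' q = ∑ q ∈ S, (q.totient : ℝ) / q * ψ q := by
    rw [← sum_subset hSN]
    · exact sum_congr rfl fun q hq => by rw [he q hq]
    · intro q _ hq
      simp only [hψ', if_neg hq, mul_zero]
  rw [h2] at h1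
  refine (le_of_eq ?_).trans h1
  refine sum_congr rfl fun q hq => sum_congr rfl fun r hr => ?_
  unfold GK
  rw [he q hq, he r hr]

end Vale.P028
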