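import Vale.Agent.P028.MathlibUsed
import Vale.Agent.P028.H472.C.NBasic
import Vale.Agent.P028.H472.C.NStep
import Vale.Agent.P028.MCaseB
import Vale.Agent.P028.H472.C.NInner
import Vale.Agent.P028.H472.C.NSmallState

/-!
# The small primes of Theorem N (section N9)
-/

namespace Vale.P028

open Finset

theorem n9_SPw {θ B x c : ℝ} (h : SP θ B x c) : SPw θ (fun l => B ^ l) x c := h

/-- the kernel of the large primes is dominated by the kernel `KB` -/
theorem n9_dominate {s V : ℝ} {γ : ℝ} (hs : 0 < s) (hs1 : s < 1) (hV : 0 < V)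
    (hL : 0 < Real.log V)
    (hss : ∀ a b : ℕ, 0 < a → 0 < b → (a : ℝ) ≤ V ^ (1 / 128 : ℝ) → (b : ℝ) ≤ V ^ (1 / 128 : ℝ) →
      NDead γ s V a b ∨ ¬ NFin γ s V a b) (a b : ℕ) (ha : 0 < a) (hb : 0 < b) :
    (16 / ((a : ℝ) * b)) ^ (499 / 1000 : ℝ) * (nsig γ s V a b) ^ (499 / 1000 : ℝ) ≤
      KB (501 / 1000) (s ^ (1 / 150 : ℝ)) (nw s V) a b := by
  set S : ℝ := s ^ (1 / 150 : ℝ) with hS
  set y : ℝ := nw s V with hy
  have hS0 : 0 < S := by rw [hS]; exact Real.rpow_pos_of_pos hs _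
  have hS1 : S ≤ 1 := by rw [hS]; exact Real.rpow_le_one hs.le hs1.le (by norm_num)
  have hlog : 0 < Real.log (1 / s) := by
    apply Real.log_pos
    rw [lt_div_iff₀ hs]
    linarith only [hs1]
  have hly : Real.log y = Real.log V / Real.log (1 / s) := by
    rw [hy]; unfold nw; rw [Real.log_exp]
  have hly0 : 0 < Real.log y := by rw [hly]; exact div_pos hL hlog
  have hy1 : 1 < y := by
    rw [hy]; unfold nw
    rw [← hly] 
    exact Real.one_lt_exp_iff.2 hly0
  have hθ1 : (501 / 1000 : ℝ) < 1 := by norm_num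
  have e1 : (1 : ℝ) - 501 / 1000 = 499 / 1000 := by norm_num
  have hm1 := mpB_ge_one (θ := 501 / 1000) (S := S) (y := y) hθ1 hS0 hS1 hy1
  have hma := mm_ge_one (mpB (501 / 1000) S y) hm1 a
  have hmb := mm_ge_one (mpB (501 / 1000) S y) hm1 b
  have ha' : (0 : ℝ) < a := by exact_mod_cast ha
  have hb' : (0 : ℝ) < b := by exact_mod_cast hb
  unfold KB
  rw [e1, mul_assoc]
  refine mul_le_mul_of_nonneg_left ?_ (by (clear * - ha hb; positivity))
  have hn0 := nsig_nonneg (γ := γ) (V := V) hs a b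
  have hn1 := nsig_le_one (γ := γ) (V := V) hs hs1.le a b
  by_cases hcase : 1 ≤ S ^ (499 / 1000 : ℝ) * (mm (mpB (501 / 1000) S y) a *
      mm (mpB (501 / 1000) S y) b)
  · exact (Real.rpow_le_one hn0 hn1 (by norm_num)).trans hcase
  · push Not at hcase
    have hSl : 0 < S ^ (499 / 1000 : ℝ) := Real.rpow_pos_of_pos hS0 _
    have hprod : mm (mpB (501 / 1000) S y) a * mm (mpB (501 / 1000) S y) b <
        S ^ (-(499 / 1000) : ℝ) := by
      rw [Real.rpow_neg hS0.le]
      rw [mul_comm] at hcase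
      rw [← one_div, lt_div_iff₀ hSl]
      exact hcase
    have hsm : ∀ n m : ℕ, 0 < n → 1 ≤ mm (mpB (501 / 1000) S y) m →
        mm (mpB (501 / 1000) S y) n * mm (mpB (501 / 1000) S y) m < S ^ (-(499 / 1000) : ℝ) →
        (n : ℝ) ≤ S ^ (-Real.log y) := by
      intro n m hn hm hlt
      have hn' : (0 : ℝ) < n := by exact_mod_cast hn
      have hmn := mm_ge_one (mpB (501 / 1000) S y) hm1 n
      have h1 : mm (mpB (501 / 1000) S y) n < S ^ (-(499 / 1000) : ℝ) := by
        nlinarith only [hm, hlt, hmn]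
      have h2 : ∀ p : ℕ, p.Prime → p ∣ n →
          mpB (501 / 1000) S y p = (p : ℝ) ^ ((499 / 1000 : ℝ) / Real.log y) := by
        intro p hp hpn
        have h3 := mm_ge_of_dvd (mpB (501 / 1000) S y) hm1 hn.ne' hp hpn
        by_contra hne
        have h4 : mpB (501 / 1000) S y p = S ^ (-(499 / 1000) : ℝ) := by
          unfold mpB at hne ⊢
          rw [e1] at hne ⊢
          by_cases h5 : (p : ℝ) ≤ y
          · rw [if_pos h5] at hne
            exact absurd rfl hne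
          · rw [if_neg h5]
        rw [h4] at h3
        linarith only [h1, h3]
      have h3 := mm_smooth (mpB (501 / 1000) S y) hn.ne' h2
      rw [h3] at h1
      have h4 : ((n : ℝ) ^ ((499 / 1000 : ℝ) / Real.log y)) ^ (Real.log y / (499 / 1000 : ℝ)) <
          (S ^ (-(499 / 1000) : ℝ)) ^ (Real.log y / (499 / 1000 : ℝ)) :=
        Real.rpow_lt_rpow (by (clear * - hn; positivity)) h1 (div_pos hly0 (by norm_num))
      rw [← Real.rpow_mul hn'.le, ← Real.rpow_mul hS0.le] at h4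
      have h5 : (499 / 1000 : ℝ) / Real.log y * (Real.log y / (499 / 1000 : ℝ)) = 1 := by
        (clear * - hly0; field_simp)
      have h6 : -(499 / 1000 : ℝ) * (Real.log y / (499 / 1000 : ℝ)) = -Real.log y := by
        (clear * - hly0; field_simp)
      rw [h5, h6, Real.rpow_one] at h4
      exact h4.le
    have hSV : S ^ (-Real.log y) ≤ V ^ (1 / 128 : ℝ) := by
      rw [hS, hly, Real.rpow_def_of_pos (Real.rpow_pos_of_pos hs _), Real.rpow_def_of_pos hV,
        Real.log_rpow hs]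
      apply Real.exp_le_exp.2
      have h1 : Real.log (1 / s) = - Real.log s := by rw [one_div, Real.log_inv]
      rw [h1]
      rw [h1] at hlog
      have h2 : Real.log s ≠ 0 := by intro h0; rw [h0] at hlog; simp at hlog
      have h3 : 1 / 150 * Real.log s * -(Real.log V / -Real.log s) = 1 / 150 * Real.log V := by
        (clear * - h2; field_simp)
      rw [h3]
      linarith only [hL]
    have haZ := (hsm a b ha hmb hprod).trans hSV
    have hbZ := (hsm b a hb hma (by rw [mul_comm]; exact hprod)).trans hSV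
    have hnS : nsig γ s V a b ≤ S := by
      rcases hss a b ha hb haZ hbZ with h | h
      · rw [nsig_dead h]; exact hS0.le
      · by_cases hd : NDead γ s V a b
        · rw [nsig_dead hd]; exact hS0.le
        · rw [nsig_mid hd h]
    have h1 : (nsig γ s V a b) ^ (499 / 1000 : ℝ) ≤ S ^ (499 / 1000 : ℝ) :=
      Real.rpow_le_rpow hn0 hnS (by norm_num)
    refine h1.trans (le_mul_of_one_le_right hSl.le ?_)
    nlinarith only [hma, hmb]

/-- the induction over the small primes -/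
theorem n9_small {Ω : ℕ → ℕ → Prop} {Γ S y B₀ C : ℝ} {P : Finset ℕ} (hΓ : 0 < Γ)
    (hB₀ : 0 < B₀) (hC : 0 ≤ C)
    (hSPs : ∀ B x : ℝ, 0 < B → B ≤ B₀ → 0 ≤ x → x ≤ B →
      SP (501 / 1000) (B ^ (1 - 501 / 1000 : ℝ)) x
        (1 + 2 * (1 - 501 / 1000) * (B - x) + C * B ^ (2 * (501 / 1000) : ℝ)))
    (hS : 0 < S) (hS1 : S ≤ 1) (hy0 : 0 < y) (hy : 2 ≤ Real.log y) (hSy : 1 ≤ S * y * B₀)
    (hP : ∀ p ∈ P, p.Prime)
    (hbase : LBound Ω (501 / 1000) (fun a b => Γ * KB (501 / 1000) S y a b) P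
      (fun p => 1 / (p : ℝ)) 1) (Q : Finset ℕ) (hQ : ∀ p ∈ Q, p.Prime ∧ (p : ℝ) ≤ y)
    (hQP : ∀ p ∈ Q, p ∉ P) :
    LBound Ω (501 / 1000)
      (fun a b => Γ * (∏ p ∈ Q, cMB (501 / 1000) B₀ C S y p) * KB (501 / 1000) S y a b) (Q ∪ P)
      (fun p => 1 / (p : ℝ)) 1 := by
  classical
  have hθ : (1 / 2 : ℝ) < 501 / 1000 := by norm_num
  have hθ1 : (501 / 1000 : ℝ) < 1 := by norm_num
  have hy1 : 1 < y := by
    by_contra hne
    push Not at hne
    have := Real.log_nonpos hy0.le hne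
    linarith only [hy, this]
  induction Q using Finset.induction_on with
  | empty => simpa using hbase
  | insert p Q hpQ ih =>
    have ih' := ih (fun q hq => hQ q (mem_insert_of_mem hq)) (fun q hq => hQP q (mem_insert_of_mem hq))
    have hp := (hQ p (mem_insert_self p Q)).1
    have hpy := (hQ p (mem_insert_self p Q)).2
    have hprod0 : 0 ≤ ∏ p ∈ Q, cMB (501 / 1000) B₀ C S y p :=
      prod_nonneg fun q hq => cB_nonneg hθ1 hB₀ hC hS hy0 hy hSy (hQ q (mem_insert_of_mem hq)).1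
    have hK0 : ∀ a b, 0 ≤ KB (501 / 1000) S y a b := KB_nonneg hθ1 hS hS1 hy1
    rw [insert_union]
    refine lb_step hθ hθ1 ?_ hp ?_ ?_ ?_ ih' ?_
    · intro q hq
      rcases mem_union.1 hq with h | h
      · exact (hQ q (mem_insert_of_mem h)).1
      · exact hP q h
    · intro h
      rcases mem_union.1 h with h | h
      · exact hpQ h
      · exact hQP p (mem_insert_self p Q) h
    · intro q hq
      have hqp : q.Prime := by
        rcases mem_insert.1 hq with rfl | h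
        · exact hp
        · rcases mem_union.1 h with h | h
          · exact (hQ q (mem_insert_of_mem h)).1
          · exact hP q h
      have hq1 : (1 : ℝ) < q := by exact_mod_cast hqp.one_lt
      refine ⟨by positivity, ?_⟩
      rw [div_lt_one (by linarith only [hq1])]
      exact hq1
    · intro a b
      exact mul_nonneg (mul_nonneg hΓ.le hprod0) (hK0 a b)
    · intro a b ha hb
      have hx1 : xB S y p = 1 / (p : ℝ) := by unfold xB; rw [if_pos hpy]
      have hSP := SP_cB hθ hθ1 hB₀ hSPs hS hy0 hy hSy hp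
      rw [hx1] at hSP
      obtain ⟨hx0, hxB⟩ := xB_le hS hy hp
      have hB0 : 0 < BqB S y p := lt_of_lt_of_le hx0 hxB
      refine ⟨fun l => ((BqB S y p) ^ (1 - 501 / 1000 : ℝ)) ^ l, cMB (501 / 1000) B₀ C S y p,
        pow_zero _, fun l => by positivity, cB_nonneg hθ1 hB₀ hC hS hy0 hy hSy hp, ?_, ?_,
        n9_SPw hSP, ?_⟩
      · intro l
        simp only
        rw [KB_grow hp a b l ha hb, BqB_eq hS hp]
        apply le_of_eq
        ring
      · intro l
        simp only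
        rw [KB_comm, KB_grow hp b a l hb ha, BqB_eq hS hp, KB_comm]
        apply le_of_eq
        ring
      · rw [prod_insert hpQ]
        apply le_of_eq
        ring

theorem n9_outer (hin : ∃ Γ > 0, ∃ s₀ > 0, ∀ γ s V : ℝ, NHyp s₀ s V → ∀ P : Finset ℕ,
    (∀ p ∈ P, p.Prime ∧ nw s V < p) →
    LBound (NOm γ s V) (501 / 1000) (fun a b => Γ * ((16 / ((a : ℝ) * b)) ^ (499 / 1000 : ℝ) *
      (nsig γ s V a b) ^ (499 / 1000 : ℝ))) P (fun p => 1 / (p : ℝ)) 1)
    (hss : ∃ s₀ > 0, ∀ γ s V : ℝ, NHyp s₀ s V → ∀ a b : ℕ, 0 < a → 0 < b →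
    (a : ℝ) ≤ V ^ (1 / 128 : ℝ) → (b : ℝ) ≤ V ^ (1 / 128 : ℝ) →
    NDead γ s V a b ∨ ¬ NFin γ s V a b) :
    ∃ C > 0, ∃ s₀ > 0, ∀ γ s V : ℝ, NHyp s₀ s V → ∀ P : Finset ℕ,
    (∀ p ∈ P, p.Prime) → ∃ K : ℕ → ℕ → ℝ, (∀ a b, 0 ≤ K a b) ∧
      K 1 1 ≤ C * (s ^ (1 / 150 : ℝ)) ^ (499 / 1000 : ℝ) ∧
      LBound (NOm γ s V) (501 / 1000) K P (fun p => 1 / (p : ℝ)) 1 := by
  classical
  have hθ : (1 / 2 : ℝ) < 501 / 1000 := by norm_num
  have hθ1 : (501 / 1000 : ℝ) < 1 := by norm_num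
  obtain ⟨Γ, hΓ, s₁, hs₁, hin⟩ := hin
  obtain ⟨s₂, hs₂, hss⟩ := hss
  obtain ⟨B₀, hB₀, C, hC, hB₀1, hSPs⟩ := SP_small hθ hθ1
  obtain ⟨K₀, hK₀, hprod⟩ := prod_cB hθ hθ1 hB₀ hC
  refine ⟨Γ * K₀ * 16 ^ (499 / 1000 : ℝ), by positivity,
    min (min s₁ s₂) (min B₀ (Real.exp (-1))), by positivity, ?_⟩
  intro γ s V hN P hP
  have hN1 : NHyp s₁ s V := hN.mono ((min_le_left _ _).trans (min_le_left _ _))
  have hN2 : NHyp s₂ s V := hN.mono ((min_le_left _ _).trans (min_le_right _ _))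
  obtain ⟨hs, hs0, hV, hVL⟩ := hN
  have hsB : s ≤ B₀ := hs0.trans ((min_le_right _ _).trans (min_le_left _ _))
  have hse : s ≤ Real.exp (-1) := hs0.trans ((min_le_right _ _).trans (min_le_right _ _))
  have hs1 : s < 1 := lt_of_le_of_lt hse (by rw [Real.exp_lt_one_iff]; norm_num)
  set L : ℝ := Real.log (1 / s) with hLdef
  have hls : Real.log s = -L := by rw [hLdef, one_div, Real.log_inv]; ring
  have hL1 : 1 ≤ L := by
    have h1 := Real.log_le_log hs hse
    rw [Real.log_exp] at h1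
    linarith only [h1, hls]
  have hlV : 100 ≤ Real.log V := by nlinarith only [hVL, hL1]
  set S : ℝ := s ^ (1 / 150 : ℝ) with hS
  set y : ℝ := nw s V with hy
  have hS0 : 0 < S := by rw [hS]; exact Real.rpow_pos_of_pos hs _
  have hS1 : S ≤ 1 := by rw [hS]; exact Real.rpow_le_one hs.le hs1.le (by norm_num)
  have hlS : Real.log S = -(1 / 150) * L := by
    rw [hS, Real.log_rpow hs, hls]
    ring
  have hy0 : 0 < y := by rw [hy]; unfold nw; exact Real.exp_pos _
  have hly : Real.log y = Real.log V / L := by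
    rw [hy]; unfold nw; rw [Real.log_exp]
  have hlyL : 100 * L ≤ Real.log y := by
    rw [hly, le_div_iff₀ (by linarith only [hL1])]
    nlinarith only [hVL]
  have hly2 : 2 ≤ Real.log y := by linarith only [hlyL, hL1]
  have hSy : 1 ≤ S * y * B₀ := by
    have h1 : 0 ≤ Real.log (S * y * B₀) := by
      rw [Real.log_mul (by positivity) hB₀.ne', Real.log_mul hS0.ne' hy0.ne', hlS]
      have h2 := Real.log_le_log hs hsB
      rw [hls] at h2
      linarith only [h2, hlyL, hL1]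
    by_contra hne
    push Not at hne
    have := Real.log_neg (by positivity) hne
    linarith only [h1, this]
  have hSy2 : S ^ (-(2 * (501 / 1000)) : ℝ) ≤ y ^ (501 / 1000 - 1 / 2 : ℝ) := by
    rw [Real.rpow_def_of_pos hS0, Real.rpow_def_of_pos hy0, hlS]
    apply Real.exp_le_exp.2
    linarith only [hlyL, hL1]
  set P₁ : Finset ℕ := P.filter (fun p : ℕ => ¬ (p : ℝ) ≤ y) with hP₁
  set P₂ : Finset ℕ := P.filter (fun p : ℕ => (p : ℝ) ≤ y) with hP₂
  have hin' := hin γ s V hN1 P₁ (by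
    intro p hp
    rw [hP₁, mem_filter] at hp
    exact ⟨hP p hp.1, not_le.1 hp.2⟩)
  have hbase : LBound (NOm γ s V) (501 / 1000) (fun a b => Γ * KB (501 / 1000) S y a b) P₁
      (fun p => 1 / (p : ℝ)) 1 := by
    refine LBound_mono hin' ?_
    intro a b ha hb
    refine mul_le_mul_of_nonneg_left ?_ hΓ.le
    exact n9_dominate hs hs1 hV (by linarith only [hlV]) (hss γ s V hN2) a b ha hb
  have hfin := n9_small hΓ hB₀ hC hSPs hS0 hS1 hy0 hly2 hSy (P := P₁)
    (fun p hp => hP p (mem_filter.1 hp).1) hbase P₂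
    (fun p hp => ⟨hP p (mem_filter.1 hp).1, (mem_filter.1 hp).2⟩)
    (fun p hp hp' => (mem_filter.1 hp').2 (mem_filter.1 hp).2)
  have hun : P₂ ∪ P₁ = P := by
    rw [hP₁, hP₂]
    exact filter_union_filter_not_eq _ _
  rw [hun] at hfin
  have hpK := hprod S y hS0 hS1 hy0 hly2 hSy hSy2 P₂ (fun p hp => hP p (mem_filter.1 hp).1)
  have hprod0 : 0 ≤ ∏ p ∈ P₂, cMB (501 / 1000) B₀ C S y p :=
    prod_nonneg fun q hq => cB_nonneg hθ1 hB₀ hC hS0 hy0 hly2 hSy (hP q (mem_filter.1 hq).1)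
  have hy1 : 1 < y := by
    by_contra hne
    push Not at hne
    have := Real.log_nonpos hy0.le hne
    linarith only [hly2, this]
  refine ⟨_, ?_, ?_, hfin⟩
  · intro a b
    exact mul_nonneg (mul_nonneg hΓ.le hprod0) (KB_nonneg hθ1 hS0 hS1 hy1 a b)
  · unfold KB
    rw [mm_one]
    have e1 : (1 : ℝ) - 501 / 1000 = 499 / 1000 := by norm_num
    rw [e1]
    simp only [Nat.cast_one, mul_one, div_one]
    have h1 : 0 ≤ (16 : ℝ) ^ (499 / 1000 : ℝ) * S ^ (499 / 1000 : ℝ) := by positivity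
    calc Γ * (∏ p ∈ P₂, cMB (501 / 1000) B₀ C S y p) *
          ((16 : ℝ) ^ (499 / 1000 : ℝ) * S ^ (499 / 1000 : ℝ))
        ≤ Γ * K₀ * ((16 : ℝ) ^ (499 / 1000 : ℝ) * S ^ (499 / 1000 : ℝ)) := by
          apply mul_le_mul_of_nonneg_right _ h1
          exact mul_le_mul_of_nonneg_left hpK hΓ.le
      _ = Γ * K₀ * 16 ^ (499 / 1000 : ℝ) * S ^ (499 / 1000 : ℝ) := by ring

theorem outer_N : ∃ C > 0, ∃ s₀ > 0, ∀ γ s V : ℝ, NHyp s₀ s V → ∀ P : Finset ℕ,
    (∀ p ∈ P, p.Prime) → ∃ K : ℕ → ℕ → ℝ, (∀ a b, 0 ≤ K a b) ∧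
      K 1 1 ≤ C * (s ^ (1 / 150 : ℝ)) ^ (499 / 1000 : ℝ) ∧
      LBound (NOm γ s V) (501 / 1000) K P (fun p => 1 / (p : ℝ)) 1 :=
  n9_outer inner_N small_state

end Vale.P028
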