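import Vale.Agent.P028.MathlibUsed
import Vale.Agent.P028.RTypeA
import Vale.Agent.P028.RAnat
import Vale.Agent.P028.H472.C.QChain
import Vale.Agent.P028.RClassNum

/-!
# Combination of the classes

Proof of `typeA_R`. Constants: `C₁, c₁, A, ε₁` of `typeR_good`, `t₀` of `hard_num4`, `C₂, c₂` of
`typeR_class` with `δ/2`, `C₃` of `anat_sg`. `t = log (1/s)`, `x = exp (ε₁ t / 2)`.
For `t` bounded (`t ≤ t₁`): `psum ≤ F^2 ≤ C s^(1+c) F^2`. Let `t` be large.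
`kq σ q` = the least `k` with `sg σ q ≤ exp (2^k)`. Let `k₀` be the largest `k` with `2^k ≤ x`
(`2^k₀ > x/2`). A pair of `TA` (with `f q, f r ≠ 0`), `k = max (kq q) (kq r)`:
(a) `k ≤ k₀`: `typeR_good` with `T = exp (2^k₀)`, `1 + log T ≤ 1 + x`, `hard_num4`;
(b) `k > k₀`, `min ≥ k - 1`: both moduli in the class `{k-1, k}`: `sg ≤ T = exp (2^k)` and
`ψ q ≤ exp (-(1+log T)^(1+δ/2))`: `typeR_class`; sum over `k`;
(c) `k > k₀`, `min ≤ k - 2`: say `kq r = k`: `sg σ r > exp (2^(k-1))`, `sg σ q ≤ exp (2^(k-2))`,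
so `sg σ (cofac r q) ≥ exp (2^(k-1))/2 ≥ exp(x/2)/2`: `anat_sg` with `Y = exp (x/2)/2`.
-/

namespace Vale.P028

open Finset

/-- small arcs: `ψ ≤ exp (-(log (2 + ∑_{p ∣ q} p^(-σ)))^(1+δ))` on the support -/
def PSmall (σ δ : ℝ) (_N : ℕ) (ψ f : ℕ → ℝ) : Prop :=
  ∀ q, f q ≠ 0 → 0 < q ∧ ψ q ≤ Real.exp (-(Real.log (2 + sg σ q)) ^ (1 + δ))

theorem psum_le_sq (R : ℕ → ℕ → Prop) (N : ℕ) (f : ℕ → ℝ) (hf : ∀ q, 0 ≤ f q) :
    psum R N f f ≤ (∑ q ∈ Icc 1 N, f q) ^ 2 := by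
  classical
  unfold psum
  rw [pow_two, sum_mul_sum]
  refine sum_le_sum fun q _ => sum_le_sum fun r _ => ?_
  split_ifs
  · exact le_rfl
  · exact mul_nonneg (hf q) (hf r)

/-- case (c) -/
theorem cross_class {σ : ℝ} {q r k₀ : ℕ} {x : ℝ} (hq : 0 < q) (hr : 0 < r)
    (hx : x < 2 ^ (k₀ + 1)) (hk : k₀ < kq σ r) (hqr : kq σ q + 2 ≤ kq σ r) :
    Real.exp (x / 2) / 2 ≤ sg σ (cofac r q) := by
  obtain ⟨m, hm⟩ : ∃ m, kq σ r = m + 2 := ⟨kq σ r - 2, by omega⟩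
  have h1 : Real.exp (2 ^ (m + 1)) < sg σ r := lt_of_lt_kq (by omega)
  have h2 : sg σ q ≤ Real.exp (2 ^ m) := sg_le_of_kq_le (by omega)
  have h3 := sg_cofac (σ := σ) hq hr
  have h4 : Real.exp (2 ^ (m + 1)) = Real.exp (2 ^ m) ^ 2 := by
    rw [← Real.exp_nat_mul]
    congr 1
    push_cast
    ring
  have h5 : 2 ≤ Real.exp (2 ^ m) := by
    have h6 : (1 : ℝ) ≤ 2 ^ m := one_le_pow₀ (by norm_num)
    have h7 := Real.add_one_le_exp ((2 : ℝ) ^ m)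
    linarith
  have h8 : Real.exp (x / 2) ≤ Real.exp (2 ^ (m + 1)) := by
    apply Real.exp_le_exp.2
    have h9 : (2 : ℝ) ^ k₀ ≤ 2 ^ (m + 1) := pow_le_pow_right₀ (by norm_num) (by omega)
    rw [pow_succ] at hx
    linarith
  rw [h4] at h8 h1
  nlinarith

open Classical in
/-- the part of `f` on the classes `≤ k₀` -/
noncomputable def lowf (σ : ℝ) (k₀ : ℕ) (f : ℕ → ℝ) (q : ℕ) : ℝ := if kq σ q ≤ k₀ then f q else 0

open Classical in
/-- the part of `f` on the classes `k - 1`, `k` -/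
noncomputable def clf (σ : ℝ) (f : ℕ → ℝ) (k q : ℕ) : ℝ :=
  if kq σ q = k ∨ kq σ q + 1 = k then f q else 0

theorem lowf_le {σ : ℝ} {k₀ : ℕ} {f : ℕ → ℝ} (hf : ∀ q, 0 ≤ f q) (q : ℕ) :
    0 ≤ lowf σ k₀ f q ∧ lowf σ k₀ f q ≤ f q := by
  unfold lowf
  split_ifs
  · exact ⟨hf q, le_rfl⟩
  · exact ⟨le_rfl, hf q⟩

theorem clf_le {σ : ℝ} {f : ℕ → ℝ} (hf : ∀ q, 0 ≤ f q) (k q : ℕ) :
    0 ≤ clf σ f k q ∧ clf σ f k q ≤ f q := by
  unfold clf
  split_ifs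
  · exact ⟨hf q, le_rfl⟩
  · exact ⟨le_rfl, hf q⟩

theorem lowf_ne {σ : ℝ} {k₀ : ℕ} {f : ℕ → ℝ} {q : ℕ} (h : lowf σ k₀ f q ≠ 0) :
    f q ≠ 0 ∧ kq σ q ≤ k₀ := by
  unfold lowf at h
  by_cases h1 : kq σ q ≤ k₀
  · rw [if_pos h1] at h
    exact ⟨h, h1⟩
  · rw [if_neg h1] at h
    exact absurd rfl h

theorem clf_ne {σ : ℝ} {f : ℕ → ℝ} {k q : ℕ} (h : clf σ f k q ≠ 0) :
    f q ≠ 0 ∧ (kq σ q = k ∨ kq σ q + 1 = k) := by
  unfold clf at h
  by_cases h1 : kq σ q = k ∨ kq σ q + 1 = k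
  · rw [if_pos h1] at h
    exact ⟨h, h1⟩
  · rw [if_neg h1] at h
    exact absurd rfl h

/-- exceptional pairs -/
def RcY (σ Y s : ℝ) (ψ : ℕ → ℝ) (q r : ℕ) : Prop :=
  Y ≤ sg σ (cofac q r) ∧ (cofac r q : ℝ) * ψ q ≤ s ∧ (cofac q r : ℝ) * ψ r ≤ s

theorem class_split {σ γ s x : ℝ} {ψ f : ℕ → ℝ} {N k₀ : ℕ} (hf0 : ∀ q, 0 ≤ f q)
    (hk2 : x < 2 ^ (k₀ + 1)) :
    psum (TA γ ψ s) N f f ≤ psum (TA γ ψ s) N (lowf σ k₀ f) (lowf σ k₀ f)
      + ∑ k ∈ Icc (k₀ + 1) ((Icc 1 N).sup (kq σ)), psum (TA γ ψ s) N (clf σ f k) (clf σ f k)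
      + psum (RcY σ (Real.exp (x / 2) / 2) s ψ) N f f
      + psum (RcY σ (Real.exp (x / 2) / 2) s ψ) N f f := by
  have h := psum_split4 (TA γ ψ s) (RcY σ (Real.exp (x / 2) / 2) s ψ)
    N f (lowf σ k₀ f) (Icc (k₀ + 1) ((Icc 1 N).sup (kq σ))) (clf σ f) hf0
    (fun q => (lowf_le hf0 q).1) (fun k q => (clf_le hf0 k q).1) (by
      intro q hq r hr hTA _
      have hq0 : 0 < q := (mem_Icc.1 hq).1
      have hr0 : 0 < r := (mem_Icc.1 hr).1
      have hqK : kq σ q ≤ (Icc 1 N).sup (kq σ) := le_sup hq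
      have hrK : kq σ r ≤ (Icc 1 N).sup (kq σ) := le_sup hr
      obtain ⟨⟨-, hsz1, hsz2, -⟩, -, -⟩ := hTA
      by_cases ha : kq σ q ≤ k₀ ∧ kq σ r ≤ k₀
      · left
        exact ⟨if_pos ha.1, if_pos ha.2⟩
      · right
        by_cases hb : kq σ q + 1 < kq σ r
        · right
          right
          exact ⟨cross_class hq0 hr0 hk2 (by omega) (by omega), hsz2, hsz1⟩
        · by_cases hb' : kq σ r + 1 < kq σ q
          · right
            left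
            exact ⟨cross_class hr0 hq0 hk2 (by omega) (by omega), hsz1, hsz2⟩
          · left
            refine ⟨max (kq σ q) (kq σ r), mem_Icc.2 ⟨?_, max_le hqK hrK⟩, ?_, ?_⟩
            · have : k₀ < max (kq σ q) (kq σ r) := by
                rw [lt_max_iff]
                omega
              exact this
            · refine if_pos ?_
              rcases le_total (kq σ q) (kq σ r) with h | h
              · rw [max_eq_right h]; omega
              · rw [max_eq_left h]; omega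
            · refine if_pos ?_
              rcases le_total (kq σ q) (kq σ r) with h | h
              · rw [max_eq_right h]; omega
              · rw [max_eq_left h]; omega)
  have hswap := psum_swapR (RcY σ (Real.exp (x / 2) / 2) s ψ) N f f
  rw [← hswap] at h
  exact h

/-- sum over the classes -/
theorem class_sumr {σ γ s : ℝ} {ψ f : ℕ → ℝ} {N : ℕ} (hf0 : ∀ q, 0 ≤ f q) (S : Finset ℕ) {B : ℝ}
    (hB : 0 ≤ B) (hB1 : ∀ k ∈ S, psum (TA γ ψ s) N (clf σ f k) (clf σ f k) ≤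
      B * ((∑ q ∈ Icc 1 N, clf σ f k q) + (∑ q ∈ Icc 1 N, clf σ f k q) ^ 2)) :
    ∑ k ∈ S, psum (TA γ ψ s) N (clf σ f k) (clf σ f k) ≤
      2 * B * ((∑ q ∈ Icc 1 N, f q) + (∑ q ∈ Icc 1 N, f q) ^ 2) := by
  classical
  set F : ℝ := ∑ q ∈ Icc 1 N, f q with hFdef
  have hF0 : 0 ≤ F := sum_nonneg fun q _ => hf0 q
  have hB2 : ∑ k ∈ S, ∑ q ∈ Icc 1 N, clf σ f k q ≤ 2 * F := by
    rw [sum_comm, hFdef, mul_sum]
    refine sum_le_sum fun q _ => ?_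
    have h1 : ∀ k ∈ S, clf σ f k q ≤
        (if kq σ q = k then f q else 0) + (if kq σ q + 1 = k then f q else 0) := by
      intro k _
      unfold clf
      have := hf0 q
      by_cases h2 : kq σ q = k
      · rw [if_pos (Or.inl h2), if_pos h2]
        split_ifs <;> linarith
      · by_cases h3 : kq σ q + 1 = k
        · rw [if_pos (Or.inr h3), if_neg h2, if_pos h3]
          linarith
        · rw [if_neg (by tauto), if_neg h2, if_neg h3]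
          linarith
    refine (sum_le_sum h1).trans ?_
    rw [sum_add_distrib, sum_ite_eq, sum_ite_eq]
    have := hf0 q
    split_ifs <;> linarith
  refine (sum_le_sum hB1).trans ?_
  rw [← mul_sum, sum_add_distrib]
  have h1 : ∑ k ∈ S, (∑ q ∈ Icc 1 N, clf σ f k q) ^ 2 ≤ (2 * F) * F := by
    refine le_trans ?_ (mul_le_mul_of_nonneg_right hB2 hF0)
    rw [sum_mul]
    refine sum_le_sum fun k _ => ?_
    rw [pow_two]
    exact mul_le_mul_of_nonneg_left (sum_le_sum fun q _ => (clf_le hf0 k q).2)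
      (sum_nonneg fun q _ => (clf_le hf0 k q).1)
  calc _ ≤ B * (2 * F + (2 * F) * F) := mul_le_mul_of_nonneg_left (add_le_add hB2 h1) hB
    _ = _ := by ring

/-- the exceptional pairs -/
theorem class_exc {C₃ e t s x c F : ℝ} (hC₃ : 0 < C₃) (he : 0 < e) (ht0 : 0 ≤ t) (hs : 0 < s)
    (hs1 : s ≤ 1) (ht : t = Real.log (1 / s)) (hx : x = Real.exp (e * t)) (hc : c ≤ 1)
    (hF0 : 0 ≤ F) :
    C₃ / (Real.exp (x / 2) / 2) * (s * s) ^ (1 - 501 / 1000 : ℝ) * F ^ (2 * (501 / 1000) : ℝ) ≤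
        C₃ * (2 * Real.exp (4 / e ^ 2)) * s ^ (1 + c) * (F + F ^ 2) := by
  have hFF : 0 ≤ F + F ^ 2 := add_nonneg hF0 (sq_nonneg F)
  have hlogs : Real.log (1 / s) = -Real.log s := by rw [one_div, Real.log_inv]
  have h1 : C₃ / (Real.exp (x / 2) / 2) ≤ C₃ * (2 * Real.exp (4 / e ^ 2)) * s ^ (1 + c) := by
    have h2 := class_num2 he t ht0
    rw [← hx] at h2
    have h3 : 1 / (Real.exp (x / 2) / 2) = 2 * Real.exp (-(x / 2)) := by
      rw [Real.exp_neg]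
      field_simp
    have h4 : Real.exp (-(2 * t)) = s ^ (2 : ℝ) := by
      rw [Real.rpow_def_of_pos hs, ht, hlogs]
      congr 1
      ring
    have h5 : s ^ (2 : ℝ) ≤ s ^ (1 + c) :=
      Real.rpow_le_rpow_of_exponent_ge hs hs1 (by linarith)
    calc C₃ / (Real.exp (x / 2) / 2) = C₃ * (1 / (Real.exp (x / 2) / 2)) := by ring
      _ ≤ C₃ * ((2 * Real.exp (4 / e ^ 2)) * s ^ (1 + c)) := by
          apply mul_le_mul_of_nonneg_left _ hC₃.le
          rw [h3]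
          refine h2.trans ?_
          rw [h4]
          exact mul_le_mul_of_nonneg_left h5 (by positivity)
      _ = _ := by ring
  have h2 : (s * s) ^ (1 - 501 / 1000 : ℝ) ≤ 1 :=
    Real.rpow_le_one (by positivity) (by nlinarith) (by norm_num)
  have h3 : F ^ (2 * (501 / 1000) : ℝ) ≤ F + F ^ 2 :=
    rpow_le_add_sq hF0 (by norm_num) (by norm_num)
  have h5 : 0 ≤ C₃ / (Real.exp (x / 2) / 2) := by positivity
  calc C₃ / (Real.exp (x / 2) / 2) * (s * s) ^ (1 - 501 / 1000 : ℝ) * F ^ (2 * (501 / 1000) : ℝ)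
      ≤ C₃ / (Real.exp (x / 2) / 2) * 1 * (F + F ^ 2) :=
        mul_le_mul (mul_le_mul_of_nonneg_left h2 h5) h3 (Real.rpow_nonneg hF0 _) (by positivity)
    _ = C₃ / (Real.exp (x / 2) / 2) * (F + F ^ 2) := by ring
    _ ≤ _ := mul_le_mul_of_nonneg_right h1 hFF

/-- bounded `t` -/
theorem class_bounded {γ s t₁ c : ℝ} {ψ f : ℕ → ℝ} {N : ℕ} (hf0 : ∀ q, 0 ≤ f q) (hs : 0 < s)
    (hc : 0 < c) (ht : Real.log (1 / s) ≤ t₁) :
    psum (TA γ ψ s) N f f ≤ Real.exp (t₁ * (1 + c)) * s ^ (1 + c) *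
      ((∑ q ∈ Icc 1 N, f q) + (∑ q ∈ Icc 1 N, f q) ^ 2) := by
  have hF0 : 0 ≤ ∑ q ∈ Icc 1 N, f q := sum_nonneg fun q _ => hf0 q
  have hlogs : Real.log (1 / s) = -Real.log s := by rw [one_div, Real.log_inv]
  have h1 := psum_le_sq (TA γ ψ s) N f hf0
  have h2 : Real.exp (-(t₁ * (1 + c))) ≤ s ^ (1 + c) := by
    rw [Real.rpow_def_of_pos hs]
    apply Real.exp_le_exp.2
    rw [hlogs] at ht
    nlinarith
  have h3 : 1 ≤ Real.exp (t₁ * (1 + c)) * s ^ (1 + c) := by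
    calc (1 : ℝ) = Real.exp (t₁ * (1 + c)) * Real.exp (-(t₁ * (1 + c))) := by
          rw [← Real.exp_add, add_neg_cancel, Real.exp_zero]
      _ ≤ _ := mul_le_mul_of_nonneg_left h2 (Real.exp_pos _).le
  calc psum (TA γ ψ s) N f f ≤ (∑ q ∈ Icc 1 N, f q) ^ 2 := h1
    _ ≤ 1 * ((∑ q ∈ Icc 1 N, f q) + (∑ q ∈ Icc 1 N, f q) ^ 2) := by linarith
    _ ≤ _ := mul_le_mul_of_nonneg_right h3 (add_nonneg hF0 (sq_nonneg _))

theorem typeA_R {σ : ℝ} (hσ : σ < 1) (hσ' : 3 / 4 ≤ σ) {δ : ℝ} (hδ : 0 < δ) :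
    TypeAP (PSmall σ δ) := by
  obtain ⟨C₁, c₁, A, ε₁, hC₁, hc₁, hA, hε₁, hG⟩ := typeR_good hσ
  obtain ⟨t₀, ht₀, hN4⟩ := hard_num4 hA hε₁
  obtain ⟨C₂, c₂, hC₂, hc₂, hCl⟩ := typeR_class hσ (half_pos hδ)
  obtain ⟨C₃, hC₃, hAn⟩ := anat_sg hσ'
  obtain ⟨y₀, hy₀, hy⟩ := class_num hδ
  obtain ⟨e, he⟩ : ∃ e : ℝ, e = ε₁ / 2 := ⟨_, rfl⟩
  have he0 : 0 < e := by rw [he]; linarith
  obtain ⟨t₁, ht₁⟩ : ∃ t₁ : ℝ, t₁ = max t₀ (Real.log (4 * y₀) / e) := ⟨_, rfl⟩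
  have ht₁0 : t₀ ≤ t₁ := by rw [ht₁]; exact le_max_left _ _
  have ht₁1 : Real.log (4 * y₀) / e ≤ t₁ := by rw [ht₁]; exact le_max_right _ _
  obtain ⟨c, hc⟩ : ∃ c : ℝ, c = min (min c₁ c₂) 1 := ⟨_, rfl⟩
  have hc0 : 0 < c := by rw [hc]; exact lt_min (lt_min hc₁ hc₂) one_pos
  have hcc1 : c ≤ c₁ := by rw [hc]; exact (min_le_left _ _).trans (min_le_left _ _)
  have hcc2 : c ≤ c₂ := by rw [hc]; exact (min_le_left _ _).trans (min_le_right _ _)
  have hcc3 : c ≤ 1 := by rw [hc]; exact min_le_right _ _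
  obtain ⟨K, hK⟩ : ∃ K : ℝ, K = 2 * Real.exp (4 / e ^ 2) := ⟨_, rfl⟩
  have hK0 : 0 < K := by rw [hK]; positivity
  refine ⟨Real.exp (t₁ * (1 + c)) + C₁ + 2 * C₂ + 2 * (C₃ * K), c, by positivity, hc0, ?_⟩
  intro γ s hs hs3 N ψ f hψ hf hP
  have hf0 : ∀ q, 0 ≤ f q := fun q => (hf q).1
  obtain ⟨G, hGdef⟩ : ∃ G : ℝ, G = (∑ q ∈ Icc 1 N, f q) + (∑ q ∈ Icc 1 N, f q) ^ 2 := ⟨_, rfl⟩
  have hF0 : 0 ≤ ∑ q ∈ Icc 1 N, f q := sum_nonneg fun q _ => hf0 q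
  have hG0 : 0 ≤ G := by rw [hGdef]; positivity
  have hs1 : s ≤ 1 := by linarith only [hs3]
  have hp : 0 < s ^ (1 + c) := Real.rpow_pos_of_pos hs _
  have hexpand : (Real.exp (t₁ * (1 + c)) + C₁ + 2 * C₂ + 2 * (C₃ * K)) * s ^ (1 + c) * G
      = Real.exp (t₁ * (1 + c)) * s ^ (1 + c) * G + (C₁ * s ^ (1 + c) * G
        + 2 * (C₂ * s ^ (1 + c)) * G + C₃ * K * s ^ (1 + c) * G + C₃ * K * s ^ (1 + c) * G) := by
    ring
  have hE : 0 ≤ Real.exp (t₁ * (1 + c)) * s ^ (1 + c) * G := by positivity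
  have hE1 : 0 ≤ C₁ * s ^ (1 + c) * G := by positivity
  have hE2 : 0 ≤ 2 * (C₂ * s ^ (1 + c)) * G := by positivity
  have hE3 : 0 ≤ C₃ * K * s ^ (1 + c) * G := by positivity
  rw [← hGdef, hexpand]
  by_cases ht : Real.log (1 / s) ≤ t₁
  · have h1 := class_bounded (γ := γ) (ψ := ψ) (N := N) hf0 hs hc0 ht
    rw [← hGdef] at h1
    linarith only [h1, hE1, hE2, hE3]
  · rw [not_le] at ht
    obtain ⟨t, htdef⟩ : ∃ t : ℝ, t = Real.log (1 / s) := ⟨_, rfl⟩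
    rw [← htdef] at ht
    have ht0 : 0 < t := by linarith only [ht, ht₁0, ht₀]
    obtain ⟨x, hx⟩ : ∃ x : ℝ, x = Real.exp (e * t) := ⟨_, rfl⟩
    have hx4 : 4 * y₀ ≤ x := by
      rw [hx]
      have h1 : Real.log (4 * y₀) ≤ e * t := by
        rw [div_le_iff₀ he0] at ht₁1
        have h2 : t₁ * e ≤ t * e := mul_le_mul_of_nonneg_right ht.le he0.le
        linarith only [ht₁1, h2]
      calc 4 * y₀ = Real.exp (Real.log (4 * y₀)) := (Real.exp_log (by linarith only [hy₀])).symm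
        _ ≤ _ := Real.exp_le_exp.2 h1
    obtain ⟨k₀, hk1, hk2⟩ := exists_k0 (x := x) (by linarith only [hx4, hy₀])
    have hk₀ : 2 ≤ k₀ := by
      by_contra hcon
      have : k₀ + 1 ≤ 2 := by omega
      have h3 : (2 : ℝ) ^ (k₀ + 1) ≤ 2 ^ 2 := pow_le_pow_right₀ (by norm_num) this
      norm_num at h3
      linarith only [h3, hk2, hx4, hy₀]
    have hsplit := class_split (σ := σ) (γ := γ) (s := s) (ψ := ψ) (N := N) hf0 hk2
    -- (a)
    have hA1 : psum (TA γ ψ s) N (lowf σ k₀ f) (lowf σ k₀ f) ≤ C₁ * s ^ (1 + c) * G := by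
      have h1 := hG γ s (Real.exp (2 ^ k₀)) hs hs3 (Real.one_le_exp (by positivity)) (by
        rw [Real.log_exp, ← htdef]
        refine hN4 (1 + 2 ^ k₀) t (by linarith only [ht, ht₁0]) ?_ ?_
        · have : (0 : ℝ) ≤ 2 ^ k₀ := by positivity
          linarith only [this]
        · rw [← he, ← hx]
          linarith only [hk1]) N ψ (lowf σ k₀ f) hψ
        (fun q => ⟨(lowf_le hf0 q).1, (lowf_le hf0 q).2.trans (hf q).2⟩) (by
        intro q hq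
        exact ⟨(hP q (lowf_ne hq).1).1, sg_le_of_kq_le (lowf_ne hq).2⟩)
      have h2 : s ^ (1 + c₁) ≤ s ^ (1 + c) :=
        Real.rpow_le_rpow_of_exponent_ge hs hs1 (by linarith only [hcc1])
      have h3 : ∑ q ∈ Icc 1 N, lowf σ k₀ f q ≤ ∑ q ∈ Icc 1 N, f q :=
        sum_le_sum fun q _ => (lowf_le hf0 q).2
      have h4 : 0 ≤ ∑ q ∈ Icc 1 N, lowf σ k₀ f q := sum_nonneg fun q _ => (lowf_le hf0 q).1
      refine h1.trans (mul_le_mul (mul_le_mul_of_nonneg_left h2 hC₁.le) ?_ (by positivity)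
        (by positivity))
      rw [hGdef]
      exact add_le_add h3 (pow_le_pow_left₀ h4 h3 2)
    -- (b)
    have hB1 : ∀ k ∈ Icc (k₀ + 1) ((Icc 1 N).sup (kq σ)),
        psum (TA γ ψ s) N (clf σ f k) (clf σ f k) ≤ (C₂ * s ^ (1 + c)) *
          ((∑ q ∈ Icc 1 N, clf σ f k q) + (∑ q ∈ Icc 1 N, clf σ f k q) ^ 2) := by
      intro k hk
      have hk' : k₀ + 1 ≤ k := (mem_Icc.1 hk).1
      obtain ⟨m, hm⟩ : ∃ m, k = m + 2 := ⟨k - 2, by omega⟩
      have h4m : (2 : ℝ) ^ k = 4 * 2 ^ m := by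
        rw [hm, pow_add]
        ring
      have hym : y₀ ≤ 2 ^ m := by
        have h5 : (2 : ℝ) ^ (k₀ + 1) ≤ 2 ^ k := pow_le_pow_right₀ (by norm_num) hk'
        rw [h4m] at h5
        linarith only [h5, hk2, hx4]
      have h1 := hCl γ s (Real.exp (2 ^ k)) hs hs3 (Real.one_le_exp (by positivity)) N ψ
        (clf σ f k) hψ (fun q => ⟨(clf_le hf0 k q).1, (clf_le hf0 k q).2.trans (hf q).2⟩) (by
        intro q hq
        obtain ⟨hq1, hq2⟩ := clf_ne hq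
        have h6 := hP q hq1
        refine ⟨h6.1, sg_le_of_kq_le (by omega), h6.2.trans (Real.exp_le_exp.2 ?_)⟩
        rw [Real.log_exp, neg_le_neg_iff, h4m]
        have h7 : Real.exp (2 ^ m) < sg σ q := lt_of_lt_kq (by omega)
        have h8 : (2 : ℝ) ^ m ≤ Real.log (2 + sg σ q) := by
          rw [Real.le_log_iff_exp_le (by linarith only [Real.exp_pos ((2 : ℝ) ^ m), h7])]
          linarith only [h7]
        exact (hy _ hym).trans (Real.rpow_le_rpow (by positivity) h8 (by linarith only [hδ])))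
      have h2 : s ^ (1 + c₂) ≤ s ^ (1 + c) :=
        Real.rpow_le_rpow_of_exponent_ge hs hs1 (by linarith only [hcc2])
      refine h1.trans (mul_le_mul_of_nonneg_right (mul_le_mul_of_nonneg_left h2 hC₂.le) ?_)
      exact add_nonneg (sum_nonneg fun q _ => (clf_le hf0 k q).1) (sq_nonneg _)
    have hB3 := class_sumr hf0 _ (by positivity) hB1
    rw [← hGdef] at hB3
    -- (c)
    have hD0 : psum (RcY σ (Real.exp (x / 2) / 2) s ψ) N f f ≤ _ :=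
      hAn (Real.exp (x / 2) / 2) s N ψ f (by positivity) hs hψ hf
    have hD1 := class_exc hC₃ he0 ht0.le hs hs1 htdef hx hcc3 hF0
    rw [← hK, ← hGdef] at hD1
    have hfin := hD0.trans hD1
    linarith only [hsplit, hA1, hB3, hfin, hE]

end Vale.P028
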