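import Vale.Agent.P028.MathlibUsed
import Vale.Agent.P028.UTypeA
import Vale.Agent.P028.UAnat
import Vale.Agent.P028.H472.C.QChain
import Vale.Agent.P028.H472.C.RClass

/-!
# Combination of the classes, `∑_{p ∣ q} (log p)^A / p` version

Copy of `RClass.lean`. `δ' = δ/2`, `A, C, c₁, ε₁, t₀` of `typeUH` (with δ'), `C₃` of `anat_hg`,
`t = log (1/s)`, `x = exp (ε₁ A / 2 * t) ≥ exp (4 t)`, `2^k₀ ≤ x < 2^(k₀+1)`,
`kh A q` = the least `k` with `hg A q ≤ 2^k`. `t` bounded: `class_bounded`. For large `t`, pairs with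
(a) both classes `≤ k₀`: the good part of `typeUH` with `H = 2^k₀`, `H^(1/A) ≤ exp (ε₁/2 t)`;
(b) `k = max > k₀`, `min ≥ k - 1`: class part of `typeUH` with `H = 2^k`:
`hg A q > 2^(k-2) = H/4`, `ψ q ≤ exp (-(1 + hg A q)^((1+δ)/A))` and
`(H/4)^((1+δ)/A) ≥ (H^(1/A))^(1+δ')` for `H ≥ 4^(2 (1+δ)/δ)`; sum over `k`;
(c) `k = kh r > k₀`, `kh q ≤ k - 2`: `hg A (cofac r q) ≥ 2^(k-1) - 2^(k-2) ≥ 2^(k₀-1) ≥ x/4`:
`anat_hg` with `Y = x/4`, `C₃/Y ≤ 4 C₃ s^4`.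
-/

namespace Vale.P028

open Finset

/-- small arcs: `ψ ≤ exp (-(1 + ∑_{p ∣ q} (log p)^A / p)^((1+δ)/A))` on the support -/
def PSmallU (A δ : ℝ) (_N : ℕ) (ψ f : ℕ → ℝ) : Prop :=
  ∀ q, f q ≠ 0 → 0 < q ∧ ψ q ≤ Real.exp (-(1 + hg A q) ^ ((1 + δ) / A))

theorem exists_classU (A : ℝ) (q : ℕ) : ∃ k : ℕ, hg A q ≤ 2 ^ k := by
  obtain ⟨k, hk⟩ := pow_unbounded_of_one_lt (hg A q) (by norm_num : (1 : ℝ) < 2)
  exact ⟨k, hk.le⟩

open Classical in
/-- the class of `q` -/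
noncomputable def kh (A : ℝ) (q : ℕ) : ℕ := Nat.find (exists_classU A q)

theorem kh_spec (A : ℝ) (q : ℕ) : hg A q ≤ 2 ^ kh A q := by
  classical
  exact Nat.find_spec (exists_classU A q)

theorem lt_of_lt_kh {A : ℝ} {q j : ℕ} (h : j < kh A q) : (2 : ℝ) ^ j < hg A q := by
  classical
  exact not_le.1 (Nat.find_min (exists_classU A q) h)

theorem hg_le_of_kh_le {A : ℝ} {q k : ℕ} (h : kh A q ≤ k) : hg A q ≤ 2 ^ k :=
  (kh_spec A q).trans (pow_le_pow_right₀ (by norm_num) h)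

/-- case (c) -/
theorem cross_classU {A : ℝ} {q r k₀ : ℕ} {x : ℝ} (hq : 0 < q) (hr : 0 < r)
    (hx : x < 2 ^ (k₀ + 1)) (hk : k₀ < kh A r) (hqr : kh A q + 2 ≤ kh A r) :
    x / 4 ≤ hg A (cofac r q) := by
  obtain ⟨m, hm⟩ : ∃ m, kh A r = m + 2 := ⟨kh A r - 2, by omega⟩
  have h1 : (2 : ℝ) ^ (m + 1) < hg A r := lt_of_lt_kh (by omega)
  have h2 : hg A q ≤ 2 ^ m := hg_le_of_kh_le (by omega)
  have h3 := hg_cofac (A := A) hq hr
  have h9 : (2 : ℝ) ^ k₀ ≤ 2 ^ (m + 1) := pow_le_pow_right₀ (by norm_num) (by omega)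
  rw [pow_succ] at hx h1 h9
  linarith

open Classical in
/-- the part of `f` on the classes `≤ k₀` -/
noncomputable def lowU (κ : ℕ → ℕ) (k₀ : ℕ) (f : ℕ → ℝ) (q : ℕ) : ℝ := if κ q ≤ k₀ then f q else 0

open Classical in
/-- the part of `f` on the classes `k - 1`, `k` -/
noncomputable def clU (κ : ℕ → ℕ) (f : ℕ → ℝ) (k q : ℕ) : ℝ :=
  if κ q = k ∨ κ q + 1 = k then f q else 0

theorem lowU_le {κ : ℕ → ℕ} {k₀ : ℕ} {f : ℕ → ℝ} (hf : ∀ q, 0 ≤ f q) (q : ℕ) :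
    0 ≤ lowU κ k₀ f q ∧ lowU κ k₀ f q ≤ f q := by
  unfold lowU
  split_ifs
  · exact ⟨hf q, le_rfl⟩
  · exact ⟨le_rfl, hf q⟩

theorem clU_le {κ : ℕ → ℕ} {f : ℕ → ℝ} (hf : ∀ q, 0 ≤ f q) (k q : ℕ) :
    0 ≤ clU κ f k q ∧ clU κ f k q ≤ f q := by
  unfold clU
  split_ifs
  · exact ⟨hf q, le_rfl⟩
  · exact ⟨le_rfl, hf q⟩

theorem lowU_ne {κ : ℕ → ℕ} {k₀ : ℕ} {f : ℕ → ℝ} {q : ℕ} (h : lowU κ k₀ f q ≠ 0) :
    f q ≠ 0 ∧ κ q ≤ k₀ := by
  unfold lowU at h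
  by_cases h1 : κ q ≤ k₀
  · rw [if_pos h1] at h
    exact ⟨h, h1⟩
  · rw [if_neg h1] at h
    exact absurd rfl h

theorem clU_ne {κ : ℕ → ℕ} {f : ℕ → ℝ} {k q : ℕ} (h : clU κ f k q ≠ 0) :
    f q ≠ 0 ∧ (κ q = k ∨ κ q + 1 = k) := by
  unfold clU at h
  by_cases h1 : κ q = k ∨ κ q + 1 = k
  · rw [if_pos h1] at h
    exact ⟨h, h1⟩
  · rw [if_neg h1] at h
    exact absurd rfl h

/-- exceptional pairs -/
def RcU (A Y s : ℝ) (ψ : ℕ → ℝ) (q r : ℕ) : Prop :=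
  Y ≤ hg A (cofac q r) ∧ (cofac r q : ℝ) * ψ q ≤ s ∧ (cofac q r : ℝ) * ψ r ≤ s

theorem class_splitU {A γ s x : ℝ} {ψ f : ℕ → ℝ} {N k₀ : ℕ} (hf0 : ∀ q, 0 ≤ f q)
    (hk2 : x < 2 ^ (k₀ + 1)) :
    psum (TA γ ψ s) N f f ≤ psum (TA γ ψ s) N (lowU (kh A) k₀ f) (lowU (kh A) k₀ f)
      + ∑ k ∈ Icc (k₀ + 1) ((Icc 1 N).sup (kh A)), psum (TA γ ψ s) N (clU (kh A) f k)
        (clU (kh A) f k)
      + psum (RcU A (x / 4) s ψ) N f f
      + psum (RcU A (x / 4) s ψ) N f f := by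
  have h := psum_split4 (TA γ ψ s) (RcU A (x / 4) s ψ)
    N f (lowU (kh A) k₀ f) (Icc (k₀ + 1) ((Icc 1 N).sup (kh A))) (clU (kh A) f) hf0
    (fun q => (lowU_le hf0 q).1) (fun k q => (clU_le hf0 k q).1) (by
      intro q hq r hr hTA _
      have hq0 : 0 < q := (mem_Icc.1 hq).1
      have hr0 : 0 < r := (mem_Icc.1 hr).1
      have hqK : kh A q ≤ (Icc 1 N).sup (kh A) := le_sup hq
      have hrK : kh A r ≤ (Icc 1 N).sup (kh A) := le_sup hr
      obtain ⟨⟨-, hsz1, hsz2, -⟩, -, -⟩ := hTA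
      by_cases ha : kh A q ≤ k₀ ∧ kh A r ≤ k₀
      · left
        exact ⟨if_pos ha.1, if_pos ha.2⟩
      · right
        by_cases hb : kh A q + 1 < kh A r
        · right
          right
          exact ⟨cross_classU hq0 hr0 hk2 (by omega) (by omega), hsz2, hsz1⟩
        · by_cases hb' : kh A r + 1 < kh A q
          · right
            left
            exact ⟨cross_classU hr0 hq0 hk2 (by omega) (by omega), hsz1, hsz2⟩
          · left
            refine ⟨max (kh A q) (kh A r), mem_Icc.2 ⟨?_, max_le hqK hrK⟩, ?_, ?_⟩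
            · have : k₀ < max (kh A q) (kh A r) := by
                rw [lt_max_iff]
                omega
              exact this
            · refine if_pos ?_
              rcases le_total (kh A q) (kh A r) with h | h
              · rw [max_eq_right h]; omega
              · rw [max_eq_left h]; omega
            · refine if_pos ?_
              rcases le_total (kh A q) (kh A r) with h | h
              · rw [max_eq_right h]; omega
              · rw [max_eq_left h]; omega)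
  have hswap := psum_swapR (RcU A (x / 4) s ψ) N f f
  rw [← hswap] at h
  exact h

/-- sum over the classes -/
theorem class_sumU {γ s : ℝ} {κ : ℕ → ℕ} {ψ f : ℕ → ℝ} {N : ℕ} (hf0 : ∀ q, 0 ≤ f q) (S : Finset ℕ)
    {B : ℝ} (hB : 0 ≤ B) (hB1 : ∀ k ∈ S, psum (TA γ ψ s) N (clU κ f k) (clU κ f k) ≤
      B * ((∑ q ∈ Icc 1 N, clU κ f k q) + (∑ q ∈ Icc 1 N, clU κ f k q) ^ 2)) :
    ∑ k ∈ S, psum (TA γ ψ s) N (clU κ f k) (clU κ f k) ≤
      2 * B * ((∑ q ∈ Icc 1 N, f q) + (∑ q ∈ Icc 1 N, f q) ^ 2) := by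
  classical
  set F : ℝ := ∑ q ∈ Icc 1 N, f q with hFdef
  have hF0 : 0 ≤ F := sum_nonneg fun q _ => hf0 q
  have hB2 : ∑ k ∈ S, ∑ q ∈ Icc 1 N, clU κ f k q ≤ 2 * F := by
    rw [sum_comm, hFdef, mul_sum]
    refine sum_le_sum fun q _ => ?_
    have h1 : ∀ k ∈ S, clU κ f k q ≤
        (if κ q = k then f q else 0) + (if κ q + 1 = k then f q else 0) := by
      intro k _
      unfold clU
      have := hf0 q
      by_cases h2 : κ q = k
      · rw [if_pos (Or.inl h2), if_pos h2]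
        split_ifs <;> linarith
      · by_cases h3 : κ q + 1 = k
        · rw [if_pos (Or.inr h3), if_neg h2, if_pos h3]
          linarith
        · rw [if_neg (by tauto), if_neg h2, if_neg h3]
          linarith
    refine (sum_le_sum h1).trans ?_
    rw [sum_add_distrib, sum_ite_eq, sum_ite_eq]
    have := hf0 q
    split_ifs <;> linarith
  refine (sum_le_sum hB1).trans ?_
  rw [← mul_sum, sum_add_distrib]
  have h1 : ∑ k ∈ S, (∑ q ∈ Icc 1 N, clU κ f k q) ^ 2 ≤ (2 * F) * F := by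
    refine le_trans ?_ (mul_le_mul_of_nonneg_right hB2 hF0)
    rw [sum_mul]
    refine sum_le_sum fun k _ => ?_
    rw [pow_two]
    exact mul_le_mul_of_nonneg_left (sum_le_sum fun q _ => (clU_le hf0 k q).2)
      (sum_nonneg fun q _ => (clU_le hf0 k q).1)
  calc _ ≤ B * (2 * F + (2 * F) * F) := mul_le_mul_of_nonneg_left (add_le_add hB2 h1) hB
    _ = _ := by ring

/-- the exceptional pairs -/
theorem class_excU {C₃ e t s x c F : ℝ} (hC₃ : 0 < C₃) (he : 4 ≤ e) (ht0 : 0 ≤ t) (hs : 0 < s)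
    (hs1 : s ≤ 1) (ht : t = Real.log (1 / s)) (hx : x = Real.exp (e * t)) (hc : c ≤ 1)
    (hF0 : 0 ≤ F) :
    C₃ / (x / 4) * (s * s) ^ (1 - 501 / 1000 : ℝ) * F ^ (2 * (501 / 1000) : ℝ) ≤
        C₃ * 4 * s ^ (1 + c) * (F + F ^ 2) := by
  have hFF : 0 ≤ F + F ^ 2 := add_nonneg hF0 (sq_nonneg F)
  have hlogs : Real.log (1 / s) = -Real.log s := by rw [one_div, Real.log_inv]
  have hx0 : 0 < x := by rw [hx]; exact Real.exp_pos _
  have h1 : C₃ / (x / 4) ≤ C₃ * 4 * s ^ (1 + c) := by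
    have h3 : 1 / x ≤ s ^ (1 + c) := by
      rw [hx, one_div, ← Real.exp_neg, Real.rpow_def_of_pos hs]
      apply Real.exp_le_exp.2
      have : Real.log s = -t := by rw [ht, hlogs, neg_neg]
      rw [this]
      nlinarith
    calc C₃ / (x / 4) = C₃ * 4 * (1 / x) := by
          field_simp
      _ ≤ _ := mul_le_mul_of_nonneg_left h3 (by positivity)
  have h2 : (s * s) ^ (1 - 501 / 1000 : ℝ) ≤ 1 :=
    Real.rpow_le_one (by positivity) (by nlinarith) (by norm_num)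
  have h3 : F ^ (2 * (501 / 1000) : ℝ) ≤ F + F ^ 2 :=
    rpow_le_add_sq hF0 (by norm_num) (by norm_num)
  have h5 : 0 ≤ C₃ / (x / 4) := by positivity
  calc C₃ / (x / 4) * (s * s) ^ (1 - 501 / 1000 : ℝ) * F ^ (2 * (501 / 1000) : ℝ)
      ≤ C₃ / (x / 4) * 1 * (F + F ^ 2) :=
        mul_le_mul (mul_le_mul_of_nonneg_left h2 h5) h3 (Real.rpow_nonneg hF0 _) (by positivity)
    _ = C₃ / (x / 4) * (F + F ^ 2) := by ring
    _ ≤ _ := mul_le_mul_of_nonneg_right h1 hFF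

/-- the exponents: `(H^(1/A))^(1+δ/2) ≤ (H/4)^((1+δ)/A)` for large `H` -/
theorem class_numU {A δ : ℝ} (hA : 1 ≤ A) (hδ : 0 < δ) {H : ℝ}
    (hH : (4 : ℝ) ^ (2 * (1 + δ) / δ) ≤ H) :
    (H ^ (1 / A)) ^ (1 + δ / 2) ≤ (H / 4) ^ ((1 + δ) / A) := by
  have hA0 : 0 < A := by linarith
  have h40 : (0 : ℝ) < (4 : ℝ) ^ (2 * (1 + δ) / δ) := Real.rpow_pos_of_pos (by norm_num) _
  have hH0 : 0 < H := h40.trans_le hH
  have h1 : (4 : ℝ) ^ ((1 + δ) / A) ≤ H ^ (δ / (2 * A)) := by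
    have h2 := Real.rpow_le_rpow h40.le hH (by positivity : 0 ≤ δ / (2 * A))
    rw [← Real.rpow_mul (by norm_num)] at h2
    have h3 : 2 * (1 + δ) / δ * (δ / (2 * A)) = (1 + δ) / A := by
      field_simp
    rw [h3] at h2
    exact h2
  rw [Real.div_rpow hH0.le (by norm_num), le_div_iff₀ (Real.rpow_pos_of_pos (by norm_num) _),
    ← Real.rpow_mul hH0.le]
  calc H ^ (1 / A * (1 + δ / 2)) * (4 : ℝ) ^ ((1 + δ) / A)
      ≤ H ^ (1 / A * (1 + δ / 2)) * H ^ (δ / (2 * A)) :=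
        mul_le_mul_of_nonneg_left h1 (Real.rpow_nonneg hH0.le _)
    _ = H ^ ((1 + δ) / A) := by
        rw [← Real.rpow_add hH0]
        congr 1
        field_simp
        ring

theorem typeA_U {δ : ℝ} (hδ : 0 < δ) (hδ1 : δ ≤ 1) :
    ∃ A : ℝ, 1 ≤ A ∧ TypeAP (PSmallU A δ) := by
  obtain ⟨A, C₁, c₁, ε₁, t₀, hA, hC₁, hc₁, hε₁, ht₀, hεA, hG, hCl⟩ :=
    typeUH (half_pos hδ) (by linarith : δ / 2 ≤ 1)
  obtain ⟨C₃, hC₃, hAn⟩ := anat_hg hA
  refine ⟨A, hA, ?_⟩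
  have hA0 : 0 < A := by linarith only [hA]
  obtain ⟨y₀, hy₀⟩ : ∃ y : ℝ, y = (4 : ℝ) ^ (2 * (1 + δ) / δ) := ⟨_, rfl⟩
  have hy1 : 0 < y₀ := by rw [hy₀]; exact Real.rpow_pos_of_pos (by norm_num) _
  obtain ⟨e, he⟩ : ∃ e : ℝ, e = ε₁ / 2 * A := ⟨_, rfl⟩
  have he4 : 4 ≤ e := by rw [he]; linarith only [hεA]
  have he0 : 0 < e := by linarith only [he4]
  obtain ⟨t₁, ht₁⟩ : ∃ t₁ : ℝ, t₁ = max t₀ (Real.log (4 + y₀) / e) := ⟨_, rfl⟩
  have ht₁0 : t₀ ≤ t₁ := by rw [ht₁]; exact le_max_left _ _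
  have ht₁1 : Real.log (4 + y₀) / e ≤ t₁ := by rw [ht₁]; exact le_max_right _ _
  obtain ⟨c, hc⟩ : ∃ c : ℝ, c = min c₁ 1 := ⟨_, rfl⟩
  have hc0 : 0 < c := by rw [hc]; exact lt_min hc₁ one_pos
  have hcc1 : c ≤ c₁ := by rw [hc]; exact min_le_left _ _
  have hcc3 : c ≤ 1 := by rw [hc]; exact min_le_right _ _
  refine ⟨Real.exp (t₁ * (1 + c)) + C₁ + 2 * C₁ + 2 * (C₃ * 4), c, by positivity, hc0, ?_⟩
  intro γ s hs hs3 N ψ f hψ hf hP
  have hf0 : ∀ q, 0 ≤ f q := fun q => (hf q).1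
  obtain ⟨G, hGdef⟩ : ∃ G : ℝ, G = (∑ q ∈ Icc 1 N, f q) + (∑ q ∈ Icc 1 N, f q) ^ 2 := ⟨_, rfl⟩
  have hF0 : 0 ≤ ∑ q ∈ Icc 1 N, f q := sum_nonneg fun q _ => hf0 q
  have hG0 : 0 ≤ G := by rw [hGdef]; positivity
  have hs1 : s ≤ 1 := by linarith only [hs3]
  have hp : 0 < s ^ (1 + c) := Real.rpow_pos_of_pos hs _
  have hexpand : (Real.exp (t₁ * (1 + c)) + C₁ + 2 * C₁ + 2 * (C₃ * 4)) * s ^ (1 + c) * G
      = Real.exp (t₁ * (1 + c)) * s ^ (1 + c) * G + (C₁ * s ^ (1 + c) * G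
        + 2 * (C₁ * s ^ (1 + c)) * G + C₃ * 4 * s ^ (1 + c) * G + C₃ * 4 * s ^ (1 + c) * G) := by
    ring
  have hE : 0 ≤ Real.exp (t₁ * (1 + c)) * s ^ (1 + c) * G := by positivity
  have hE1 : 0 ≤ C₁ * s ^ (1 + c) * G := by positivity
  have hE2 : 0 ≤ 2 * (C₁ * s ^ (1 + c)) * G := by positivity
  have hE3 : 0 ≤ C₃ * 4 * s ^ (1 + c) * G := by positivity
  rw [← hGdef, hexpand]
  by_cases ht : Real.log (1 / s) ≤ t₁
  · have h1 := class_bounded (γ := γ) (ψ := ψ) (N := N) hf0 hs hc0 ht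
    rw [← hGdef] at h1
    linarith only [h1, hE1, hE2, hE3]
  · rw [not_le] at ht
    obtain ⟨t, htdef⟩ : ∃ t : ℝ, t = Real.log (1 / s) := ⟨_, rfl⟩
    rw [← htdef] at ht
    have ht0 : 0 < t := by linarith only [ht, ht₁0, ht₀]
    obtain ⟨x, hx⟩ : ∃ x : ℝ, x = Real.exp (e * t) := ⟨_, rfl⟩
    have hx4 : 4 + y₀ ≤ x := by
      rw [hx]
      have h1 : Real.log (4 + y₀) ≤ e * t := by
        rw [div_le_iff₀ he0] at ht₁1
        have h2 : t₁ * e ≤ t * e := mul_le_mul_of_nonneg_right ht.le he0.le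
        linarith only [ht₁1, h2]
      calc 4 + y₀ = Real.exp (Real.log (4 + y₀)) := (Real.exp_log (by linarith only [hy1])).symm
        _ ≤ _ := Real.exp_le_exp.2 h1
    obtain ⟨k₀, hk1, hk2⟩ := exists_k0 (x := x) (by linarith only [hx4, hy1])
    have hk₀ : 2 ≤ k₀ := by
      by_contra hcon
      have : k₀ + 1 ≤ 2 := by omega
      have h3 : (2 : ℝ) ^ (k₀ + 1) ≤ 2 ^ 2 := pow_le_pow_right₀ (by norm_num) this
      norm_num at h3
      linarith only [h3, hk2, hx4, hy1]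
    have hsplit := class_splitU (A := A) (γ := γ) (s := s) (ψ := ψ) (N := N) hf0 hk2
    -- (a)
    have hA1 : psum (TA γ ψ s) N (lowU (kh A) k₀ f) (lowU (kh A) k₀ f) ≤
        C₁ * s ^ (1 + c) * G := by
      have h1 := hG γ s (2 ^ k₀) hs hs3 (one_le_pow₀ (by norm_num)) (by
        rw [← htdef]
        linarith only [ht, ht₁0]) (by
        rw [← htdef]
        calc ((2 : ℝ) ^ k₀) ^ (1 / A) ≤ x ^ (1 / A) :=
              Real.rpow_le_rpow (by positivity) hk1 (by positivity)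
          _ = Real.exp (ε₁ / 2 * t) := by
              rw [hx, he, ← Real.exp_mul]
              congr 1
              field_simp) N ψ (lowU (kh A) k₀ f) hψ
        (fun q => ⟨(lowU_le hf0 q).1, (lowU_le hf0 q).2.trans (hf q).2⟩) (by
        intro q hq
        exact ⟨(hP q (lowU_ne hq).1).1, hg_le_of_kh_le (lowU_ne hq).2⟩)
      have h2 : s ^ (1 + c₁) ≤ s ^ (1 + c) :=
        Real.rpow_le_rpow_of_exponent_ge hs hs1 (by linarith only [hcc1])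
      have h3 : ∑ q ∈ Icc 1 N, lowU (kh A) k₀ f q ≤ ∑ q ∈ Icc 1 N, f q :=
        sum_le_sum fun q _ => (lowU_le hf0 q).2
      have h4 : 0 ≤ ∑ q ∈ Icc 1 N, lowU (kh A) k₀ f q := sum_nonneg fun q _ => (lowU_le hf0 q).1
      refine h1.trans (mul_le_mul (mul_le_mul_of_nonneg_left h2 hC₁.le) ?_ (by positivity)
        (by positivity))
      rw [hGdef]
      exact add_le_add h3 (pow_le_pow_left₀ h4 h3 2)
    -- (b)
    have hB1 : ∀ k ∈ Icc (k₀ + 1) ((Icc 1 N).sup (kh A)),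
        psum (TA γ ψ s) N (clU (kh A) f k) (clU (kh A) f k) ≤ (C₁ * s ^ (1 + c)) *
          ((∑ q ∈ Icc 1 N, clU (kh A) f k q) + (∑ q ∈ Icc 1 N, clU (kh A) f k q) ^ 2) := by
      intro k hk
      have hk' : k₀ + 1 ≤ k := (mem_Icc.1 hk).1
      obtain ⟨m, hm⟩ : ∃ m, k = m + 2 := ⟨k - 2, by omega⟩
      have h4m : (2 : ℝ) ^ k = 4 * 2 ^ m := by
        rw [hm, pow_add]
        ring
      have hyk : y₀ ≤ 2 ^ k := by
        have h5 : (2 : ℝ) ^ (k₀ + 1) ≤ 2 ^ k := pow_le_pow_right₀ (by norm_num) hk'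
        linarith only [h5, hk2, hx4]
      rw [hy₀] at hyk
      have hnum := class_numU hA hδ hyk
      have h1 := hCl γ s (2 ^ k) hs hs3 (one_le_pow₀ (by norm_num)) N ψ
        (clU (kh A) f k) hψ (fun q => ⟨(clU_le hf0 k q).1, (clU_le hf0 k q).2.trans (hf q).2⟩) (by
        intro q hq
        obtain ⟨hq1, hq2⟩ := clU_ne hq
        have h6 := hP q hq1
        refine ⟨h6.1, hg_le_of_kh_le (by omega), h6.2.trans (Real.exp_le_exp.2 ?_)⟩
        rw [neg_le_neg_iff]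
        have h7 : (2 : ℝ) ^ m < hg A q := lt_of_lt_kh (by omega)
        refine hnum.trans (Real.rpow_le_rpow (by positivity) ?_ (by positivity))
        rw [h4m]
        linarith only [h7])
      have h2 : s ^ (1 + c₁) ≤ s ^ (1 + c) :=
        Real.rpow_le_rpow_of_exponent_ge hs hs1 (by linarith only [hcc1])
      refine h1.trans (mul_le_mul_of_nonneg_right (mul_le_mul_of_nonneg_left h2 hC₁.le) ?_)
      exact add_nonneg (sum_nonneg fun q _ => (clU_le hf0 k q).1) (sq_nonneg _)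
    have hB3 := class_sumU hf0 _ (by positivity) hB1
    rw [← hGdef] at hB3
    -- (c)
    have hD0 : psum (RcU A (x / 4) s ψ) N f f ≤ _ :=
      hAn (x / 4) s N ψ f (by linarith only [hx4, hy1]) hs hψ hf
    have hD1 := class_excU hC₃ he4 ht0.le hs hs1 htdef hx hcc3 hF0
    rw [← hGdef] at hD1
    have hfin := hD0.trans hD1
    linarith only [hsplit, hA1, hB3, hfin, hE]

end Vale.P028
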