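import Vale.Agent.P028.MathlibUsed
import Vale.Agent.P028.XG4
import Vale.Agent.P028.XA
import Vale.Agent.P028.XB
import Vale.Agent.P028.XC1
import Vale.Agent.P028.XC2
import Vale.Agent.P028.H472.C.XD1
import Vale.Agent.P028.XD2
import Vale.Agent.P028.XD3
import Vale.Agent.P028.XF0

/-!
# Block G from block E only
-/

namespace Vale.P028

/-- the second near part, from the estimate for the unstructured divisors -/
theorem blkG_of_E (hE : BlkE) : BlkG :=
  blkG_of_blocks blkA blkB blkC1 (blkC2_of blkC1) blkD1 blkD2 blkD3' hE blkF0

end Vale.P028
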