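import Vale.Agent.P028.MathlibUsed
import Vale.Agent.P028.H472.C.XHDefs
import Vale.Agent.P028.KMain

/-!
# Full measure from `PLin` (block HL2)
-/

namespace Vale.P028

open Finset MeasureTheory Filter

theorem hl_greedy (A : Finset ℕ) (m : ℕ → ℝ) (c : ℝ) (hc : 0 ≤ c)
    (hm : ∀ q ∈ A, 0 ≤ m q ∧ m q ≤ c) :
    ∃ T ⊆ A, ∑ q ∈ T, m q ≤ 2 * c ∧ min (∑ q ∈ A, m q) c ≤ ∑ q ∈ T, m q := by
  classical
  induction A using Finset.induction_on with
  | empty => exact ⟨∅, Subset.rfl, by simpa using hc, by simp [hc]⟩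
  | insert a A ha ih =>
    obtain ⟨T, hT, h1, h2⟩ := ih (fun q hq => hm q (mem_insert_of_mem hq))
    have hma := hm a (mem_insert_self a A)
    by_cases hcT : c ≤ ∑ q ∈ T, m q
    · exact ⟨T, hT.trans (subset_insert a A), h1, (min_le_right _ _).trans hcT⟩
    · push Not at hcT
      have haT : a ∉ T := fun h => ha (hT h)
      refine ⟨insert a T, insert_subset_insert a hT, ?_, ?_⟩
      · rw [sum_insert haT]
        linarith [hma.2]
      · rw [sum_insert haT, sum_insert ha]
        rcases le_total (∑ q ∈ A, m q) c with h | h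
        · rw [min_eq_left h] at h2
          exact (min_le_left _ _).trans (by linarith)
        · rw [min_eq_right h] at h2
          linarith

open Classical in
/-- the window `i ≤ log log q < i + 1` -/
noncomputable def win (i : ℕ) : Finset ℕ :=
  Finset.filter
      (fun q : ℕ => (i : ℝ) ≤ Real.log (Real.log q) ∧ Real.log (Real.log q) < (i : ℝ) + 1)
      (Finset.Icc 1 ⌊Real.exp (Real.exp ((i : ℝ) + 1))⌋₊)

theorem win_spec {i q : ℕ} (hq : q ∈ win i) :
    0 < q ∧ (i : ℝ) ≤ Real.log (Real.log q) ∧ Real.log (Real.log q) < (i : ℝ) + 1 := by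
  classical
  unfold win at hq
  rw [mem_filter, mem_Icc] at hq
  exact ⟨by omega, hq.2⟩

theorem win_floor {i q : ℕ} (hq : q ∈ win i) : ⌊Real.log (Real.log q)⌋₊ = i := by
  obtain ⟨_, h1, h2⟩ := win_spec hq
  rw [Nat.floor_eq_iff (le_trans (Nat.cast_nonneg i) h1)]
  exact ⟨h1, h2⟩

theorem win_bounds {i q : ℕ} (hi : 1 ≤ i) (hq : q ∈ win i) :
    Real.exp (Real.exp i) ≤ q ∧ (q : ℝ) < Real.exp (Real.exp ((i : ℝ) + 1)) := by
  obtain ⟨h0, h1, h2⟩ := win_spec hq
  have hq0 : (1 : ℝ) ≤ q := by exact_mod_cast h0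
  have hi' : (1 : ℝ) ≤ i := by exact_mod_cast hi
  have hl0 : 0 ≤ Real.log q := Real.log_nonneg hq0
  have hl : 0 < Real.log q := by
    rcases hl0.eq_or_lt with h | h
    · rw [← h, Real.log_zero] at h1
      linarith
    · exact h
  constructor
  · rw [← Real.le_log_iff_exp_le (by linarith), ← Real.le_log_iff_exp_le hl]
    exact h1
  · rw [← Real.log_lt_iff_lt_exp (by linarith), ← Real.log_lt_iff_lt_exp hl]
    exact h2

theorem win_disjoint {i j : ℕ} (h : i ≠ j) : Disjoint (win i) (win j) := by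
  rw [Finset.disjoint_left]
  intro q h1 h2
  exact h ((win_floor h1).symm.trans (win_floor h2))

theorem wmass_eq (ψ : ℕ → ℝ) (i : ℕ) : wmassx ψ i = ∑ q ∈ win i, ((q.totient : ℝ) / q) * ψ q := rfl

theorem wmass_nonneg {ψ : ℕ → ℝ} (hψ : ∀ q, 0 ≤ ψ q) (i : ℕ) : 0 ≤ wmassx ψ i := by
  rw [wmass_eq]
  exact sum_nonneg fun q _ => mul_nonneg (by positivity) (hψ q)

theorem wmass_summable {ψ : ℕ → ℝ} (hψ : ∀ q, 0 ≤ ψ q)
    (hs : Summable (fun q : ℕ => ((q.totient : ℝ) / q) * ψ q)) : Summable (wmassx ψ) := by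
  classical
  apply summable_of_sum_range_le (c := ∑' q : ℕ, ((q.totient : ℝ) / q) * ψ q)
    (fun i => wmass_nonneg hψ i)
  intro n
  have h1 : ∑ i ∈ range n, wmassx ψ i =
      ∑ q ∈ (range n).biUnion win, ((q.totient : ℝ) / q) * ψ q := by
    rw [sum_biUnion]
    · rfl
    · intro i _ j _ hij
      exact win_disjoint hij
  rw [h1]
  exact hs.sum_le_tsum _ (fun q _ => mul_nonneg (by positivity) (hψ q))

theorem W_subset {γ : ℝ} {ψ₀ ψ : ℕ → ℝ} (h : ∀ q, ψ₀ q ≤ ψ q) : W γ ψ₀ ⊆ W γ ψ := by
  intro x hx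
  refine Set.Infinite.mono ?_ hx
  intro q hq
  exact ⟨hq.1, hq.2.trans_le (h q)⟩

theorem W_full_mono {γ : ℝ} {ψ₀ ψ : ℕ → ℝ} (h : ∀ q, ψ₀ q ≤ ψ q) (h0 : volume (W γ ψ₀)ᶜ = 0) :
    volume (W γ ψ)ᶜ = 0 :=
  measure_mono_null (Set.compl_subset_compl.mpr (W_subset h)) h0

theorem parity {u : ℕ → ℝ} (h : ¬ Summable u) :
    ∃ a : ℕ, a < 2 ∧ ¬ Summable (fun i => u (2 * i + a)) := by
  by_contra hcon
  push Not at hcon
  apply h
  have h0 := hcon 0 (by norm_num)
  have h1 := hcon 1 (by norm_num)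
  simp only [add_zero] at h0
  obtain ⟨x, hx⟩ := h0
  obtain ⟨y, hy⟩ := h1
  exact (HasSum.even_add_odd hx hy).summable

/-- the numerical facts -/
theorem hl_num (K : ℝ) (hK : 1 ≤ K) : ∃ i₀ : ℕ, 1 ≤ i₀ ∧ ∀ i : ℕ, i₀ ≤ i →
    2 * (1 + Real.log (1 + (i : ℝ))) ^ (-(K + 1)) ≤
      ((K + 2) * (1 + Real.log (1 + (i : ℝ)))) ^ (-K) ∧
    (K + 1) * (1 + (i : ℝ)) ^ 2 ≤ Real.exp ((i : ℝ) + 2) - Real.exp ((i : ℝ) + 1) := by
  obtain ⟨n₁, hn₁⟩ := exists_nat_ge (Real.exp (2 * (K + 2) ^ K))
  obtain ⟨n₂, hn₂⟩ := exists_nat_ge (6 * (K + 1))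
  refine ⟨n₁ + n₂ + 1, by omega, ?_⟩
  intro i hi
  have hi' : (n₁ : ℝ) + n₂ + 1 ≤ i := by exact_mod_cast hi
  have hn1 : (0 : ℝ) ≤ n₁ := Nat.cast_nonneg _
  have hn2 : (0 : ℝ) ≤ n₂ := Nat.cast_nonneg _
  constructor
  · set L : ℝ := 1 + Real.log (1 + (i : ℝ)) with hL
    have hL1 : 1 ≤ L := by
      have := Real.log_nonneg (show (1 : ℝ) ≤ 1 + i by linarith)
      linarith
    have hL2 : 2 * (K + 2) ^ K ≤ L := by
      have h1 : Real.exp (2 * (K + 2) ^ K) ≤ 1 + i := by linarith
      have h2 : 2 * (K + 2) ^ K ≤ Real.log (1 + i) := by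
        rw [Real.le_log_iff_exp_le (by linarith)]
        exact h1
      linarith
    have hL0 : 0 < L := by linarith
    have hK2 : 0 < (K + 2) ^ K := Real.rpow_pos_of_pos (by linarith) _
    rw [Real.mul_rpow (by linarith) hL0.le, Real.rpow_neg (by linarith) K]
    have h3 : L ^ (-(K + 1)) = L ^ (-K) * L⁻¹ := by
      rw [← Real.rpow_neg_one, ← Real.rpow_add hL0]
      congr 1
      ring
    rw [h3]
    have h4 : 0 < L ^ (-K) := Real.rpow_pos_of_pos hL0 _
    have h5 : 2 * L⁻¹ ≤ ((K + 2) ^ K)⁻¹ := by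
      rw [← div_eq_mul_inv, div_le_iff₀ hL0, inv_mul_eq_div, le_div_iff₀ hK2]
      exact hL2
    calc 2 * (L ^ (-K) * L⁻¹) = (2 * L⁻¹) * L ^ (-K) := by ring
      _ ≤ ((K + 2) ^ K)⁻¹ * L ^ (-K) := mul_le_mul_of_nonneg_right h5 h4.le
  · set x : ℝ := (i : ℝ) + 1 with hx
    have hx1 : 6 * (K + 1) ≤ x := by linarith
    have hx0 : 0 ≤ x := by linarith
    have h1 : Real.exp ((i : ℝ) + 2) = Real.exp x * Real.exp 1 := by
      rw [← Real.exp_add]
      congr 1
      linarith
    have h2 : x ^ 3 / 6 ≤ Real.exp x := by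
      have h3 := Real.pow_div_factorial_le_exp x hx0 3
      simpa [Nat.factorial] using h3
    have h4 : 2 ≤ Real.exp 1 := by
      have := Real.add_one_le_exp (1 : ℝ)
      linarith
    have h5 : 0 < Real.exp x := Real.exp_pos x
    have h6 : Real.exp x ≤ Real.exp x * Real.exp 1 - Real.exp x := by nlinarith
    rw [h1]
    have h7 : (1 + (i : ℝ)) = x := by linarith
    rw [h7]
    refine le_trans ?_ h6
    refine le_trans ?_ h2
    nlinarith [sq_nonneg x]

theorem blkHL2 : BlkHL2 := by
  classical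
  intro K hK hTA
  refine ⟨K + 1, by linarith, ?_⟩
  intro γ ψ hψ hdiv
  set cap : ℕ → ℝ := fun i => (1 + Real.log (1 + (i : ℝ))) ^ (-(K + 1)) with hcap
  have hlog0 : ∀ i : ℕ, 0 ≤ Real.log (1 + (i : ℝ)) := fun i =>
    Real.log_nonneg (by have := Nat.cast_nonneg (α := ℝ) i; linarith)
  have hcap0 : ∀ i, 0 < cap i := fun i =>
    Real.rpow_pos_of_pos (by have := hlog0 i; linarith) _
  -- small values
  set ψs : ℕ → ℝ := fun q =>
    if ψ q ≤ Real.exp (-(Real.log (Real.log q)) ^ (1 + 1 : ℝ)) then ψ q else 0 with hψs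
  set ψl : ℕ → ℝ := fun q =>
    if ψ q ≤ Real.exp (-(Real.log (Real.log q)) ^ (1 + 1 : ℝ)) then 0 else ψ q with hψl
  have hψs0 : ∀ q, 0 ≤ ψs q := by
    intro q
    simp only [hψs]
    split_ifs
    · exact hψ q
    · exact le_rfl
  have hψl0 : ∀ q, 0 ≤ ψl q := by
    intro q
    simp only [hψl]
    split_ifs
    · exact le_rfl
    · exact hψ q
  have hψsl : ∀ q, ψ q = ψs q + ψl q := by
    intro q
    simp only [hψs, hψl]
    split_ifs <;> simp
  by_cases hsum : Summable (fun q : ℕ => ((q.totient : ℝ) / q) * ψs q)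
  swap
  · refine W_full_mono (ψ₀ := ψs) (fun q => by have := hψsl q; have := hψl0 q; linarith) ?_
    refine theoremK γ ψs hψs0 1 one_pos (Eventually.of_forall fun q => ?_) hsum
    simp only [hψs]
    split_ifs with h
    · exact h
    · exact (Real.exp_pos _).le
  -- the large part
  have hms := wmass_summable hψs0 hsum
  have hmadd : ∀ i, wmassx ψ i = wmassx ψs i + wmassx ψl i := by
    intro i
    simp only [wmass_eq]
    rw [← sum_add_distrib]
    refine sum_congr rfl fun q _ => ?_
    rw [hψsl q]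
    ring
  set u : ℕ → ℝ := fun i => min (wmassx ψl i) (cap i) with hu
  have hu0 : ∀ i, 0 ≤ u i := fun i => le_min (wmass_nonneg hψl0 i) (hcap0 i).le
  have hdivl : ¬ Summable u := by
    intro hs
    apply hdiv
    refine Summable.of_nonneg_of_le ?_ ?_ (hms.add hs)
    · intro i
      exact le_min (wmass_nonneg hψ i) (hcap0 i).le
    · intro i
      simp only [hu]
      rw [hmadd i]
      have h1 := wmass_nonneg hψs0 i
      rcases le_total (wmassx ψl i) (cap i) with h | h
      · rw [min_eq_left h]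
        exact min_le_left _ _
      · rw [min_eq_right h]
        refine (min_le_right _ _).trans ?_
        linarith
  obtain ⟨a, ha, hdiva⟩ := parity hdivl
  obtain ⟨i₀, hi₀1, hnum⟩ := hl_num K hK
  -- the capped function
  set wq : ℕ → ℕ := fun q => ⌊Real.log (Real.log q)⌋₊ with hwq
  set ψ₁ : ℕ → ℝ := fun q => if ψl q = 0 then 0 else
    min (ψl q) (cap (wq q) * (q / q.totient)) with hψ₁
  have hψ₁le : ∀ q, ψ₁ q ≤ ψ q := by
    intro q
    simp only [hψ₁]
    split_ifs with h
    · exact hψ q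
    · refine (min_le_left _ _).trans ?_
      have := hψsl q
      have := hψs0 q
      linarith
  have hψ₁0 : ∀ q, 0 ≤ ψ₁ q := by
    intro q
    simp only [hψ₁]
    split_ifs with h
    · exact le_rfl
    · exact le_min (hψl0 q) (mul_nonneg (hcap0 _).le (by positivity))
  set m : ℕ → ℝ := fun q => ((q.totient : ℝ) / q) * ψ₁ q with hm
  have hm0 : ∀ q, 0 ≤ m q := fun q => mul_nonneg (by positivity) (hψ₁0 q)
  have hmcap : ∀ q, 0 < q → m q ≤ cap (wq q) := by
    intro q hq
    have hq' : (0 : ℝ) < q := by exact_mod_cast hq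
    have ht : (0 : ℝ) < q.totient := by exact_mod_cast Nat.totient_pos.mpr hq
    simp only [hm, hψ₁]
    split_ifs with h
    · rw [mul_zero]
      exact (hcap0 _).le
    · calc ((q.totient : ℝ) / q) * min (ψl q) (cap (wq q) * (q / q.totient))
          ≤ ((q.totient : ℝ) / q) * (cap (wq q) * (q / q.totient)) :=
            mul_le_mul_of_nonneg_left (min_le_right _ _) (by positivity)
        _ = cap (wq q) := by
            field_simp
  -- the mass of a window
  have humin : ∀ i, u i ≤ min (∑ q ∈ win i, m q) (cap i) := by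
    intro i
    refine le_min ?_ (min_le_right _ _)
    by_cases hex : ∃ q ∈ win i, ψl q ≠ 0 ∧ cap i * (q / q.totient) ≤ ψl q
    · obtain ⟨q, hq, hne, hle⟩ := hex
      refine (min_le_right _ _).trans ?_
      refine le_trans ?_ (single_le_sum (fun q _ => hm0 q) hq)
      obtain ⟨hq0, _⟩ := win_spec hq
      have hq' : (0 : ℝ) < q := by exact_mod_cast hq0
      have ht : (0 : ℝ) < q.totient := by exact_mod_cast Nat.totient_pos.mpr hq0
      simp only [hm, hψ₁]
      rw [if_neg hne]
      have hw : wq q = i := win_floor hq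
      rw [hw, min_eq_right hle]
      apply le_of_eq
      field_simp
    · push Not at hex
      refine (min_le_left _ _).trans ?_
      rw [wmass_eq]
      refine sum_le_sum fun q hq => ?_
      simp only [hm, hψ₁]
      split_ifs with h
      · rw [h]
      · have hw : wq q = i := win_floor hq
        rw [hw, min_eq_left (hex q hq h).le]
  -- lower bound for the capped function
  have hlow : ∀ i, 1 ≤ i → ∀ q ∈ win i, ψ₁ q ≠ 0 →
      Real.exp (-((K + 1) * (1 + (i : ℝ)) ^ 2)) ≤ ψ₁ q := by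
    intro i hi q hq hne
    obtain ⟨hq0, hw1, hw2⟩ := win_spec hq
    have hi' : (1 : ℝ) ≤ i := by exact_mod_cast hi
    have hq' : (0 : ℝ) < q := by exact_mod_cast hq0
    have ht : (0 : ℝ) < q.totient := by exact_mod_cast Nat.totient_pos.mpr hq0
    have hw : wq q = i := win_floor hq
    simp only [hψ₁] at hne ⊢
    split_ifs at hne ⊢ with h
    · exact absurd rfl hne
    · rw [hw]
      apply le_min
      · simp only [hψl] at h ⊢
        split_ifs at h ⊢ with h2
        · exact absurd rfl h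
        · push Not at h2
          refine le_trans (Real.exp_le_exp.mpr ?_) h2.le
          have e1 : (Real.log (Real.log q)) ^ (1 + 1 : ℝ) = (Real.log (Real.log q)) ^ 2 := by
            rw [show (1 + 1 : ℝ) = 2 by norm_num, Real.rpow_two]
          rw [e1]
          have h3 : (Real.log (Real.log q)) ^ 2 ≤ (1 + (i : ℝ)) ^ 2 := by
            apply pow_le_pow_left₀ (by linarith)
            linarith
          nlinarith [sq_nonneg (1 + (i : ℝ))]
      · have h1 : Real.exp (-((K + 1) * (1 + (i : ℝ)) ^ 2)) ≤ cap i := by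
          simp only [hcap]
          have h2 : 0 < 1 + Real.log (1 + (i : ℝ)) := by
            have := hlog0 i
            linarith
          rw [Real.rpow_def_of_pos h2]
          apply Real.exp_le_exp.mpr
          have h3 : Real.log (1 + Real.log (1 + (i : ℝ))) ≤ Real.log (1 + (i : ℝ)) := by
            have := Real.log_le_sub_one_of_pos h2
            linarith
          have h4 : Real.log (1 + (i : ℝ)) ≤ (i : ℝ) := by
            have := Real.log_le_sub_one_of_pos (show (0 : ℝ) < 1 + i by linarith)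
            linarith
          have h5 : Real.log (1 + Real.log (1 + (i : ℝ))) ≤ (1 + (i : ℝ)) ^ 2 := by nlinarith
          nlinarith
        refine h1.trans ?_
        have h6 : (1 : ℝ) ≤ q / q.totient := by
          rw [le_div_iff₀ ht, one_mul]
          exact_mod_cast Nat.totient_le q
        nlinarith [hcap0 i]
  refine W_full_mono hψ₁le ?_
  refine full_P hTA γ ψ₁ hψ₁0 ?_
  intro N
  set j₀ : ℕ := i₀ + N with hj₀
  have hdivj : ¬ Summable (fun i => u (2 * (i + j₀) + a)) := by
    intro hs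
    exact hdiva ((summable_nat_add_iff (f := fun i => u (2 * i + a)) j₀).mp hs)
  obtain ⟨n, hn⟩ : ∃ n : ℕ, 1 ≤ ∑ i ∈ range n, u (2 * (i + j₀) + a) := by
    have h1 := (not_summable_iff_tendsto_nat_atTop_of_nonneg (fun i => hu0 _)).mp hdivj
    exact ((tendsto_atTop.mp h1) 1).exists
  have hT : ∀ i, ∃ T ⊆ (win i).filter (fun q => ψ₁ q ≠ 0), ∑ q ∈ T, m q ≤ 2 * cap i ∧
      u i ≤ ∑ q ∈ T, m q := by
    intro i
    obtain ⟨T, hT, h1, h2⟩ := hl_greedy ((win i).filter (fun q => ψ₁ q ≠ 0)) m (cap i)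
      (hcap0 i).le (by
        intro q hq
        rw [mem_filter] at hq
        refine ⟨hm0 q, ?_⟩
        have := hmcap q (win_spec hq.1).1
        rwa [show wq q = i from win_floor hq.1] at this)
    refine ⟨T, hT, h1, ?_⟩
    have h3 : ∑ q ∈ (win i).filter (fun q => ψ₁ q ≠ 0), m q = ∑ q ∈ win i, m q := by
      rw [sum_filter]
      refine sum_congr rfl fun q _ => ?_
      split_ifs with h
      · rfl
      · push Not at h
        simp only [hm, h, mul_zero]
    rw [h3] at h2
    exact (humin i).trans h2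
  choose T hTsub hTle hTge using hT
  set S : Finset ℕ := (range n).biUnion (fun i => T (2 * (i + j₀) + a)) with hS
  have hSspec : ∀ q ∈ S, ∃ i, i₀ ≤ i ∧ N ≤ i ∧ i % 2 = a ∧ q ∈ T i ∧ q ∈ win i ∧ ψ₁ q ≠ 0 := by
    intro q hq
    rw [hS, mem_biUnion] at hq
    obtain ⟨i, hi, hqT⟩ := hq
    have h1 := hTsub _ hqT
    rw [mem_filter] at h1
    exact ⟨2 * (i + j₀) + a, by omega, by omega, by omega, hqT, h1.1, h1.2⟩
  have hSsum : 1 ≤ ∑ q ∈ S, m q := by
    rw [hS, sum_biUnion]
    · exact hn.trans (sum_le_sum fun i _ => hTge _)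
    · intro i _ j _ hij
      have h1 : Disjoint (win (2 * (i + j₀) + a)) (win (2 * (j + j₀) + a)) :=
        win_disjoint (by omega)
      exact Finset.disjoint_of_subset_left ((hTsub _).trans (filter_subset _ _))
        (Finset.disjoint_of_subset_right ((hTsub _).trans (filter_subset _ _)) h1)
  refine ⟨S, ?_, hSsum, wq, fun i => (K + 2) * (1 + Real.log (1 + (i : ℝ))), ?_, ?_, ?_, ?_⟩
  · intro q hq
    obtain ⟨i, hi0, hiN, _, _, hw, hne⟩ := hSspec q hq
    refine ⟨?_, lt_of_le_of_ne (hψ₁0 q) (Ne.symm hne)⟩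
    have h1 := (win_bounds (by omega) hw).1
    have h2 : (i : ℝ) ≤ q := by
      have e1 := Real.add_one_le_exp (i : ℝ)
      have e2 := Real.add_one_le_exp (Real.exp (i : ℝ))
      linarith
    have h3 : i ≤ q := by exact_mod_cast h2
    omega
  · intro i
    have := hlog0 i
    nlinarith
  · intro q hq
    by_cases h : q ∈ S
    · simp only [if_pos h]
      obtain ⟨i, hi0, _, _, _, hw, hne⟩ := hSspec q h
      refine ⟨(win_spec hw).1, ?_⟩
      have h1 := hlow i (by omega) q hw hne
      refine le_trans (Real.exp_le_exp.mpr ?_) h1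
      rw [show wq q = i from win_floor hw]
      have hi1 : (0 : ℝ) < 1 + i := by positivity
      have h2 : Real.exp ((K + 2) * (1 + Real.log (1 + (i : ℝ)))) =
          Real.exp (K + 2) * (1 + (i : ℝ)) ^ (K + 2) := by
        rw [Real.rpow_def_of_pos hi1, ← Real.exp_add]
        congr 1
        ring
      have h3 : K + 1 ≤ Real.exp (K + 2) := by
        have := Real.add_one_le_exp (K + 2)
        linarith
      have h4 : (1 + (i : ℝ)) ^ 2 ≤ (1 + (i : ℝ)) ^ (K + 2) := by
        rw [← Real.rpow_two]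
        apply Real.rpow_le_rpow_of_exponent_le
        · have := Nat.cast_nonneg (α := ℝ) i
          linarith
        · linarith
      rw [h2]
      have h5 : (K + 1) * (1 + (i : ℝ)) ^ 2 ≤ Real.exp (K + 2) * (1 + (i : ℝ)) ^ (K + 2) :=
        mul_le_mul h3 h4 (by positivity) (Real.exp_pos _).le
      linarith
    · simp only [if_neg h, ne_eq, not_true_eq_false] at hq
  · intro q r hq hr hqr
    by_cases h : q ∈ S
    swap
    · simp only [if_neg h, ne_eq, not_true_eq_false] at hq
    by_cases h' : r ∈ S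
    swap
    · simp only [if_neg h', ne_eq, not_true_eq_false] at hr
    simp only [if_pos h]
    obtain ⟨i, hi0, _, hia, _, hw, hne⟩ := hSspec q h
    obtain ⟨j, hj0, _, hja, _, hw', hne'⟩ := hSspec r h'
    rw [show wq q = i from win_floor hw, show wq r = j from win_floor hw'] at hqr
    have hij : i + 2 ≤ j := by omega
    have hij' : (i : ℝ) + 2 ≤ j := by exact_mod_cast hij
    have h1 := hlow i (by omega) q hw hne
    have h2 := (win_bounds (by omega) hw).2
    have h3 := (win_bounds (by omega) hw').1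
    have h4 := (hnum i hi0).2
    calc (q : ℝ) ≤ Real.exp (Real.exp ((i : ℝ) + 1)) := h2.le
      _ ≤ Real.exp (Real.exp ((i : ℝ) + 2) + -((K + 1) * (1 + (i : ℝ)) ^ 2)) :=
          Real.exp_le_exp.mpr (by linarith)
      _ = Real.exp (Real.exp ((i : ℝ) + 2)) * Real.exp (-((K + 1) * (1 + (i : ℝ)) ^ 2)) :=
          Real.exp_add _ _
      _ ≤ r * ψ₁ q := by
          apply mul_le_mul _ h1 (Real.exp_pos _).le (Nat.cast_nonneg _)
          exact (Real.exp_le_exp.mpr (Real.exp_le_exp.mpr hij')).trans h3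
  · intro i
    rw [sum_filter]
    by_cases hex : ∃ q ∈ S, wq q = i
    · obtain ⟨q₀, hq₀, hwi⟩ := hex
      obtain ⟨i', hi0, _, _, _, hw, _⟩ := hSspec q₀ hq₀
      have hii : i' = i := by
        rw [← hwi]
        exact (win_floor hw).symm
      subst hii
      have h1 : (∑ q ∈ Icc 1 (S.sup id), if wq q = i' then
          (if q ∈ S then ((q.totient : ℝ) / q) * ψ₁ q else 0) else 0) ≤ ∑ q ∈ T i', m q := by
        have h2 : ∀ q ∈ Icc 1 (S.sup id), (if wq q = i' then
            (if q ∈ S then ((q.totient : ℝ) / q) * ψ₁ q else 0) else 0) ≤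
            (if q ∈ T i' then m q else 0) := by
          intro q _
          by_cases ha : wq q = i' ∧ q ∈ S
          · obtain ⟨hb, hc⟩ := ha
            obtain ⟨j, _, _, _, hqT, hwj, _⟩ := hSspec q hc
            have hj : j = i' := by
              rw [← hb]
              exact (win_floor hwj).symm
            rw [hj] at hqT
            rw [if_pos hb, if_pos hc, if_pos hqT]
          · have h3 : (if wq q = i' then
                (if q ∈ S then ((q.totient : ℝ) / q) * ψ₁ q else 0) else 0) = 0 := by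
              split_ifs with h5 h6
              · exact absurd ⟨h5, h6⟩ ha
              · rfl
              · rfl
            rw [h3]
            split_ifs
            · exact hm0 q
            · exact le_rfl
        refine (sum_le_sum h2).trans ?_
        rw [← sum_filter]
        exact sum_le_sum_of_subset_of_nonneg (fun q hq => (mem_filter.mp hq).2)
          (fun q _ _ => hm0 q)
      exact h1.trans ((hTle i').trans (hnum i' hi0).1)
    · push Not at hex
      have h1 : (∑ q ∈ Icc 1 (S.sup id), if wq q = i then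
          (if q ∈ S then ((q.totient : ℝ) / q) * ψ₁ q else 0) else 0) = 0 := by
        refine sum_eq_zero fun q _ => ?_
        split_ifs with h5 h6
        · exact absurd h5 (hex q h6)
        · rfl
        · rfl
      rw [h1]
      apply Real.rpow_nonneg
      have := hlog0 i
      nlinarith

end Vale.P028
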